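import Vale.Agent.P354YR.Kap

/-!
The metrics gK and gin: signature, smoothness, and the isometries kap and mir.
-/

open scoped ContDiff
open Set Filter Topology

noncomputable section

namespace Vale.Agent.P354YR

open Vale.Agent.P354n (R4 mink)
open Vale.Agent.P354I (X Dat dT dP rnd Sg rm rp)
open Vale.Agent.P354R (Pull Del Met Vac)
open Vale.Agent.P354XS (zc ds dZ)
open Vale.Agent.P354XE
open Vale.Agent.P354XK hiding Om kf
open Vale.Agent.P354RC (at_df)

variable {M a : ℝ} {p v w : R4}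

/-! ### Differentials -/

theorem hd_rd (hp : xs p ≠ 0) : ∃ L : R4 →L[ℝ] ℝ, HasFDerivAt rd L p ∧ ∀ v, L v = dr p v := by
  have r0 := rd_pos hp
  have x0 := hasFDerivAt_snd (𝕜 := ℝ) (p := p)
  have k := (((x0.fst.pow 2).add (x0.snd.fst.pow 2)).add (x0.snd.snd.pow 2)).sqrt
    (show p.2.1 ^ 2 + p.2.2.1 ^ 2 + p.2.2.2 ^ 2 ≠ 0 by rw [← rd_sq]; positivity)
  have e : ∀ q : R4, √(q.2.1 ^ 2 + q.2.2.1 ^ 2 + q.2.2.2 ^ 2) = rd q := fun q => by
    rw [← rd_sq, Real.sqrt_sq (rd_nn q)]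
  simp only [Pi.add_apply, e] at k
  refine ⟨_, k, fun v => ?_⟩
  simp [dr, dT_c]
  field_simp

theorem fd_rd (hp : xs p ≠ 0) (v : R4) : fderiv ℝ rd p v = dr p v := by
  obtain ⟨L, h, e⟩ := hd_rd hp
  rw [h.fderiv, e]

theorem fd_kx (hp : xs p ≠ 0) (v : R4) : fderiv ℝ (kx M a) p v = dx M a p v := by
  obtain ⟨L, h, e⟩ := hd_rd hp
  have r0 := rd_pos hp
  have q0 := Real.sqrt_pos.2 r0
  have k := h.sqrt r0.ne'
  have k2 := k.sub (((hasDerivAt_inv (mul_pos two_pos q0).ne').comp_hasFDerivAt p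
    (k.const_mul 2)).const_mul √(M ^ 2 - a ^ 2))
  rw [show fderiv ℝ (kx M a) p = _ from k2.fderiv]
  have := Real.sq_sqrt r0.le
  simp [e, dx, kY, dr]
  generalize √(rd p) = s at *
  rw [← this]
  field_simp

theorem fd_kU (hp : xs p ≠ 0) (v : R4) : fderiv ℝ (kU M a) p v = dU M a p v := by
  rw [show fderiv ℝ (kU M a) p = _ from (hasFDerivAt_fst.sub
    (at_df (s_kx contDiffAt_id hp)).hasFDerivAt).fderiv]
  simp [dU, ← fd_kx hp]
theorem fd_kV (hp : xs p ≠ 0) (v : R4) : fderiv ℝ (kV M a) p v = dV M a p v := by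
  rw [show fderiv ℝ (kV M a) p = _ from (hasFDerivAt_fst.add
    (at_df (s_kx contDiffAt_id hp)).hasFDerivAt).fderiv]
  simp [dV, ← fd_kx hp]
theorem fd_kr (hp : xs p ≠ 0) (v : R4) :
    fderiv ℝ (kr M a) p v = -(kU M a p * dV M a p v + kV M a p * dU M a p v) := by
  rw [funext (kr_eq (M := M) (a := a)), show fderiv ℝ (fun p => rp M a - kU M a p * kV M a p) p = _
    from (((at_df (s_kU contDiffAt_id hp)).hasFDerivAt.mul
      (at_df (s_kV contDiffAt_id hp)).hasFDerivAt).const_sub _).fderiv]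
  simp [← fd_kU hp, ← fd_kV hp]
theorem dQ_eq (p v : R4) : dQ M a p v = (kV M a p * dU M a p v - kU M a p * dV M a p v) / 2 := by
  simp only [dQ, kU, kV, dU, dV]; ring

theorem lin_dx (p : R4) : IsLinearMap ℝ (dx M a p) :=
  ⟨fun v w => by simp only [dx, (lin_dT p).map_add v w]; ring,
    fun c v => by simp only [dx, (lin_dT p).map_smul c v, smul_eq_mul]; ring⟩
theorem lin_kl (p : R4) : IsLinearMap ℝ (kl M a p) :=
  ⟨fun v w => by simp only [kl, dU, dV, (lin_dx p).map_add, (lin_dq p).map_add, Prod.fst_add]; ring,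
    fun c v => by
      simp only [kl, dU, dV, (lin_dx p).map_smul, (lin_dq p).map_smul, Prod.smul_fst, smul_eq_mul]
      ring⟩
theorem lin_kn (p : R4) : IsLinearMap ℝ (kn M a p) :=
  ⟨fun v w => by simp only [kn, dU, dV, (lin_dx p).map_add, (lin_dq p).map_add, Prod.fst_add]; ring,
    fun c v => by
      simp only [kn, dU, dV, (lin_dx p).map_smul, (lin_dq p).map_smul, Prod.smul_fst, smul_eq_mul]
      ring⟩
theorem lin_kG (p : R4) : IsLinearMap ℝ (kG M a p) :=
  ⟨fun v w => by simp only [kG, dQ, (lin_dx p).map_add, (lin_dq p).map_add, Prod.fst_add]; ring,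
    fun c v => by
      simp only [kG, dQ, (lin_dx p).map_smul, (lin_dq p).map_smul, Prod.smul_fst, smul_eq_mul]
      ring⟩
theorem lin_dr (p : R4) : IsLinearMap ℝ (dr p) :=
  ⟨fun v w => by simp only [dr, (lin_dT p).map_add v w]; ring,
    fun c v => by simp only [dr, (lin_dT p).map_smul c v, smul_eq_mul]; ring⟩
theorem lin_kf (p : R4) : IsLinearMap ℝ (kf a p) :=
  ⟨fun v w => by simp only [kf, (lin_dr p).map_add, (lin_dq p).map_add, Prod.fst_add]; ring,
    fun c v => by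
      simp only [kf, (lin_dr p).map_smul, (lin_dq p).map_smul, Prod.smul_fst, smul_eq_mul]; ring⟩

/-! ### The ingoing metric -/

theorem gin_nf (hp : xs p ≠ 0) : gin M a p = nf (Sg a (rd p) (xs p)) p
    (fun v => Del M a (rd p) / Sg a (rd p) (xs p) * kf a p v - 2 * dr p v) (kf a p)
    (fun v => -(a * kf a p v)) := by
  funext v w
  have S0 := (Sg_pos (a := a) (y := xs p) (rd_pos hp)).ne'
  simp only [gin, nf, kf, Del]
  field_simp
  simp only [Sg_eq]
  ring

theorem gin_sig (hp : xs p ≠ 0) :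
    ∃ L : R4 → R4, IsLinearMap ℝ L ∧ L.Injective ∧ ∀ v w, gin M a p v w = mink (L v) (L w) := by
  have S0 := Sg_pos (a := a) (y := xs p) (rd_pos hp)
  rw [gin_nf hp]
  refine nf_sig hp S0 ⟨fun v w => ?_, fun c v => ?_⟩ (lin_kf p) ⟨fun v w => ?_, fun c v => ?_⟩
    fun v h1 h2 h3 => ?_
  · rw [(lin_kf p).map_add, (lin_dr p).map_add]; ring
  · rw [(lin_kf p).map_smul, (lin_dr p).map_smul]; simp only [smul_eq_mul]; ring
  · rw [(lin_kf p).map_add]; ring
  · rw [(lin_kf p).map_smul]; simp only [smul_eq_mul]; ring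
  · simp only [h2, mul_zero, neg_zero, add_zero, zero_sub, neg_eq_zero] at h1 h3 ⊢
    have e1 : dr p v = 0 := by linarith
    have e2 := (mul_eq_zero.1 h3).resolve_left S0.ne'
    rw [kf, e1, e2] at h2
    exact ⟨by linarith, (mul_eq_zero.1 e1).resolve_left (rd_pos hp).ne', trivial⟩

section
variable {Q : Type} [NormedAddCommGroup Q] [NormedSpace ℝ Q] {q : Q} {f : Q → R4} {Mf af : Q → ℝ}
  (hf : ContDiffAt ℝ ∞ f q) (h0 : xs (f q) ≠ 0)
include hf h0
theorem s_dr (v : R4) : ContDiffAt ℝ ∞ (fun q => dr (f q) v) q := (s_rd hf h0).mul (s_dT hf h0 v)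
theorem s_kf (ha : ContDiffAt ℝ ∞ af q) (v : R4) : ContDiffAt ℝ ∞ (fun q => kf (af q) (f q) v) q :=
  (contDiffAt_const.add (s_dr hf h0 v)).sub (ha.mul (s_dq hf h0 v))
/-- Joint smoothness in the parameters and the point. -/
theorem s_gin (hM : ContDiffAt ℝ ∞ Mf q) (ha : ContDiffAt ℝ ∞ af q) (v w : R4) :
    ContDiffAt ℝ ∞ (fun q => gin (Mf q) (af q) (f q) v w) q :=
  have S := s_Sg hf h0 ha (s_rd hf h0)
  ((((contDiffAt_const.add ((s_dr hf h0 v).mul (s_dr hf h0 w))).sub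
    (ha.mul (((s_dr hf h0 v).mul (s_dq hf h0 w)).add ((s_dq hf h0 v).mul (s_dr hf h0 w))))).add
    (S.mul (s_rnd hf h0 v w))).add ((ha.pow 2).mul ((s_dq hf h0 v).mul (s_dq hf h0 w)))).add
    ((((contDiffAt_const.mul hM).mul (s_rd hf h0)).div S (Sg_pos (rd_pos h0)).ne').mul
      ((s_kf hf h0 ha v).mul (s_kf hf h0 ha w)))
theorem s_dx (v : R4) : ContDiffAt ℝ ∞ (fun q => dx M a (f q) v) q :=
  ((s_kY hf h0).div_const 2).mul (s_dT hf h0 v)
theorem s_cw : ContDiffAt ℝ ∞ (fun q => cw M a (f q)) q :=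
  contDiffAt_const.sub (contDiffAt_const.mul (contDiffAt_const.sub ((s_zc hf h0).pow 2)))
theorem s_cS : ContDiffAt ℝ ∞ (fun q => cS M a (f q)) q := s_Sg hf h0 contDiffAt_const (s_kr hf h0)
theorem s_cP : ContDiffAt ℝ ∞ (fun q => cP M a (f q)) q :=
  (s_cS hf h0).add ((((s_kr hf h0).sub contDiffAt_const).mul (s_cw hf h0)).div_const _)
theorem s_cE : ContDiffAt ℝ ∞ (fun q => cE M a (f q)) q :=
  ((s_kr hf h0).add contDiffAt_const).sub ((s_cw hf h0).div_const _)
theorem s_kl (v : R4) : ContDiffAt ℝ ∞ (fun q => kl M a (f q) v) q :=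
  (((s_cP hf h0).mul (contDiffAt_const.sub (s_dx hf h0 v))).sub (((s_cE hf h0).mul
    ((s_kU hf h0).pow 2)).mul (contDiffAt_const.add (s_dx hf h0 v)))).add ((((s_kU hf h0).mul
      ((s_kr hf h0).sub contDiffAt_const)).mul contDiffAt_const).mul (s_dq hf h0 v))
theorem s_kn (v : R4) : ContDiffAt ℝ ∞ (fun q => kn M a (f q) v) q :=
  (((s_cP hf h0).mul (contDiffAt_const.add (s_dx hf h0 v))).sub (((s_cE hf h0).mul
    ((s_kV hf h0).pow 2)).mul (contDiffAt_const.sub (s_dx hf h0 v)))).sub ((((s_kV hf h0).mul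
      ((s_kr hf h0).sub contDiffAt_const)).mul contDiffAt_const).mul (s_dq hf h0 v))
theorem s_kG (v : R4) : ContDiffAt ℝ ∞ (fun q => kG M a (f q) v) q :=
  (contDiffAt_const.mul (s_dq hf h0 v)).add (((contDiffAt_const.mul ((s_kr hf h0).add
    contDiffAt_const)).div_const _).mul (((s_kx hf h0).mul contDiffAt_const).sub
      (hf.fst.mul (s_dx hf h0 v))))
end

theorem gin_met {D : Set R4} (hD : ∀ p ∈ D, xs p ≠ 0) : Met (gin M a) D :=
  met_of_sig (fun p hp => gin_sig (hD p hp)) fun v w p hp =>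
    (s_gin contDiffAt_id (hD p hp) contDiffAt_const contDiffAt_const v w).contDiffWithinAt

theorem XI_gin (hp : xs p ≠ 0) (v : R4) : gin M a p (XI M a p) v = -(Sg a (rd p) (xs p) * v.1) := by
  have S0 := (Sg_pos (a := a) (y := xs p) (rd_pos hp)).ne'
  have r0 := (rd_pos hp).ne'
  have e1 : dT (xs p) (xs (XI M a p)) = -(2 * M) := by
    simp only [dT_c, XI, Prod.smul_snd, Prod.smul_fst, smul_eq_mul]
    field_simp
    linear_combination M * rd_sq p
  have e2 : dq p (XI M a p) = 0 := by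
    simp only [dq_c, XI, Prod.smul_snd, Prod.smul_fst, smul_eq_mul]; ring
  have e3 : rnd (xs p) (xs (XI M a p)) (xs v) = 0 := by
    rw [rnd_c, e1, dT_c]
    simp only [XI, Prod.smul_snd, Prod.smul_fst, smul_eq_mul]; ring
  simp only [gin, kf, dr, e1, e2, e3, show (XI M a p).1 = Sg a (rd p) (xs p) + 2 * M * rd p from rfl]
  field_simp
  ring

/-! ### The Kruskal metric -/

section
variable (h : |a| < M)
include h

theorem kN : (rp M a - rm M a) / (2 * ka M a) = rp M a ^ 2 + a ^ 2 := by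
  have := b_pos h
  have := M_pos h
  have := rp_pos h
  rw [← Np_eq h, ka, show rp M a - rm M a = 2 * √(M ^ 2 - a ^ 2) by simp only [rp, rm]; ring]
  field_simp
theorem ON : Oh M a * (rp M a ^ 2 + a ^ 2) = a := by
  have := M_pos h
  have := rp_pos h
  rw [← Np_eq h, Oh]; field_simp
theorem Nw (p : R4) : (rp M a ^ 2 + a ^ 2) * cw M a p = rp M a ^ 2 + a ^ 2 * zc (xs p) ^ 2 := by
  rw [cw]; linear_combination (-a * (1 - zc (xs p) ^ 2)) * ON h
theorem cw_pos (p : R4) : 0 < cw M a p := by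
  have := rp_pos h
  exact pos_of_mul_pos_left (b := rp M a ^ 2 + a ^ 2) (by rw [mul_comm, Nw h]; positivity)
    (by positivity)
theorem cS_pos (hp : p ∈ DK M a) : 0 < cS M a p := Sg_pos ((rm_nn h).trans_lt hp.2)
theorem cP_pos (hp : p ∈ DK M a) : 0 < cP M a p := by
  have := cS_pos h hp
  have := cw_pos h p
  have := ka_pos h
  have := sub_pos.2 hp.2
  rw [cP]; positivity
theorem PE (p : R4) : cP M a p + (kr M a p - rp M a) * cE M a p = 2 * cS M a p := by
  simp only [cP, cE, cS, Sg_eq]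
  linear_combination cw M a p * kN h + Nw h p

theorem gK_sig (hp : p ∈ DK M a) :
    ∃ L : R4 → R4, IsLinearMap ℝ L ∧ L.Injective ∧ ∀ v w, gK M a p v w = mink (L v) (L w) := by
  have S0 := cS_pos h hp
  have R0 := sub_pos.2 hp.2
  have P0 := cP_pos h hp
  have k0 := ka_pos h
  refine nf_sig hp.1 S0 ⟨fun v w => ?_, fun c v => ?_⟩ (lin_kn p) (lin_kG p) fun v h1 h2 h3 => ?_
  · rw [(lin_kl p).map_add, add_div]
  · rw [(lin_kl p).map_smul, smul_eq_mul, smul_eq_mul, mul_div_assoc]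
  have h1' := (div_eq_zero_iff.1 h1).resolve_right (by positivity)
  have e := PE h p
  have r := kr_eq (M := M) (a := a) p
  have q := dQ_eq (M := M) (a := a) p v
  have a1 : cS M a p * (kV M a p * dU M a p v + kU M a p * dV M a p v) = 0 := by
    simp only [kl, kn] at h1' h2
    linear_combination (kV M a p * h1' + kU M a p * h2) / 2 -
      (kV M a p * dU M a p v + kU M a p * dV M a p v) / 2 * (e - cE M a p * r)
  have a2 : (kr M a p - rm M a) * (cw M a p * (dQ M a p v / ka M a) -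
      (kr M a p - rp M a) * a * dq p v) = 0 := by
    simp only [kl, kn] at h1' h2
    have e2 : cP M a p = cS M a p + (kr M a p - rm M a) * cw M a p / (2 * ka M a) := rfl
    rw [q]
    linear_combination (kV M a p * h1' - kU M a p * h2) / 2 +
      (kV M a p * dU M a p v - kU M a p * dV M a p v) / 2 * (e - 2 * e2 - cE M a p * r) -
      (kr M a p - rm M a) * a * dq p v * r
  have a3 := (mul_eq_zero.1 a2).resolve_left R0.ne'
  have a4 : cS M a p * dq p v = 0 := by
    simp only [kG, cS, Sg_eq, cw] at h3 a3 ⊢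
    linear_combination (1 - a * Oh M a * (1 - zc (xs p) ^ 2)) * h3 -
      (1 - zc (xs p) ^ 2) * Oh M a * (kr M a p + rp M a) * a3 +
      a * (1 - zc (xs p) ^ 2) * dq p v * ON h
  have a5 := (mul_eq_zero.1 a4).resolve_left S0.ne'
  rw [a5, mul_zero, sub_zero] at a3
  have a6 := (div_eq_zero_iff.1 ((mul_eq_zero.1 a3).resolve_left (cw_pos h p).ne')).resolve_right k0.ne'
  have a7 := (mul_eq_zero.1 a1).resolve_left S0.ne'
  have b1 : dU M a p v = 0 := mul_left_cancel₀ P0.ne' (by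
    simp only [kl, a5] at h1'
    linear_combination h1' + cE M a p * kU M a p * (a7 / 2 - a6 + q))
  have b2 : dV M a p v = 0 := mul_left_cancel₀ P0.ne' (by
    simp only [kn, a5] at h2
    linear_combination h2 + cE M a p * kV M a p * (a7 / 2 + a6 - q))
  simp only [dU, dV] at b1 b2
  have b3 : dx M a p v = 0 := by linarith
  exact ⟨by linarith, (mul_eq_zero.1 b3).resolve_left (half_pos (kY_pos hp.1)).ne',
    by rw [kG, a5, a6]; ring⟩

theorem s_gK {Q : Type} [NormedAddCommGroup Q] [NormedSpace ℝ Q] {q : Q} {f : Q → R4}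
    (hf : ContDiffAt ℝ ∞ f q) (h0 : f q ∈ DK M a) (v w : R4) :
    ContDiffAt ℝ ∞ (fun q => gK M a (f q) v w) q :=
  s_nf hf h0.1 (s_cS hf h0.1) (cS_pos h h0).ne' (fun v => (s_kl hf h0.1 v).div
    (((s_kr hf h0.1).sub contDiffAt_const).mul (s_cS hf h0.1))
    (mul_pos (sub_pos.2 h0.2) (cS_pos h h0)).ne') (s_kn hf h0.1) (s_kG hf h0.1) v w

theorem gK_met : Met (gK M a) (DK M a) :=
  met_of_sig (fun _ hp => gK_sig h hp) fun v w _ hp => (s_gK h contDiffAt_id hp v w).contDiffWithinAt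

omit h
theorem open_DK : IsOpen (DK M a) :=
  ContinuousOn.isOpen_inter_preimage (f := kr M a) (fun _ hp =>
    (s_kr contDiffAt_id hp).continuousAt.continuousWithinAt) open_ne isOpen_Ioi
theorem open_DI : IsOpen (DI M a) := isOpen_lt continuous_const rd_cont
theorem open_DE (σ : Bool) : IsOpen (DE M a σ) := by
  cases σ
  · exact ContinuousOn.isOpen_inter_preimage (f := kU M a) (fun _ hp =>
      (s_kU contDiffAt_id hp.1).continuousAt.continuousWithinAt) open_DK isOpen_Ioi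
  · exact ContinuousOn.isOpen_inter_preimage (f := kV M a) (fun _ hp =>
      (s_kV contDiffAt_id hp.1).continuousAt.continuousWithinAt) open_DK isOpen_Ioi
end

/-- A criterion for Pull. -/
theorem pull_of {f : R4 → R4} {g g' : Tw} {D D' : Set R4} (o' : IsOpen D') (o : IsOpen D)
    (m' : Met g' D') (m : Met g D) (s : ∀ p ∈ D', ContDiffAt ℝ ∞ f p) (mp : MapsTo f D' D)
    (e : ∀ p ∈ D', ∀ v w, g' p v w = g (f p) (fderiv ℝ f p v) (fderiv ℝ f p w)) :
    Pull f g' D' g D :=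
  ⟨o', o, m, fun p hp => (s p hp).contDiffWithinAt, mp, fun p hp =>
    (injective_iff_map_eq_zero _).2 fun v hv => m'.nondeg p hp v fun w => by
      rw [e p hp, hv, m.symm _ (mp hp), (m.lin _ (mp hp) _).map_zero], e⟩

end Vale.Agent.P354YR
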