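import Vale.Agent.P354YR.Nw
import Vale.Agent.P354YN.Fld2
import Vale.Agent.P354YN.Kerr

/-!
All statements about the natural fields hold.
-/

namespace Vale.Agent.P354YR

open Vale.Agent.P354YN Vale.Agent.P354YA

theorem fri : FRI := fun g D p l n s q v hp T q0 => by
  obtain ⟨N, h1, h3, h2, h4⟩ := (Tf.y v hp).1 T
  obtain ⟨i, j⟩ := (pt_at v hp).inv_tf N h1 h3
  rw [← wj_eq v hp, h2] at i j
  have i' : iI (WJ (P354XV.jet 2 g p)) = 6 * q ^ 2 := by linear_combination i + 2 * h4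
  have j' : iJ (WJ (P354XV.jet 2 g p)) = 6 * q ^ 3 := by linear_combination j - 6 * q * h4
  rw [iS, i', j']
  field_simp

theorem nf_ok : NF := ⟨jet_ok, smo, fld, Na.natu fld, kerr jet_ok smo frm fri⟩

theorem nis_ok : NIS := nis nf_ok.2.2.2.1
theorem nkg_ok : NKG := nkg nf_ok
theorem nw_ok : NW := nw nf_ok
theorem nkm_ok : NKM := P354NK.nkm nf_ok

end Vale.Agent.P354YR
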