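import Vale.Agent.P354YR.Defs
import Vale.Agent.P354XK.KD
import Vale.Agent.P354RC.Pull

/-!
Tools: coordinates, the signature of a metric in null frame form, and maps in polar form.
-/

open scoped ContDiff
open Set Filter Topology

noncomputable section

namespace Vale.Agent.P354YR

open Vale.Agent.P354n (R4 mink)
open Vale.Agent.P354I (X Dat dT dP rnd Sg rm rp)
open Vale.Agent.P354R (Pull Del Met Vac)
open Vale.Agent.P354XS (zc ds)
open Vale.Agent.P354XE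
open Vale.Agent.P354XK hiding Om

variable {p v w : R4}

theorem xs_pt (t : ℝ) (z : X) : xs (pt t z) = z := by
  ext i; fin_cases i <;> rfl

theorem pt_xs (p : R4) : pt p.1 (xs p) = p := rfl

theorem xs_cd : ContDiff ℝ ∞ xs := by
  rw [contDiff_euclidean]
  intro i
  fin_cases i
  · exact contDiff_snd.fst
  · exact contDiff_snd.snd.fst
  · exact contDiff_snd.snd.snd

theorem Om2 (p : R4) : Om 2 p = (0, -p.2.2.1, p.2.1, 0) := rfl
theorem rd_sq (p : R4) : rd p ^ 2 = p.2.1 ^ 2 + p.2.2.1 ^ 2 + p.2.2.2 ^ 2 := nsq (xs p)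
theorem rd_nn (p : R4) : 0 ≤ rd p := norm_nonneg _
theorem rd_pos (h : xs p ≠ 0) : 0 < rd p := norm_pos_iff.2 h
theorem xs_ne (h : 0 < rd p) : xs p ≠ 0 := norm_pos_iff.1 h
theorem dT_c (p v : R4) : dT (xs p) (xs v) =
    (p.2.1 * v.2.1 + p.2.2.1 * v.2.2.1 + p.2.2.2 * v.2.2.2) / rd p ^ 2 := by rw [dT, inn]; rfl
theorem dq_c (p v : R4) : dq p v = (p.2.1 * v.2.2.1 - p.2.2.1 * v.2.1) / rd p ^ 2 := rfl
theorem rnd_c (p v w : R4) : rnd (xs p) (xs v) (xs w) =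
    (v.2.1 * w.2.1 + v.2.2.1 * w.2.2.1 + v.2.2.2 * w.2.2.2) / rd p ^ 2 -
      dT (xs p) (xs v) * dT (xs p) (xs w) := by rw [rnd, inn]; rfl
theorem zc_c (p : R4) : zc (xs p) = p.2.2.2 / rd p := rfl
theorem s2_c (h : xs p ≠ 0) : 1 - zc (xs p) ^ 2 = (p.2.1 ^ 2 + p.2.2.1 ^ 2) / rd p ^ 2 := sin_eq h
theorem s2_nn (h : xs p ≠ 0) : 0 ≤ 1 - zc (xs p) ^ 2 := by rw [s2_c h]; positivity

theorem rd_eq {r : ℝ} (h : 0 ≤ r) (e : p.2.1 ^ 2 + p.2.2.1 ^ 2 + p.2.2.2 ^ 2 = r ^ 2) : rd p = r :=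
  (pow_left_inj₀ (rd_nn p) h two_ne_zero).1 ((rd_sq p).trans e)

theorem lin_dT (p : R4) : IsLinearMap ℝ fun v => dT (xs p) (xs v) :=
  ⟨fun v w => by simp only [dT_c, Prod.snd_add, Prod.fst_add]; ring,
    fun c v => by simp only [dT_c, Prod.smul_snd, Prod.smul_fst, smul_eq_mul]; ring⟩
theorem lin_dq (p : R4) : IsLinearMap ℝ (dq p) :=
  ⟨fun v w => by simp only [dq_c, Prod.snd_add, Prod.fst_add]; ring,
    fun c v => by simp only [dq_c, Prod.smul_snd, Prod.smul_fst, smul_eq_mul]; ring⟩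

section
variable {Q : Type} [NormedAddCommGroup Q] [NormedSpace ℝ Q] {q : Q} {f : Q → R4}
  (hf : ContDiffAt ℝ ∞ f q) (h : xs (f q) ≠ 0)
include hf
theorem s_xs : ContDiffAt ℝ ∞ (fun q => xs (f q)) q := xs_cd.contDiffAt.comp q hf
include h
theorem s_rd : ContDiffAt ℝ ∞ (fun q => rd (f q)) q := c_n (s_xs hf) h
theorem s_zc : ContDiffAt ℝ ∞ (fun q => zc (xs (f q))) q := c_z (s_xs hf) h
theorem s_dT (v : R4) : ContDiffAt ℝ ∞ (fun q => dT (xs (f q)) (xs v)) q := c_T (s_xs hf) h _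
theorem s_dq (v : R4) : ContDiffAt ℝ ∞ (fun q => dq (f q) v) q := c_P (s_xs hf) h _
theorem s_rnd (v w : R4) : ContDiffAt ℝ ∞ (fun q => rnd (xs (f q)) (xs v) (xs w)) q :=
  (contDiffAt_const.div ((s_rd hf h).pow 2) (pow_ne_zero 2 (rd_pos h).ne')).sub
    ((s_dT hf h v).mul (s_dT hf h w))
theorem s_Sg {a r : Q → ℝ} (ha : ContDiffAt ℝ ∞ a q) (hr : ContDiffAt ℝ ∞ r q) :
    ContDiffAt ℝ ∞ (fun q => Sg (a q) (r q) (xs (f q))) q := by
  simp only [Sg_eq]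
  exact (hr.pow 2).add ((ha.pow 2).mul ((s_zc hf h).pow 2))
theorem s_nf {S : Q → ℝ} {l n G : Q → R4 → ℝ} (hS : ContDiffAt ℝ ∞ S q) (S0 : S q ≠ 0)
    (hl : ∀ v, ContDiffAt ℝ ∞ (fun q => l q v) q) (hn : ∀ v, ContDiffAt ℝ ∞ (fun q => n q v) q)
    (hG : ∀ v, ContDiffAt ℝ ∞ (fun q => G q v) q) (v w : R4) :
    ContDiffAt ℝ ∞ (fun q => nf (S q) (f q) (l q) (n q) (G q) v w) q :=
  ((((((hl v).mul (hn w)).add ((hn v).mul (hl w))).neg.div_const 2).add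
    (hS.mul (s_rnd hf h v w))).add (((hG v).mul (s_dq hf h w)).add
      ((s_dq hf h v).mul (hG w)))).add
    (((contDiffAt_const.sub ((s_zc hf h).pow 2)).mul ((hG v).mul (hG w))).div hS S0)
end

theorem open_ne : IsOpen {p : R4 | xs p ≠ 0} := isOpen_ne.preimage xs_cd.continuous
theorem rd_cont : Continuous rd := xs_cd.continuous.norm

/-- The orthonormal components for nf. -/
def nL (S : ℝ) (p : R4) (l n G : R4 → ℝ) (v : R4) : R4 :=
  ((l v + n v) / 2, ((l v - n v) / (2 * rd p) - √S / rd p * dT (xs p) (xs v)) • p.2 +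
    (√S / rd p) • v.2 + (G v / (√S * rd p)) • (Om 2 p).2)

theorem nL_mink {S : ℝ} {l n G : R4 → ℝ} (h : xs p ≠ 0) (hS : 0 < S) (v w : R4) :
    nf S p l n G v w = mink (nL S p l n G v) (nL S p l n G w) := by
  have r0 := (rd_pos h).ne'
  have q0 := (Real.sqrt_pos.2 hS).ne'
  have e := Real.sq_sqrt hS.le
  have k := rd_sq p
  simp only [nf, nL, mink, P354n.cu, P354n.cv, P354n.c1, P354n.c2, Om2, rnd_c, dq_c, s2_c h, dT_c,
    Prod.snd_add, Prod.fst_add, Prod.smul_snd, Prod.smul_fst, smul_eq_mul]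
  generalize √S = q at *
  subst e
  generalize rd p = r at *
  field_simp
  linear_combination (q ^ 2 * ((l v - n v) * r ^ 2 - 2 * q * (p.2.1 * v.2.1 + p.2.2.1 * v.2.2.1 +
    p.2.2.2 * v.2.2.2)) * ((l w - n w) * r ^ 2 - 2 * q * (p.2.1 * w.2.1 + p.2.2.1 * w.2.2.1 +
    p.2.2.2 * w.2.2.2))) * k

theorem nL_lin {S : ℝ} {l n G : R4 → ℝ} (hl : IsLinearMap ℝ l) (hn : IsLinearMap ℝ n)
    (hG : IsLinearMap ℝ G) : IsLinearMap ℝ (nL S p l n G) := by
  refine ⟨fun v w => ?_, fun c v => ?_⟩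
  · simp only [nL, hl.map_add, hn.map_add, hG.map_add, dT_c, Prod.snd_add, Prod.fst_add,
      Prod.mk_add_mk, Prod.ext_iff, Prod.smul_snd, Prod.smul_fst, smul_eq_mul]
    refine ⟨?_, ?_, ?_, ?_⟩ <;> ring
  · simp only [nL, hl.map_smul, hn.map_smul, hG.map_smul, dT_c, Prod.snd_add, Prod.fst_add,
      Prod.smul_mk, Prod.ext_iff, Prod.smul_snd, Prod.smul_fst, smul_eq_mul]
    refine ⟨?_, ?_, ?_, ?_⟩ <;> ring

/-- The nondegeneracy condition. -/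
def Nd (S : ℝ) (p : R4) (l n G : R4 → ℝ) : Prop :=
  ∀ v, l v = 0 → n v = 0 → S * dq p v + (1 - zc (xs p) ^ 2) * G v = 0 →
    v.1 = 0 ∧ dT (xs p) (xs v) = 0 ∧ G v = 0

theorem nL_zero {S : ℝ} {l n G : R4 → ℝ} (h : xs p ≠ 0) (hS : 0 < S) (hd : Nd S p l n G)
    (e : nL S p l n G v = 0) : v = 0 := by
  have r0 := rd_pos h
  have q0 := Real.sqrt_pos.2 hS
  have e2 := Real.sq_sqrt hS.le
  have k := rd_sq p
  have t := dT_c p v
  have t2 := dq_c p v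
  have t3 := s2_c h
  rw [eq_div_iff (by positivity)] at t t2 t3
  simp only [nL, Om2, Prod.ext_iff, Prod.snd_add, Prod.fst_add, Prod.smul_snd, Prod.smul_fst,
    smul_eq_mul, Prod.fst_zero, Prod.snd_zero] at e
  obtain ⟨e0, e1, e3, e4⟩ := e
  generalize √S = q at *
  field_simp at e1 e3 e4
  have a1 : (l v - n v) * (q * rd p ^ 2) = 0 := by
    linear_combination p.2.1 * e1 + p.2.2.1 * e3 + p.2.2.2 * e4 + 2 * q ^ 2 * t +
      (q * (l v - n v) - 2 * q ^ 2 * dT (xs p) (xs v)) * k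
  have a2 := (mul_eq_zero.1 a1).resolve_right (by positivity)
  have a3 : (S * dq p v + (1 - zc (xs p) ^ 2) * G v) * (2 * rd p ^ 2) = 0 := by
    linear_combination p.2.1 * e3 - p.2.2.1 * e1 + 2 * S * t2 + 2 * G v * t3 -
      2 * (p.2.1 * v.2.2.1 - p.2.2.1 * v.2.1) * e2
  obtain ⟨b1, b2, b3⟩ := hd v (by linarith) (by linarith)
    ((mul_eq_zero.1 a3).resolve_right (by positivity))
  rw [a2, b2, b3] at e1 e3 e4
  have q2 : q ^ 2 * 2 ≠ 0 := by positivity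
  refine Prod.ext b1 (Prod.ext ?_ (Prod.ext ?_ ?_)) <;> refine mul_left_cancel₀ q2 ?_ <;>
    simp only [Prod.fst_zero, Prod.snd_zero] <;> linarith

theorem nf_sig {S : ℝ} {l n G : R4 → ℝ} (h : xs p ≠ 0) (hS : 0 < S) (hl : IsLinearMap ℝ l)
    (hn : IsLinearMap ℝ n) (hG : IsLinearMap ℝ G) (hd : Nd S p l n G) :
    ∃ L : R4 → R4, IsLinearMap ℝ L ∧ L.Injective ∧ ∀ v w, nf S p l n G v w = mink (L v) (L w) :=
  ⟨_, nL_lin hl hn hG, fun v w e => sub_eq_zero.1 (nL_zero h hS hd (by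
    rw [(nL_lin hl hn hG).map_sub, e, sub_self])), nL_mink h hS⟩

/-- A smooth field of forms of signature (-,+,+,+) is a metric. -/
theorem met_of_sig {g : Tw} {D : Set R4}
    (h : ∀ p ∈ D, ∃ L : R4 → R4, IsLinearMap ℝ L ∧ L.Injective ∧ ∀ v w, g p v w = mink (L v) (L w))
    (s : ∀ v w, ContDiffOn ℝ ∞ (fun p => g p v w) D) : Met g D := by
  refine ⟨fun p hp v => ?_, fun p hp v w => ?_, fun p hp v hv => ?_, s⟩ <;>
    obtain ⟨L, l, i, e⟩ := h p hp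
  · refine ⟨fun a b => ?_, fun c a => ?_⟩
    · simp only [e, l.map_add, mink, P354n.cu, P354n.cv, P354n.c1, P354n.c2, Prod.snd_add,
        Prod.fst_add]; ring
    · simp only [e, l.map_smul, mink, P354n.cu, P354n.cv, P354n.c1, P354n.c2, Prod.smul_snd,
        Prod.smul_fst, smul_eq_mul]; ring
  · simp only [e, mink]; ring
  · have su : L.Surjective := LinearMap.injective_iff_surjective (f := l.mk' L).1 i
    have k : ∀ z, mink (L v) z = 0 := fun z => by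
      obtain ⟨w, rfl⟩ := su z
      rw [← e, hv]
    have k0 := k (1, 0, 0, 0)
    have k1 := k (0, 1, 0, 0)
    have k2 := k (0, 0, 1, 0)
    have k3 := k (0, 0, 0, 1)
    simp [mink, P354n.cu, P354n.cv, P354n.c1, P354n.c2] at k0 k1 k2 k3
    exact i ((Prod.ext k0 (Prod.ext k1 (Prod.ext k2 k3))).trans l.map_zero.symm)

/-! ### Maps in polar form -/

/-- The map p ↦ (τ, l times the space part rotated by the angle c). -/
def pol (τ l c : R4 → ℝ) (p : R4) : R4 := pt (τ p) (l p • rz (c p) (xs p))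

section
variable {τ l c : R4 → ℝ} {τ' l' c' : R4 →L[ℝ] ℝ}

theorem pol_c (p : R4) : pol τ l c p =
    (τ p, l p * (Real.cos (c p) * p.2.1 - Real.sin (c p) * p.2.2.1),
      l p * (Real.sin (c p) * p.2.1 + Real.cos (c p) * p.2.2.1), l p * p.2.2.2) := rfl

theorem pol_cd (hτ : ContDiffAt ℝ ∞ τ p) (hl : ContDiffAt ℝ ∞ l p) (hc : ContDiffAt ℝ ∞ c p) :
    ContDiffAt ℝ ∞ (pol τ l c) p := by
  have e : pol τ l c = _ := funext pol_c
  rw [e]
  fun_prop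

theorem pol_rd (h : 0 ≤ l p) : rd (pol τ l c p) = l p * rd p :=
  rd_eq (mul_nonneg h (rd_nn p)) (by
    rw [mul_pow, rd_sq]
    simp only [pol_c]
    linear_combination l p ^ 2 * (p.2.1 ^ 2 + p.2.2.1 ^ 2) * Real.cos_sq_add_sin_sq (c p))

theorem pol_zc (h : 0 < l p) : zc (xs (pol τ l c p)) = zc (xs p) := by
  rw [zc_c, zc_c, pol_rd h.le]
  exact mul_div_mul_left _ _ h.ne'

theorem pol_ne (h : 0 < l p) (hp : xs p ≠ 0) : xs (pol τ l c p) ≠ 0 :=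
  xs_ne (by rw [pol_rd h.le]; exact mul_pos h (rd_pos hp))

variable (hτ : HasFDerivAt τ τ' p) (hl : HasFDerivAt l l' p) (hc : HasFDerivAt c c' p)
include hτ hl hc

theorem pol_fd (v : R4) : fderiv ℝ (pol τ l c) p v =
    (τ' v, l' v * (Real.cos (c p) * p.2.1 - Real.sin (c p) * p.2.2.1) +
        l p * (Real.cos (c p) * v.2.1 - Real.sin (c p) * v.2.2.1) -
        l p * c' v * (Real.sin (c p) * p.2.1 + Real.cos (c p) * p.2.2.1),
      l' v * (Real.sin (c p) * p.2.1 + Real.cos (c p) * p.2.2.1) +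
        l p * (Real.sin (c p) * v.2.1 + Real.cos (c p) * v.2.2.1) +
        l p * c' v * (Real.cos (c p) * p.2.1 - Real.sin (c p) * p.2.2.1),
      l' v * p.2.2.2 + l p * v.2.2.2) := by
  have x0 := hasFDerivAt_snd (𝕜 := ℝ) (p := p)
  have x1 := x0.fst
  have x2 := x0.snd.fst
  have x3 := x0.snd.snd
  have k := (hτ.prodMk ((hl.mul ((hc.cos.mul x1).sub (hc.sin.mul x2))).prodMk
    ((hl.mul ((hc.sin.mul x1).add (hc.cos.mul x2))).prodMk (hl.mul x3)))).fderiv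
  rw [show fderiv ℝ (pol τ l c) p = _ from k]
  simp
  refine ⟨?_, ?_, ?_⟩ <;> ring

variable (h : 0 < l p) (hp : xs p ≠ 0)
include h hp

theorem pol_dT (v : R4) : dT (xs (pol τ l c p)) (xs (fderiv ℝ (pol τ l c) p v)) =
    l' v / l p + dT (xs p) (xs v) := by
  have r0 := rd_pos hp
  rw [dT_c, dT_c, pol_rd h.le, pol_fd hτ hl hc]
  simp only [pol_c]
  field_simp
  linear_combination (l' v * (p.2.1 ^ 2 + p.2.2.1 ^ 2) + l p * (p.2.1 * v.2.1 + p.2.2.1 * v.2.2.1)) *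
    Real.cos_sq_add_sin_sq (c p) - l' v * rd_sq p

theorem pol_dq (v : R4) : dq (pol τ l c p) (fderiv ℝ (pol τ l c) p v) =
    dq p v + (1 - zc (xs p) ^ 2) * c' v := by
  have r0 := rd_pos hp
  rw [dq_c, dq_c, pol_rd h.le, pol_fd hτ hl hc, s2_c hp]
  simp only [pol_c]
  field_simp
  linear_combination l p * (c' v * (p.2.1 ^ 2 + p.2.2.1 ^ 2) + (p.2.1 * v.2.2.1 - p.2.2.1 * v.2.1)) *
    Real.cos_sq_add_sin_sq (c p)

theorem pol_rnd (v w : R4) :
    rnd (xs (pol τ l c p)) (xs (fderiv ℝ (pol τ l c) p v)) (xs (fderiv ℝ (pol τ l c) p w)) =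
      rnd (xs p) (xs v) (xs w) + (c' v * dq p w + dq p v * c' w) +
        (1 - zc (xs p) ^ 2) * (c' v * c' w) := by
  have r0 := rd_pos hp
  rw [rnd_c, rnd_c, pol_dT hτ hl hc h hp, pol_dT hτ hl hc h hp, pol_rd h.le, pol_fd hτ hl hc,
    pol_fd hτ hl hc, s2_c hp, dq_c, dq_c, dT_c, dT_c]
  field_simp
  linear_combination rd p ^ 2 * ((l' v * l' w + l p ^ 2 * c' v * c' w) * (p.2.1 ^ 2 + p.2.2.1 ^ 2) +
    l p * l' v * (p.2.1 * w.2.1 + p.2.2.1 * w.2.2.1) + l p * l' w * (p.2.1 * v.2.1 + p.2.2.1 * v.2.2.1) +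
    l p ^ 2 * (v.2.1 * w.2.1 + v.2.2.1 * w.2.2.1) +
    l p ^ 2 * c' v * (p.2.1 * w.2.2.1 - p.2.2.1 * w.2.1) +
    l p ^ 2 * c' w * (p.2.1 * v.2.2.1 - p.2.2.1 * v.2.1)) * Real.cos_sq_add_sin_sq (c p) -
    rd p ^ 2 * l' v * l' w * rd_sq p

theorem pol_nf {S : ℝ} (hS : S ≠ 0) (A B G : R4 → ℝ) (v w : R4) :
    nf S (pol τ l c p) A B G (fderiv ℝ (pol τ l c) p v) (fderiv ℝ (pol τ l c) p w) =
      nf S p (fun v => A (fderiv ℝ (pol τ l c) p v)) (fun v => B (fderiv ℝ (pol τ l c) p v))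
        (fun v => G (fderiv ℝ (pol τ l c) p v) + S * c' v) v w := by
  simp only [nf, pol_rnd hτ hl hc h hp, pol_dq hτ hl hc h hp, pol_zc h]
  field_simp
  ring
end

end Vale.Agent.P354YR
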