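import Vale.Agent.P354YR.Geod
import Vale.Agent.P354YN.Jet
import Vale.Agent.P354YT.Cut

/-!
Kerr is in the natural gauge.
-/

open scoped ContDiff
open Set Filter Topology

noncomputable section

namespace Vale.Agent.P354YR

open Vale.Agent.P354n (R4)
open Vale.Agent.P354I (rnd Sg rm rp)
open Vale.Agent.P354R (Met chr Del)
open Vale.Agent.P354XE
open Vale.Agent.P354XK (Sg_pos)
open Vale.Agent.P354XA (hor)
open Vale.Agent.P354RC (at_df Gm bs sum_bs Gm_add2 Gm_smul2)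
open Vale.Agent.P354XD (tb rp_tb)
open Vale.Agent.P354XV (jet Lv Gq)
open Vale.Agent.P354YN (A3 nab dj U3 lJ nJ zJ lN zN aL aN AJ Ad FLD KERR SMO jet_at fd_jet gj_jet
  co_eq)
open Vale.Agent.P354YT (Pm al bp sg al_in al_out al_cd bp_cd al_nonneg sg_mem Del_pos)
open Vale.Agent.P354YA

variable {M a : ℝ} {p : R4}

/-- The covariant derivative of a natural field. -/
theorem nab_eq {g : Tw} {D : Set R4} {F : A3 → R4} {m : ℝ} {w : R4} (hD : IsOpen D) (k : Met g D)
    (hp : p ∈ D) (hF : ContDiffAt ℝ ∞ F (m, jet 3 g p, w)) (v : R4) :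
    nab F (m, jet 4 g p, w) v = fderiv ℝ (fun q => F (m, jet 3 g q, w)) p v +
      Gm (tb g) p v (F (m, jet 3 g p, w)) := by
  have s := fun u v => (k.smooth u v).contDiffAt (hD.mem_nhds hp)
  have h1 : DifferentiableAt ℝ (fun y => F (m, y, w)) (jet 3 g p) :=
    (hF.differentiableAt (by simp)).comp (f := fun y => (m, y, w)) _ (by fun_prop)
  have h2 := fderiv_comp p h1 (at_df (jet_at 3 s))
  rw [nab, ← gj_jet hD k hp 3]
  refine congrArg (· + _) ?_
  conv_rhs => rw [← sum_bs v, map_sum]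
  refine Finset.sum_congr rfl fun i _ => ?_
  rw [map_smul, co_eq, show fderiv ℝ (fun q => F (m, jet 3 g q, w)) p = _ from h2,
    ContinuousLinearMap.comp_apply, fd_jet 3 s]
  rfl

theorem Lo_eq (M a : ℝ) (p : R4) : Lo M a p = (2 * (rd p ^ 2 + a ^ 2) / Del M a (rd p)) • eT +
    (2 * a / Del M a (rd p)) • Om 2 p + (-1 : ℝ) • nI p := by
  simp only [Lo, eT, nI, Om2]
  ext <;> simp <;> ring

theorem s_Lo (hp : xs p ≠ 0) (hD : Del M a (rd p) ≠ 0) : ContDiffAt ℝ ∞ (Lo M a) p := by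
  have r : ContDiffAt ℝ ∞ rd p := s_rd contDiffAt_id hp
  have d : ContDiffAt ℝ ∞ (fun q => Del M a (rd q)) p := (P354YT.Del_cd M a).contDiffAt.comp p r
  have o : ContDiffAt ℝ ∞ (Om 2) p := by
    rw [show Om 2 = fun q : R4 => ((0, -q.2.2.1, q.2.1, 0) : R4) from rfl]; fun_prop
  rw [funext (Lo_eq M a)]
  exact ((((contDiffAt_const.mul ((r.pow 2).add contDiffAt_const)).div d hD).smul
    contDiffAt_const).add ((contDiffAt_const.div d hD).smul o)).add ((s_nI hp).const_smul _)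

theorem gin_Lo (hp : xs p ≠ 0) (hD : Del M a (rd p) ≠ 0) (w : R4) : gin M a p (Lo M a p) w =
    2 * Sg a (rd p) (xs p) / Del M a (rd p) * dr p w - kf a p w := by
  have m := gin_met (M := M) (a := a) (D := {p}) fun _ h => h ▸ hp
  have l := m.lin p rfl w
  have h := gin_TO (M := M) (a := a) hp w
  rw [m.symm p rfl, Lo_eq, l.map_add, l.map_add, l.map_smul, l.map_smul, l.map_smul, m.symm p rfl w,
    m.symm p rfl w, m.symm p rfl w, gin_nI hp]
  simp only [smul_eq_mul]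
  field_simp
  linear_combination 2 * h

theorem No_eq : P354YN.No = nI := funext fun p => by simp [P354YN.No, nI]

theorem gin_LN (hp : xs p ≠ 0) (hD : Del M a (rd p) ≠ 0) (w : R4) :
    gin M a p (Lo M a p + P354YN.No p) w =
      2 * (Sg a (rd p) (xs p) / Del M a (rd p) * dr p w - kf a p w) := by
  have m := gin_met (M := M) (a := a) (D := {p}) fun _ h => h ▸ hp
  rw [m.symm p rfl, (m.lin p rfl w).map_add, m.symm p rfl w, m.symm p rfl w, gin_Lo hp hD, No_eq,
    gin_nI hp]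
  ring

/-- The products of Lo + No with the three fields. -/
theorem LN_val (hp : xs p ≠ 0) (hD : Del M a (rd p) ≠ 0) :
    gin M a p (Lo M a p + P354YN.No p) eT = -2 ∧
    gin M a p (Lo M a p + P354YN.No p) (Lo M a p) = -(2 * Sg a (rd p) (xs p) / Del M a (rd p)) ∧
    gin M a p (Lo M a p + P354YN.No p) (nI p) = -(2 * Sg a (rd p) (xs p) / Del M a (rd p)) := by
  have m := gin_met (M := M) (a := a) (D := {p}) fun _ h => h ▸ hp
  have e : kf a p (Lo M a p) = 2 * Sg a (rd p) (xs p) / Del M a (rd p) := by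
    have := gin_Lo (M := M) (a := a) hp hD (nI p)
    rw [m.symm p rfl, gin_nI hp, dr_nI hp, kf_nI hp] at this
    linarith
  refine ⟨?_, ?_, ?_⟩ <;> rw [gin_LN hp hD]
  · simp [kf, dr_c hp, dq_c, sp, eT]
  · rw [e, P354XA.dr_Lo (rd_pos hp).ne']; ring
  · rw [dr_nI hp, kf_nI hp]; ring

variable {c : Pm}

theorem X_eq (c : Pm) : c.X = fun q => ca c q • eT + cl c q • Lo c.M c.a q + cn c q • nI q := rfl

theorem X_fut (h : c.Ok) (hp : rp c.M c.a < rd p) :
    gin c.M c.a p (Lo c.M c.a p + P354YN.No p) (c.X p) < 0 := by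
  have r0 : 0 < rd p := by linarith [(hor h.sub).2.1, (hor h.sub).2.2.1]
  have D0 := Del_pos h.sub hp
  have l := (gin_met (M := c.M) (a := c.a) (D := {p}) fun _ h => h ▸ xs_ne r0).lin p rfl
    (Lo c.M c.a p + P354YN.No p)
  obtain ⟨h1, h2, h3⟩ := LN_val (xs_ne r0) D0.ne'
  have q : 0 < 2 * Sg c.a (rd p) (xs p) / Del c.M c.a (rd p) := by
    have := Sg_pos (a := c.a) (y := xs p) r0
    positivity
  rw [X_eq, l.map_add, l.map_add, l.map_smul, l.map_smul, l.map_smul, h1, h2, h3]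
  have e : cl c p + cn c p = 1 - ca c p := by
    simp only [cl, cn, ca, bp, P354YT.al_neg]; simp only [al]; ring
  have a0 : 0 ≤ ca c p := al_nonneg _
  have a1 : ca c p ≤ 1 := by
    simp only [ca, al]; linarith [(sg_mem (c.xi (rd p))).1, (sg_mem (-c.xi (rd p))).1]
  simp only [smul_eq_mul]
  generalize 2 * Sg c.a (rd p) (xs p) / Del c.M c.a (rd p) = y at q ⊢
  rw [show cn c p = 1 - ca c p - cl c p by linarith]
  rcases a1.eq_or_lt with e | e
  · rw [e]; linarith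
  · nlinarith [mul_pos q (sub_pos.2 e)]

/-- The natural fields of Kerr near a point outside of the horizon. -/
theorem kerr_ev (K : KERR) (h : |a| < M) (hp : rp M a < rd p) {w : R4}
    (hw : gin M a p (Lo M a p + P354YN.No p) w < 0) :
    ∀ᶠ q in 𝓝 p, lN M (gin M a) w q = Lo M a q ∧ P354YN.nN M (gin M a) w q = nI q ∧
      zN M (gin M a) w q = eT := by
  have r0 : ∀ q, rp M a < rd q → xs q ≠ 0 := fun q hq =>
    xs_ne (by linarith [(hor h).2.1, (hor h).2.2.1])
  have o : ∀ᶠ q in 𝓝 p, rp M a < rd q := (isOpen_lt continuous_const rd_cont).mem_nhds hp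
  have r := rp_tb open_ne (gin_met (M := M) (a := a) fun _ h => h)
  have s : ContinuousAt (fun q => tb (gin M a) q (Lo M a q + nI q) w) p :=
    (((r.at (r0 p hp)).clm_apply ((s_Lo (r0 p hp) (Del_pos h hp).ne').add
      (s_nI (r0 p hp)))).clm_apply contDiffAt_const).continuousAt
  rw [r.eq p (r0 p hp), No_eq] at hw
  filter_upwards [o, s.eventually_lt continuousAt_const hw] with q hq k
  rw [← r.eq q (r0 q hq), ← No_eq] at k
  obtain ⟨-, -, -, -, h1, h2, h3, -⟩ := K M M a 1 q w one_pos (by ring) h hq k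
  rw [h1, h2, h3, No_eq]
  simp

/-- The acceleration of X. -/
def acc (c : Pm) (p : R4) : R4 :=
  fderiv ℝ c.X p (c.X p) + Gm (tb (gin c.M c.a)) p (c.X p) (c.X p)

theorem acc_in (h : c.Ok) (h0 : 0 < rd p) (hp : dd c p < -(1 / 2)) : acc c p = 0 := by
  have r := rp_tb open_ne (gin_met (M := c.M) (a := c.a) fun _ h => h)
  have e : c.X =ᶠ[𝓝 p] nI := by
    filter_upwards [(isOpen_lt rd_cont continuous_const).mem_nhds
      (show rd p < c.R1 - 1 / 2 by unfold dd at hp; linarith)] with q hq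
    obtain ⟨h1, h2, h3⟩ := al_in (h.xi_in (le_of_lt hq))
    simp only [X_eq, ca, cl, cn, h1, h2, h3]
    simp
  refine r.ext (xs_ne h0) fun v => ?_
  have := geod c.M c.a p h0 v
  rw [r.eq p (xs_ne h0), r.chr (xs_ne h0), ← r.gm (xs_ne h0)] at this
  rw [acc, e.fderiv_eq, e.self_of_nhds, map_add, add_apply, map_zero]
  exact this

theorem acc_out (F : FLD) (K : KERR) (h : c.Ok) (hp : 1 / 2 < dd c p) : acc c p = 0 := by
  have hr : rp c.M c.a < rd p := by unfold dd at hp; linarith [h.rpR]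
  have e : c.X =ᶠ[𝓝 p] Lo c.M c.a := by
    filter_upwards [(isOpen_lt continuous_const rd_cont).mem_nhds
      (show c.R1 + 1 / 2 < rd p by unfold dd at hp; linarith)] with q hq
    obtain ⟨h1, h2, h3⟩ := al_out (h.xi_out (le_of_lt hq))
    simp only [X_eq, ca, cl, cn, h1, h2, h3]
    simp
  have L := gin_lor h.sub
  have hw := X_fut h hr
  obtain ⟨A, -, -, -, -, -, -, h1, -⟩ := K c.M c.M c.a 1 p _ one_pos (by ring) h.sub hr hw
  have f := (F _ _ _ _ p ⟨L.isOpen, L.met, L.vac, L.sig⟩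
    (show rm c.M c.a < rd p from (hor h.sub).2.2.1.trans hr) A).al
  have e' : lN c.M (gin c.M c.a) (c.X p) =ᶠ[𝓝 p] Lo c.M c.a :=
    (kerr_ev K h.sub hr hw).mono fun q k => k.1
  rw [h1, e'.fderiv_eq, e'.self_of_nhds] at f
  rw [acc, e.fderiv_eq, e.self_of_nhds]
  exact f.symm

theorem fy_eq (S : SMO) (K : KERR) (h : c.Ok) (hr : rp c.M c.a < rd p) :
    Fy c p (c.M, jet 4 (gin c.M c.a) p, c.X p) = acc c p := by
  have h0 : xs p ≠ 0 := xs_ne (by linarith [(hor h.sub).2.1, (hor h.sub).2.2.1])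
  have m := gin_met (M := c.M) (a := c.a) (D := {p | xs p ≠ 0}) fun _ h => h
  have hw := X_fut h hr
  have A : (c.M, jet 3 (gin c.M c.a) p, c.X p) ∈ U3 :=
    (K c.M c.M c.a 1 p _ one_pos (by ring) h.sub hr hw).1
  have u := S.2.1.mem_nhds A
  have e := kerr_ev K h.sub hr hw
  have e1 : (fun q => lJ (c.M, jet 3 (gin c.M c.a) q, c.X p)) =ᶠ[𝓝 p] Lo c.M c.a :=
    e.mono fun q k => k.1
  have e2 : (fun q => nJ (c.M, jet 3 (gin c.M c.a) q, c.X p)) =ᶠ[𝓝 p] nI :=
    e.mono fun q k => k.2.1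
  have e3 : (fun q => zJ (c.M, jet 3 (gin c.M c.a) q, c.X p)) =ᶠ[𝓝 p] fun _ => eT :=
    e.mono fun q k => k.2.2
  have x : ContDiffAt ℝ ∞ (fun q => c.xi (rd q)) p :=
    Pm.xi_cd.contDiffAt.comp p (s_rd contDiffAt_id h0)
  have d1 : DifferentiableAt ℝ (ca c) p := at_df (al_cd.contDiffAt.comp p x)
  have d2 : DifferentiableAt ℝ (cl c) p := at_df (bp_cd.contDiffAt.comp p x)
  have d3 : DifferentiableAt ℝ (cn c) p := at_df (bp_cd.contDiffAt.comp p x.neg)
  have dL := at_df (s_Lo h0 (Del_pos h.sub hr).ne')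
  have dN := at_df (s_nI h0)
  have D : fderiv ℝ c.X p = _ := (((d1.hasFDerivAt.smul (hasFDerivAt_const eT p)).add
    (d2.hasFDerivAt.smul dL.hasFDerivAt)).add (d3.hasFDerivAt.smul dN.hasFDerivAt)).fderiv
  have G : ∀ v, Gm (tb (gin c.M c.a)) p v (c.X p) = ca c p • Gm (tb (gin c.M c.a)) p v eT +
      cl c p • Gm (tb (gin c.M c.a)) p v (Lo c.M c.a p) +
      cn c p • Gm (tb (gin c.M c.a)) p v (nI p) := fun v => by
    rw [X_eq, Gm_add2, Gm_add2, Gm_smul2, Gm_smul2, Gm_smul2]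
  rw [Fy, nab_eq open_ne m h0 (S.2.2.2.2.1.contDiffAt u),
    nab_eq open_ne m h0 (S.2.2.2.2.2.1.contDiffAt u),
    nab_eq open_ne m h0 (S.2.2.2.2.2.2.1.contDiffAt u), e1.fderiv_eq, e2.fderiv_eq, e3.fderiv_eq,
    acc, G, D]
  rw [show P354YN.dn (c.M, jet 4 (gin c.M c.a) p, c.X p) = (c.M, jet 3 (gin c.M c.a) p, c.X p)
    from rfl, show lJ _ = _ from e1.self_of_nhds, show nJ _ = _ from e2.self_of_nhds,
    show zJ _ = _ from e3.self_of_nhds]
  simp only [fderiv_fun_const, Pi.zero_apply, smul_zero, zero_add, smul_add, add_apply, smul_apply,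
    ContinuousLinearMap.smulRight_apply, zero_apply]
  abel

theorem tp_one {d : ℝ} (h : d ≤ 3 / 4) : tp d = 1 :=
  Real.smoothTransition.one_of_one_le (by linarith)
theorem tp_zero {d : ℝ} (h : 1 ≤ d) : tp d = 0 :=
  Real.smoothTransition.zero_of_nonpos (by linarith)

theorem fa_out (S : SMO) (F : FLD) (K : KERR) (h : c.Ok) (hr : rp c.M c.a < rd p) :
    Fa c p (c.M, jet 4 (gin c.M c.a) p, c.X p) = acc c p := by
  have h0 : 0 < rd p := by linarith [(hor h.sub).2.1, (hor h.sub).2.2.1]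
  obtain ⟨-, -, -, -, -, -, -, h1, h2⟩ :=
    K c.M c.M c.a 1 p _ one_pos (by ring) h.sub hr (X_fut h hr)
  have e1 : AJ lJ nJ (c.M, jet 4 (gin c.M c.a) p, c.X p) (c.X p) = 0 := congrFun h1 _
  have e2 : AJ nJ lJ (c.M, jet 4 (gin c.M c.a) p, c.X p) (c.X p) = 0 := congrFun h2 _
  rw [Fa, fy_eq S K h hr]
  dsimp only
  rw [e1, e2, smul_zero, smul_zero, add_zero, add_zero]
  rcases lt_or_ge (1 / 2) (dd c p) with d | d
  · rw [acc_out F K h d, smul_zero]
  rcases lt_or_ge (dd c p) (-(1 / 2)) with d' | d'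
  · rw [acc_in h h0 d', smul_zero]
  rw [tp_one (by linarith), tp_one (by linarith), one_mul, one_smul]

theorem fa_in (h : c.Ok) (h0 : 0 < rd p) (d : dd c p < -2) (x : P354YN.A4) :
    Fa c p x = acc c p := by
  rw [Fa, acc_in h h0 (by linarith), tp_zero (d := -dd c p) (by linarith), cp, cp,
    tp_one (d := dd c p) (by linarith),
    Real.smoothTransition.zero_of_nonpos (x := 7 / 2 - 2 * -dd c p) (by linarith)]
  simp only [mul_zero, sub_self, zero_mul, zero_smul, add_zero]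

theorem gq_of {κ : ℝ} (h0 : xs p ≠ 0) (u : 7 / 4 < |dd c p| ∨ Ad c.M (gin c.M c.a) (c.X p) p)
    (e : Fa c p (c.M, jet 4 (gin c.M c.a) p, c.X p) = acc c p) :
    Gq (nat c κ) p (gin c.M c.a) c.X p := by
  have r := rp_tb open_ne (gin_met (M := c.M) (a := c.a) fun _ h => h)
  refine ⟨u, fun v => ?_⟩
  change _ = gin c.M c.a p (Fa c p (c.M, jet 4 (gin c.M c.a) p, c.X p)) v
  rw [e, acc, r.eq p h0, r.eq p h0, r.chr h0, ← r.gm h0, map_add, add_apply]

/-- **NKG.** -/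
theorem nkg (N : NF) : NKG := fun c h κ p hp => by
  obtain ⟨-, S, F, -, K⟩ := N
  have H := hor h.1.sub
  have h0 : 0 < rd p := H.2.1.trans_lt hp
  rcases lt_or_ge (rp c.M c.a) (rd p) with hr | hr
  · exact gq_of (xs_ne h0) (Or.inr (K c.M c.M c.a 1 p _ one_pos (by ring) h.1.sub hr
      (X_fut h.1 hr)).1) (fa_out S F K h.1 hr)
  · have d : dd c p < -2 := by unfold dd; linarith [H.1, H.2.2.2.1, h.2]
    exact gq_of (xs_ne h0) (Or.inl (lt_abs.2 (Or.inr (by linarith)))) (fa_in h.1 h0 d _)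

end Vale.Agent.P354YR
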