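import Vale.Agent.P354YR.Vac

/-!
The data induced by gK on the slice T = 0.
-/

open scoped ContDiff
open Set Filter Topology

noncomputable section

namespace Vale.Agent.P354YR

open Vale.Agent.P354n (R4 mink IsConn)
open Vale.Agent.P354I (X Dat ee pd dT dP rnd Sg rm rp)
open Vale.Agent.P354R (Pull Del Sig Met Vac kbl kdom chr)
open Vale.Agent.P354XS (zc ds dZ rad sd AA hs et)
open Vale.Agent.P354XE
open Vale.Agent.P354XK hiding Om kf
open Vale.Agent.P354RC (at_df at_fd k2 rp_of_met)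

variable {M a : ℝ} {p v w : R4} {y : X}

/-- The slice t = 0 in Boyer-Lindquist coordinates. -/
theorem bl_ind (h0 : 0 ≤ M) (h : a ^ 2 ≤ M ^ 2) (hy : y ∈ P354XK.Om M a) :
    kbl M a (Jm M a y) (nm M a y) (nm M a y) = -1 ∧ ∀ i l,
      kbl M a (Jm M a y) (pd i (Jm M a) y) (nm M a y) = 0 ∧
      kbl M a (Jm M a y) (pd i (Jm M a) y) (pd l (Jm M a) y) = (ds M a).h y i l ∧
      -(chr (kbl M a) (Jm M a y) (pd i (Jm M a) y) (pd l (Jm M a) y) (nm M a y) +
        kbl M a (Jm M a y) (pd i (pd l (Jm M a)) y) (nm M a y)) = (ds M a).K y i l := by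
  have k := Om.ne hy
  have r0 := rad_pos h0 h k
  have A0 := AA_pos (a := a) h0 r0 k
  have S0 := Sg_pos (a := a) (y := y) r0
  have s0 := Om.sd hy
  have z0 := (Om.sin hy).ne'
  have eS : Sig a (rad M a y) (zc y) = Sg a (rad M a y) y := (Sg_eq _).symm
  have hS : Sig a (Jm M a y).2.1 (Jm M a y).2.2.1 ≠ 0 := eS.trans_ne S0.ne'
  have hA : AA M a (Jm M a y).2.1 (Jm M a y).2.2.1 ≠ 0 := A0.ne'
  have eD : Del M a (rad M a y) = sd M a y ^ 2 := del_eq k
  have kn : ∀ B : ℝ × ℝ × ℝ, kbl M a (Jm M a y) (0, B) (nm M a y) = 0 := fun B =>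
    (kbl_n hS hA B _ _).trans (by rw [Jm, sub_self, mul_zero])
  refine ⟨?_, fun i l => ⟨by rw [pd_J hy]; exact kn _, ?_, ?_⟩⟩
  · have e : n0 M a y ^ 2 = AA M a (rad M a y) (zc y) / Sg a (rad M a y) y / sd M a y ^ 2 := by
      rw [n0, div_pow, Real.sq_sqrt (by positivity)]
    have e1 : kbl M a (Jm M a y) (nm M a y) (nm M a y) = -(n0 M a y ^ 2 *
        (Del M a (rad M a y) * Sig a (rad M a y) (zc y) / AA M a (rad M a y) (zc y))) := by
      have hS' : Sig a (rad M a y) (zc y) ≠ 0 := hS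
      simp only [kbl, Jm, nm, P354XS.om, mul_zero, add_zero]
      field_simp
      simp only [AA, Del, Sig]
      ring
    rw [e1, e, eD, eS]
    field_simp
  · have e := rnd_dZ (p := pt 0 y) (by rwa [xs_pt]) (pt 0 (ee i)) (pt 0 (ee l))
    simp only [dq, xs_pt] at e
    rw [mul_comm, ← eq_div_iff z0] at e
    simp only [pd_J hy, ds, Matrix.of_apply, hs, kbl, Jm, eD, eS, e]
    field_simp
    rw [Sg_eq, ← del_eq k]
    ring
  · have t : (pd i (pd l (Jm M a)) y).1 = 0 := by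
      have := pd_ap (c := fun _ => ContinuousLinearMap.fst ℝ ℝ (ℝ × ℝ × ℝ)) contDiffAt_const
        (x_pd (c_J hy) l) i
      rw [pd_const, zero_apply, zero_add, pd_congr (g := fun _ => 0) (by
        filter_upwards [Om_open.mem_nhds hy] with z hz
        rw [pd_J hz]; rfl), pd_const] at this
      exact this.symm
    have t3 : ∀ A B, P354n.deriv (fun z => kbl M a z A B) (Jm M a y) (nm M a y) = 0 := fun A B => by
      simp [P354n.deriv, lineDeriv, kbl, nm]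
    have d1 := kbl_der hS hA (sd M a y * dT y (ee i), dZ y (ee i), dP y (ee i) / (1 - zc y ^ 2))
      (sd M a y * dT y (ee l), dZ y (ee l), dP y (ee l) / (1 - zc y ^ 2)) (n0 M a y)
    have d2 := kbl_der hS hA (sd M a y * dT y (ee l), dZ y (ee l), dP y (ee l) / (1 - zc y ^ 2))
      (sd M a y * dT y (ee i), dZ y (ee i), dP y (ee i) / (1 - zc y ^ 2)) (n0 M a y)
    rw [show pd i (pd l (Jm M a)) y = (0, (pd i (pd l (Jm M a)) y).2) from Prod.ext t rfl, kn, chr,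
      t3, pd_J hy, pd_J hy]
    erw [d1, d2]
    simp only [ds, Matrix.of_apply, hs_rot k S0.ne', et]
    simp only [Jm, eS, n0]
    field_simp
    ring

/-- The shift, the inverse of the lapse, and the future unit normal of T = 0. -/
def nb (M a : ℝ) (p : R4) : ℝ := -(kx M a p * ((kr M a p - rm M a) * a * cw M a p +
  (kr M a p ^ 2 + a ^ 2) * Oh M a * (kr M a p + rp M a)) / (ka M a * AA M a (kr M a p) (zc (xs p))))
def nN (M a : ℝ) (p : R4) : ℝ := ka M a * √(AA M a (kr M a p) (zc (xs p)) / cS M a p) / kY M a p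
def nK (M a : ℝ) (p : R4) : R4 := kvec M a p (nN M a p) (nN M a p) (nN M a p * nb M a p)

/-- The embedding of the slice as a linear map. -/
def p0 : X →L[ℝ] R4 := (0 : X →L[ℝ] ℝ).prod ((EuclideanSpace.proj (0 : Fin 3) : X →L[ℝ] ℝ).prod
  ((EuclideanSpace.proj (1 : Fin 3) : X →L[ℝ] ℝ).prod (EuclideanSpace.proj (2 : Fin 3))))
theorem p0_eq : pt 0 = ⇑p0 := rfl
theorem pd_p0 (i : Fin 3) : pd i (pt 0) = fun _ => pt 0 (ee i) := funext fun y => by
  rw [pd, p0_eq, p0.fderiv]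
theorem s_p0 : ContDiffAt ℝ ∞ (pt 0) y := p0.contDiff.contDiffAt

theorem kvec_fst (A B C : ℝ) : (kvec M a p A B C).1 = (A + B) / 2 := by simp [kvec, Om2]

theorem kvec_dZ (hp : xs p ≠ 0) (A B C : ℝ) : dZ (xs p) (xs (kvec M a p A B C)) = 0 := by
  have Y0 := (kY_pos (M := M) (a := a) hp).ne'
  have e := (kvec_forms (M := M) (a := a) hp A B C).1
  rw [dU, kvec_fst, dx] at e
  rw [dZ, show dT (xs p) (xs (kvec M a p A B C)) = (B - A) / kY M a p by field_simp; linarith,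
    show xs (kvec M a p A B C) 2 = (B - A) / kY M a p * p.2.2.2 by simp [xs, kvec, Om2], zc_c, rd]
  ring

theorem xY (hy : y ≠ 0) (t : ℝ) (h : |a| < M) : kx M a (pt t y) * kY M a (pt t y) = sd M a y := by
  have y0 := norm_pos_iff.2 hy
  have := Real.sqrt_pos.2 y0
  have e := Real.sq_sqrt y0.le
  rw [kx, kY, rd, xs_pt, sd, ← b_sq h, Real.sqrt_sq (b_pos h).le]
  generalize √‖y‖ = s at *
  rw [← e]; field_simp; ring

theorem ext0 {f : X → ℝ} (hf : ∀ y ≠ 0, ContinuousAt f y) (k : ∀ y ∈ P354XK.Om M a, f y = 0)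
    (hy : y ≠ 0) : f y = 0 := by
  simpa using (hf y hy).continuousWithinAt.mem_closure (Om_dense y) (t := {0}) k

theorem ext1 {f g : X → ℝ} (hf : ∀ y ≠ 0, ContinuousAt f y) (hg : ∀ y ≠ 0, ContinuousAt g y)
    (k : ∀ y ∈ P354XK.Om M a, f y = g y) (hy : y ≠ 0) : f y = g y :=
  sub_eq_zero.1 (ext0 (f := fun y => f y - g y) (fun y hy => (hf y hy).sub (hg y hy))
    (fun y hy => sub_eq_zero.2 (k y hy)) hy)

theorem s_chr {g : Tw} {D : Set R4} (o : IsOpen D) (m : Met g D) (hp : p ∈ D) {A B C : R4 → R4}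
    (hA : ContDiffAt ℝ ∞ A p) (hB : ContDiffAt ℝ ∞ B p) (hC : ContDiffAt ℝ ∞ C p) :
    ContDiffAt ℝ ∞ (fun q => g q (A q) (B q)) p ∧
      ContDiffAt ℝ ∞ (fun q => chr g q (A q) (B q) (C q)) p := by
  obtain ⟨h, r⟩ := rp_of_met o m
  exact ⟨(((r.at hp).clm_apply hA).clm_apply hB).congr_of_eventuallyEq
      (mem_of_superset (o.mem_nhds hp) fun q hq => r.eq q hq _ _),
    (((r.at hp).clm_apply (r.gm_cd hp hA hB)).clm_apply hC).congr_of_eventuallyEq
      (mem_of_superset (o.mem_nhds hp) fun q hq => (r.chr hq _ _ _).trans (r.gm hq _ _ _).symm)⟩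

section
variable (h : |a| < M)
include h

theorem kr_p0 (hy : y ≠ 0) : kr M a (pt 0 y) = rad M a y := by
  have y0 := norm_pos_iff.2 hy
  have := Real.sqrt_pos.2 y0
  have e := Real.sq_sqrt y0.le
  rw [kr, kx, rd, xs_pt, rad, rp, ← b_sq h, Real.sqrt_sq (b_pos h).le, show (pt 0 y).1 = 0 from rfl]
  generalize √‖y‖ = s at *
  rw [← e]; field_simp; ring

theorem DK_of (hp : xs p ≠ 0) (e : |p.1| ≤ |kx M a p|) : p ∈ DK M a :=
  ⟨hp, by have := rm_lt h; have := sq_le_sq.2 e; rw [kr]; linarith⟩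
theorem p0_mem (hy : y ≠ 0) : pt 0 y ∈ DK M a :=
  DK_of h (by rwa [xs_pt]) (by simp [pt])

theorem AA_DK (hp : p ∈ DK M a) : 0 < AA M a (kr M a p) (zc (xs p)) :=
  AA_pos (M_pos h).le ((rm_nn h).trans_lt hp.2) hp.1

theorem nN_pos (hp : p ∈ DK M a) : 0 < nN M a p :=
  div_pos (mul_pos (ka_pos h) (Real.sqrt_pos.2 (div_pos (AA_DK h hp) (cS_pos h hp)))) (kY_pos hp.1)

theorem s_nK (hp : p ∈ DK M a) : ContDiffAt ℝ ∞ (nK M a) p := by
  have r := s_kr (M := M) (a := a) contDiffAt_id hp.1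
  have z := s_zc contDiffAt_id hp.1
  have A : ContDiffAt ℝ ∞ (fun p => AA M a (kr M a p) (zc (xs p))) p := by
    unfold AA; fun_prop
  have N : ContDiffAt ℝ ∞ (nN M a) p := (contDiffAt_const.mul ((A.div (s_cS contDiffAt_id hp.1)
    (cS_pos h hp).ne').sqrt (div_pos (AA_DK h hp) (cS_pos h hp)).ne')).div
      (s_kY contDiffAt_id hp.1) (kY_pos hp.1).ne'
  exact s_kvec hp.1 N N (N.mul (((s_kx contDiffAt_id hp.1).mul ((((r.sub contDiffAt_const).mul
    contDiffAt_const).mul (s_cw contDiffAt_id hp.1)).add ((((r.pow 2).add contDiffAt_const).mul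
      contDiffAt_const).mul (r.add contDiffAt_const)))).div (contDiffAt_const.mul A)
        (mul_pos (ka_pos h) (AA_DK h hp)).ne').neg)

theorem p0_DB (hy : y ∈ P354XK.Om M a) : pt 0 y ∈ DB M a := by
  have k : kx M a (pt 0 y) ≠ 0 := left_ne_zero_of_mul ((xY (Om.ne hy) 0 h).trans_ne (Om.sd hy))
  exact ⟨p0_mem h (Om.ne hy), hy.1, by simpa [kU, pt] using k, by simpa [kV, pt] using k⟩

theorem fB_p0 (hy : y ≠ 0) : fB M a (pt 0 y) = Jm M a y := by
  have e : bt M a (pt 0 y) = 0 := by simp [bt, kU, kV, show (pt 0 y).1 = 0 from rfl]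
  rw [fB, e, kr_p0 h hy, xs_pt, mul_zero, add_zero]; rfl

theorem fB_e (hy : y ∈ P354XK.Om M a) (i : Fin 3) :
    fderiv ℝ (fB M a) (pt 0 y) (pt 0 (ee i)) = pd i (Jm M a) y := by
  rw [← pd_congr (mem_of_superset (Om_open.mem_nhds hy) fun z hz => fB_p0 h (Om.ne hz)),
    pd_cp (s_fB (p0_DB h hy)) s_p0, pd_p0]

theorem fB_ee (hy : y ∈ P354XK.Om M a) (i l : Fin 3) :
    fderiv ℝ (fun z => fderiv ℝ (fB M a) z (pt 0 (ee l))) (pt 0 y) (pt 0 (ee i)) =
      pd i (pd l (Jm M a)) y := by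
  rw [← pd_congr (mem_of_superset (Om_open.mem_nhds hy) fun z hz => fB_e h hz l),
    pd_cp (c := fun z => fderiv ℝ (fB M a) z (pt 0 (ee l)))
      ((at_fd (s_fB (p0_DB h hy))).clm_apply contDiffAt_const) s_p0, pd_p0]

theorem fB_n (hy : y ∈ P354XK.Om M a) :
    fderiv ℝ (fB M a) (pt 0 y) (nK M a (pt 0 y)) = nm M a y := by
  have hp := p0_DB h hy
  have k := Om.ne hy
  have e := xY k 0 h
  have x0 := left_ne_zero_of_mul (e.trans_ne (Om.sd hy))
  have Y0 := (kY_pos (M := M) (a := a) hp.1.1).ne'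
  have k0 := (ka_pos h).ne'
  have z0 := (Om.sin hy).ne'
  have A0 := (AA_DK h hp.1).ne'
  obtain ⟨e1, e2, e3, -⟩ := kvec_forms (M := M) (a := a) hp.1.1 (nN M a (pt 0 y)) (nN M a (pt 0 y))
    (nN M a (pt 0 y) * nb M a (pt 0 y))
  have U : kU M a (pt 0 y) = -kx M a (pt 0 y) := zero_sub _
  have V : kV M a (pt 0 y) = kx M a (pt 0 y) := zero_add _
  have t : fderiv ℝ (bt M a) (pt 0 y) (nK M a (pt 0 y)) = n0 M a y := by
    rw [fd_bt hp, nK, e1, e2, U, V, nN, n0, cS, kr_p0 h k, xs_pt, ← e]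
    field_simp
    ring
  have N : nN M a (pt 0 y) = ka M a * kx M a (pt 0 y) * n0 M a y := by
    rw [nN, n0, cS, kr_p0 h k, xs_pt, ← e]
    field_simp
  rw [fd_fB hp, t, fd_kr hp.1.1, nK, e1, e2, e3, U, V, nm]
  refine Prod.ext rfl (Prod.ext (by ring) (Prod.ext ?_ ?_))
  · exact kvec_dZ hp.1.1 _ _ _
  · have r : kx M a (pt 0 y) ^ 2 = rad M a y - rp M a := by
      rw [← kr_p0 h k, kr, show (pt 0 y).1 = 0 from rfl]; ring
    have c1 := ON h
    have c2 := Np_eq h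
    have c3 := Del_eq h (rad M a y)
    simp only [N, nb, cw, kr_p0 h k, xs_pt, P354XS.om, Del] at A0 c3 ⊢
    field_simp
    simp only [AA]
    grind

/-- The data induced on T = 0, with the explicit normal nK. -/
theorem in0_gK (hy : y ≠ 0) :
    gK M a (pt 0 y) (nK M a (pt 0 y)) (nK M a (pt 0 y)) = -1 ∧ 0 < (nK M a (pt 0 y)).1 ∧ ∀ i k,
      gK M a (pt 0 y) (pt 0 (ee i)) (nK M a (pt 0 y)) = 0 ∧
      gK M a (pt 0 y) (pt 0 (ee i)) (pt 0 (ee k)) = (ds M a).h y i k ∧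
      -chr (gK M a) (pt 0 y) (pt 0 (ee i)) (pt 0 (ee k)) (nK M a (pt 0 y)) = (ds M a).K y i k := by
  obtain ⟨h0, h1⟩ := sq_of h
  have c : ∀ {A B C : R4 → R4}, (∀ p ∈ DK M a, ContDiffAt ℝ ∞ A p) →
      (∀ p ∈ DK M a, ContDiffAt ℝ ∞ B p) → (∀ p ∈ DK M a, ContDiffAt ℝ ∞ C p) → ∀ y ≠ 0,
      ContinuousAt (fun y => gK M a (pt 0 y) (A (pt 0 y)) (B (pt 0 y))) y ∧
      ContinuousAt (fun y => chr (gK M a) (pt 0 y) (A (pt 0 y)) (B (pt 0 y)) (C (pt 0 y))) y :=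
    fun hA hB hC y hy => by
      have m := p0_mem h hy
      have k := s_chr open_DK (gK_met h) m (hA _ m) (hB _ m) (hC _ m)
      exact ⟨(k.1.comp y s_p0).continuousAt, (k.2.comp y s_p0).continuousAt⟩
  have n : ∀ p ∈ DK M a, ContDiffAt ℝ ∞ (nK M a) p := fun _ => s_nK h
  have e : ∀ v : R4, ∀ p ∈ DK M a, ContDiffAt ℝ ∞ (fun _ => v) p := fun _ _ _ => contDiffAt_const
  have D : ∀ i k, ∀ y ≠ 0, ContinuousAt (fun y => (ds M a).h y i k) y ∧
      ContinuousAt (fun y => (ds M a).K y i k) y := fun i k y hy =>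
    ⟨((pdy h).1 i k).1.continuousOn.continuousAt (isOpen_compl_singleton.mem_nhds hy),
      ((pdy h).1 i k).2.continuousOn.continuousAt (isOpen_compl_singleton.mem_nhds hy)⟩
  refine ⟨ext1 (M := M) (a := a) (fun y hy => (c n n n y hy).1) (fun _ _ => continuousAt_const)
    (fun y hy => ?_) hy, ?_, fun i k => ⟨ext1 (M := M) (a := a) (fun y hy => (c (e _) n n y hy).1)
      (fun _ _ => continuousAt_const) (fun y hy => ?_) hy,
      ext1 (M := M) (a := a) (fun y hy => (c (e _) (e _) n y hy).1) (fun y hy => (D i k y hy).1)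
        (fun y hy => ?_) hy,
      ext1 (M := M) (a := a) (fun y hy => (c (e _) (e _) n y hy).2.fun_neg)
        (fun y hy => (D i k y hy).2) (fun y hy => ?_) hy⟩⟩
  · rw [fB_gK h (p0_DB h hy), fB_n h hy, fB_p0 h (Om.ne hy), (bl_ind h0 h1 hy).1]
  · rw [nK, kvec_fst, add_self_div_two]; exact nN_pos h (p0_mem h hy)
  · rw [fB_gK h (p0_DB h hy), fB_n h hy, fB_e h hy, fB_p0 h (Om.ne hy), ((bl_ind h0 h1 hy).2 i k).1]
  · rw [fB_gK h (p0_DB h hy), fB_e h hy, fB_e h hy, fB_p0 h (Om.ne hy),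
      ((bl_ind h0 h1 hy).2 i k).2.1]
  · rw [k2.2.2.2.2 _ _ _ _ _ (fB_pull h) _ (p0_DB h hy), fB_n h hy, fB_e h hy, fB_e h hy,
      fB_ee h hy, fB_p0 h (Om.ne hy), ((bl_ind h0 h1 hy).2 i k).2.2]

theorem nK_fut (hy : y ≠ 0) : gK M a (pt 0 y) (nK M a (pt 0 y)) (XK M a (pt 0 y)) < 0 := by
  have hp := p0_mem h hy
  obtain ⟨e1, e2, e3, -⟩ := kvec_forms (M := M) (a := a) hp.1 (nN M a (pt 0 y)) (nN M a (pt 0 y))
    (nN M a (pt 0 y) * nb M a (pt 0 y))
  have U : kU M a (pt 0 y) = -kx M a (pt 0 y) := zero_sub _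
  have V : kV M a (pt 0 y) = kx M a (pt 0 y) := zero_add _
  have r : kx M a (pt 0 y) ^ 2 = kr M a (pt 0 y) - rp M a := by
    rw [kr, show (pt 0 y).1 = 0 from rfl]; ring
  have e := PE h (pt 0 y)
  have R0 := sub_pos.2 hp.2
  have k0 := ka_pos h
  have A0 := AA_DK h hp
  have N0 := nN_pos h hp
  have w0 := cw_pos h (pt 0 y)
  have s0 := s2_nn hp.1
  have r0 := (rm_nn h).trans_lt hp.2
  have q0 := rp_pos h
  have O0 : 0 ≤ a * Oh M a := by
    have := M_pos h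
    rw [Oh, ← mul_div_assoc, ← sq]; positivity
  rw [(gK_met h).symm _ hp, gK_XK h hp, neg_lt_zero, show kl M a (pt 0 y) (nK M a (pt 0 y)) +
      kn M a (pt 0 y) (nK M a (pt 0 y)) = 2 * nN M a (pt 0 y) * (kr M a (pt 0 y) - rm M a) *
      (cw M a (pt 0 y) / ka M a + (1 - zc (xs (pt 0 y)) ^ 2) * kx M a (pt 0 y) ^ 2 *
        ((kr M a (pt 0 y) - rm M a) * a ^ 2 * cw M a (pt 0 y) + (kr M a (pt 0 y) ^ 2 + a ^ 2) *
          (a * Oh M a) * (kr M a (pt 0 y) + rp M a)) /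
        (ka M a * AA M a (kr M a (pt 0 y)) (zc (xs (pt 0 y))))) by
    have e4 : cP M a (pt 0 y) = cS M a (pt 0 y) + (kr M a (pt 0 y) - rm M a) * cw M a (pt 0 y) /
      (2 * ka M a) := rfl
    simp only [kl, kn, nK, e1, e2, e3, U, V]
    rw [nb]
    linear_combination (-2 * nN M a (pt 0 y)) * (e + cE M a (pt 0 y) * r - 2 * e4)]
  positivity

theorem ind_gK : Ind (gK M a) (XK M a) (pt 0) (ds M a) := fun y hy => by
  obtain ⟨G, hG⟩ := gK_vac h
  have hp := p0_mem h hy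
  obtain ⟨e1, -, e⟩ := in0_gK h hy
  refine ⟨G, _, (hG _ hp).1, e1, nK_fut h hy, fun i k => ?_⟩
  simp only [pd_p0, pd_const, zero_add]
  refine ⟨(e i k).1, (e i k).2.1, ?_⟩
  rw [← (e i k).2.2, (gK_met h).symm _ hp, chr, ← (hG _ hp).1]
  ring
end

end Vale.Agent.P354YR
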