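import Vale.Agent.P354YR.Iso

/-!
The vacuum equations, the time orientations, KLor and KCh.
-/

open scoped ContDiff
open Set Filter Topology

noncomputable section

namespace Vale.Agent.P354YR

open Vale.Agent.P354n (R4 mink)
open Vale.Agent.P354I (X Dat dT dP rnd Sg rm rp)
open Vale.Agent.P354R (Pull Del Sig Met Vac kbl kdom)
open Vale.Agent.P354XS (zc ds dZ)
open Vale.Agent.P354XE
open Vale.Agent.P354XK hiding Om kf
open Vale.Agent.P354RC (at_df k2)

variable {M a : ℝ} {p v w : R4}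

theorem met_mono {g : Tw} {D D' : Set R4} (m : Met g D) (s : D' ⊆ D) : Met g D' :=
  ⟨fun p hp => m.lin p (s hp), fun p hp => m.symm p (s hp), fun p hp => m.nondeg p (s hp),
    fun v w => (m.smooth v w).mono s⟩

theorem pull_at {f : R4 → R4} {g g' : Tw} {D D' : Set R4} (P : Pull f g' D' g D) (hp : p ∈ D') :
    ContDiffAt ℝ ∞ f p := P.smooth.contDiffAt (P.open'.mem_nhds hp)

theorem pull_comp {f f' : R4 → R4} {g g' g'' : Tw} {D D' D'' : Set R4} (P : Pull f g' D' g D)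
    (P' : Pull f' g'' D'' g' D') : Pull (f ∘ f') g'' D'' g D :=
  pull_of P'.open' P.isOpen (k2.1 _ _ _ _ _ P') P.met
    (fun p hp => (pull_at P (P'.maps hp)).comp p (pull_at P' hp)) (P.maps.comp P'.maps)
    fun p hp v w => by
      rw [P'.eq p hp, P.eq _ (P'.maps hp),
        fderiv_comp p (at_df (pull_at P (P'.maps hp))) (at_df (pull_at P' hp))]
      rfl

theorem pull_inv {f f' : R4 → R4} {g g' : Tw} {D D' E : Set R4} (P : Pull f g' D' g D)
    (o : IsOpen E) (s : E ⊆ D) (c : ∀ p ∈ E, ContDiffAt ℝ ∞ f' p) (m : MapsTo f' E D')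
    (e : ∀ p ∈ E, f (f' p) = p) : Pull f' g E g' D' :=
  pull_of o P.open' (met_mono P.met s) (k2.1 _ _ _ _ _ P) c m fun p hp v w => by
    have k := fun v => fd_cp (pull_at P (m hp)) (c p hp) (u' := id) (mem_of_superset (o.mem_nhds hp) e) v
    rw [P.eq _ (m hp), k, k, e p hp, fderiv_id]
    rfl

theorem pull_mono {f : R4 → R4} {g g' : Tw} {D D' E E' : Set R4} (P : Pull f g' D' g D)
    (o' : IsOpen E') (s' : E' ⊆ D') (o : IsOpen E) (s : E ⊆ D) (m : MapsTo f E' E) :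
    Pull f g' E' g E :=
  ⟨o', o, met_mono P.met s, P.smooth.mono s', m, fun p hp => P.inj p (s' hp),
    fun p hp => P.eq p (s' hp)⟩

theorem fd_zc (hp : xs p ≠ 0) (v : R4) : fderiv ℝ (fun p => zc (xs p)) p v = dZ (xs p) (xs v) := by
  obtain ⟨L, d, e⟩ := hd_rd hp
  have r0 := (rd_pos hp).ne'
  rw [show fderiv ℝ (fun p => zc (xs p)) p = _ from ((hasFDerivAt_snd (𝕜 := ℝ) (p := p)).snd.snd.mul
    ((hasDerivAt_inv r0).comp_hasFDerivAt p d)).fderiv, dZ, zc_c, ← rd]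
  simp [e, dr, xs]
  field_simp
  ring

theorem s2_pos (hp : p.2.1 ≠ 0) : xs p ≠ 0 ∧ 0 < 1 - zc (xs p) ^ 2 := by
  have k : xs p ≠ 0 := fun e => hp (congrArg (fun z : X => z 0) e)
  have := rd_pos k
  exact ⟨k, by rw [s2_c k]; positivity⟩

theorem s_at (hp : p.2.1 ≠ 0) : ContDiffAt ℝ ∞ (fun p : R4 => Real.arctan (p.2.2.1 / p.2.1)) p :=
  Real.contDiff_arctan.contDiffAt.comp p (contDiffAt_snd.snd.fst.div contDiffAt_snd.fst hp)

theorem fd_at (hp : p.2.1 ≠ 0) (v : R4) :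
    fderiv ℝ (fun p : R4 => Real.arctan (p.2.2.1 / p.2.1)) p v = dq p v / (1 - zc (xs p) ^ 2) := by
  have x0 := hasFDerivAt_snd (𝕜 := ℝ) (p := p)
  have r0 := rd_pos (s2_pos hp).1
  rw [show fderiv ℝ (fun p : R4 => Real.arctan (p.2.2.1 / p.2.1)) p = _ from
    (x0.snd.fst.mul ((hasDerivAt_inv hp).comp_hasFDerivAt p x0.fst)).arctan.fderiv,
    s2_c (s2_pos hp).1, dq_c]
  simp
  field_simp
  ring

theorem rnd_dZ (hp : xs p ≠ 0) (v w : R4) : (1 - zc (xs p) ^ 2) * rnd (xs p) (xs v) (xs w) =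
    dZ (xs p) (xs v) * dZ (xs p) (xs w) + dq p v * dq p w := by
  have r0 := (rd_pos hp).ne'
  have k := rd_sq p
  simp only [dZ, rnd_c, dT_c, dq_c, zc_c, ← rd.eq_1, show ∀ v, xs v 2 = v.2.2.2 from fun _ => rfl]
  generalize rd p = r at *
  field_simp
  grind

/-- Boyer-Lindquist coordinates as functions on the Kruskal chart. -/
def bt (M a : ℝ) (p : R4) : ℝ := (Real.log (kV M a p) - Real.log (kU M a p)) / (2 * ka M a)
def fB (M a : ℝ) (p : R4) : R4 :=
  (bt M a p, kr M a p, zc (xs p), Real.arctan (p.2.2.1 / p.2.1) + Oh M a * bt M a p)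
def DB (M a : ℝ) : Set R4 := DK M a ∩ ({p | p.2.1 ≠ 0} ∩ {p | kU M a p ≠ 0 ∧ kV M a p ≠ 0})

theorem open_DB : IsOpen (DB M a) := by
  refine isOpen_iff_mem_nhds.2 fun p hp => inter_mem (open_DK.mem_nhds hp.1) (inter_mem
    (continuous_snd.fst.continuousAt.eventually_ne hp.2.1) (Eventually.and ?_ ?_))
  · exact (s_kU contDiffAt_id hp.1.1).continuousAt.eventually_ne hp.2.2.1
  · exact (s_kV contDiffAt_id hp.1.1).continuousAt.eventually_ne hp.2.2.2

theorem dense_x : Dense {p : R4 | p.2.1 ≠ 0} :=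
  (dense_compl_singleton (0 : ℝ)).preimage (isOpenMap_fst.comp isOpenMap_snd)

theorem DK_sub : DK M a ⊆ closure (DB M a) := by
  refine Dense.open_subset_closure_inter (dense_x.inter_of_isOpen_left (fun p => ?_)
    (isOpen_ne.preimage continuous_snd.fst)) open_DK
  have c : Continuous fun s : ℝ => ((s, p.2) : R4) := by fun_prop
  refine mem_closure_of_tendsto (b := 𝓝[≠] p.1) (c.continuousAt.tendsto.mono_left nhdsWithin_le_nhds) ?_
  filter_upwards [nhdsNE_le_cofinite _ (eventually_cofinite_ne (kx M a p)),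
    nhdsNE_le_cofinite _ (eventually_cofinite_ne (-kx M a p))] with s h1 h2
  exact ⟨sub_ne_zero.2 h1, fun e => h2 (eq_neg_of_add_eq_zero_left e)⟩

theorem s_bt (hp : p ∈ DB M a) : ContDiffAt ℝ ∞ (bt M a) p :=
  (((s_kV contDiffAt_id hp.1.1).log hp.2.2.2).sub
    ((s_kU contDiffAt_id hp.1.1).log hp.2.2.1)).div_const _

theorem s_fB (hp : p ∈ DB M a) : ContDiffAt ℝ ∞ (fB M a) p :=
  (s_bt hp).prodMk ((s_kr contDiffAt_id hp.1.1).prodMk ((s_zc contDiffAt_id hp.1.1).prodMk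
    ((s_at hp.2.1).add (contDiffAt_const.mul (s_bt hp)))))

theorem fd_bt (hp : p ∈ DB M a) (v : R4) : fderiv ℝ (bt M a) p v =
    (dV M a p v / kV M a p - dU M a p v / kU M a p) / (2 * ka M a) := by
  rw [show fderiv ℝ (bt M a) p = _ from ((((at_df (s_kV contDiffAt_id hp.1.1)).hasFDerivAt.log
    hp.2.2.2).sub ((at_df (s_kU contDiffAt_id hp.1.1)).hasFDerivAt.log hp.2.2.1)).mul_const
      (2 * ka M a)⁻¹).fderiv]
  simp [← fd_kU hp.1.1, ← fd_kV hp.1.1]
  ring

theorem fd_fB (hp : p ∈ DB M a) (v : R4) : fderiv ℝ (fB M a) p v =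
    (fderiv ℝ (bt M a) p v, fderiv ℝ (kr M a) p v, dZ (xs p) (xs v),
      dq p v / (1 - zc (xs p) ^ 2) + Oh M a * fderiv ℝ (bt M a) p v) := by
  have d := (at_df (s_bt hp)).hasFDerivAt
  rw [show fderiv ℝ (fB M a) p = _ from (d.prodMk ((at_df (s_kr contDiffAt_id hp.1.1)).hasFDerivAt.prodMk
    ((at_df (s_zc contDiffAt_id hp.1.1)).hasFDerivAt.prodMk
      ((at_df (s_at hp.2.1)).hasFDerivAt.add (d.const_mul (Oh M a)))))).fderiv]
  simp [← fd_zc hp.1.1, ← fd_at hp.2.1]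

section
variable (h : |a| < M)
include h

theorem fB_mem (hp : p ∈ DB M a) : fB M a p ∈ kdom M a :=
  ⟨by
    show Del M a (kr M a p) ≠ 0
    rw [Del_eq h]
    refine mul_ne_zero ?_ (sub_pos.2 hp.1.2).ne'
    rw [kr_eq, sub_sub_cancel_left]
    exact neg_ne_zero.2 (mul_ne_zero hp.2.2.1 hp.2.2.2),
    (Sg_eq _).symm.trans_ne (cS_pos h hp.1).ne', (s2_pos hp.2.1).2.ne'⟩

theorem fB_gK (hp : p ∈ DB M a) (v w : R4) : gK M a p v w =
    kbl M a (fB M a p) (fderiv ℝ (fB M a) p v) (fderiv ℝ (fB M a) p w) := by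
  have U0 := hp.2.2.1
  have V0 := hp.2.2.2
  have R0 : kr M a p - rm M a ≠ 0 := (sub_pos.2 hp.1.2).ne'
  have S0 := (cS_pos h hp.1).ne'
  have z0 := (s2_pos hp.2.1).2.ne'
  have k0 := (ka_pos h).ne'
  have r := kr_eq (M := M) (a := a) p
  have e1 : ∀ v, kl M a p v = (Del M a (kr M a p) * (fderiv ℝ (bt M a) p v - a * (dq p v +
      (1 - zc (xs p) ^ 2) * (Oh M a * fderiv ℝ (bt M a) p v))) -
        cS M a p * fderiv ℝ (kr M a) p v) / kV M a p := fun v => by
    have e := PE h p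
    rw [kl, fd_bt hp, fd_kr hp.1.1, Del_eq h]
    simp only [cP, cw] at e ⊢
    field_simp at e ⊢
    grind
  have e2 : ∀ v, kn M a p v = -(Del M a (kr M a p) * (fderiv ℝ (bt M a) p v - a * (dq p v +
      (1 - zc (xs p) ^ 2) * (Oh M a * fderiv ℝ (bt M a) p v))) +
        cS M a p * fderiv ℝ (kr M a) p v) / kU M a p := fun v => by
    have e := PE h p
    rw [kn, fd_bt hp, fd_kr hp.1.1, Del_eq h]
    simp only [cP, cw] at e ⊢
    field_simp at e ⊢
    grind
  have e3 : ∀ v, kG M a p v = a ^ 2 * dq p v + ((kr M a p ^ 2 + a ^ 2) * Oh M a - a) *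
      fderiv ℝ (bt M a) p v := fun v => by
    have e := ON h
    rw [kG, fd_bt hp, dQ_eq]
    field_simp
    grind
  have e4 := rnd_dZ hp.1.1 v w
  have e5 : Del M a (kr M a p) = -(kU M a p * kV M a p) * (kr M a p - rm M a) := by
    rw [Del_eq h]; congr 1; linarith
  have e6 : kr M a p ^ 2 + a ^ 2 = cS M a p + a ^ 2 * (1 - zc (xs p) ^ 2) := by
    rw [cS, Sg_eq]; ring
  rw [mul_comm, ← eq_div_iff z0] at e4
  simp only [gK, nf, kbl, fd_fB hp, e1, e2, e3, e4, fB, e5, e6,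
    show Sig a (kr M a p) (zc (xs p)) = cS M a p from (Sg_eq _).symm]
  field_simp
  ring

theorem fB_pull : Pull (fB M a) (gK M a) (DB M a) (kbl M a) (kdom M a) :=
  pull_of open_DB P354RK.open_kdom (met_mono (gK_met h) inter_subset_left) (P354RK.k1 M a).1
    (fun _ => s_fB) (fun _ => fB_mem h) fun _ => fB_gK h

theorem gK_vac : Vac (gK M a) (DK M a) :=
  k2.2.2.2.1 _ _ _ open_DK open_DB inter_subset_left DK_sub (gK_met h)
    (k2.2.1 _ _ _ _ _ (fB_pull h) (P354RK.k1 M a).2)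

theorem gin_vac : Vac (gin M a) (DI M a) := k2.2.1 _ _ _ _ _ (kap_pull h) (gK_vac h)

/-! ### Time orientations -/

omit h in
theorem kvec_forms (hp : xs p ≠ 0) (A B C : ℝ) :
    dU M a p (kvec M a p A B C) = A ∧ dV M a p (kvec M a p A B C) = B ∧
    dq p (kvec M a p A B C) = (1 - zc (xs p) ^ 2) * C ∧
    ∀ w, rnd (xs p) (xs (kvec M a p A B C)) (xs w) = C * dq p w := by
  have r0 := (rd_pos hp).ne'
  have Y0 := (kY_pos (M := M) (a := a) hp).ne'
  have e : dT (xs p) (xs (kvec M a p A B C)) = (B - A) / kY M a p := by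
    simp only [dT_c, kvec, Om2, Prod.smul_mk, Prod.mk_add_mk, Prod.snd_add, Prod.fst_add,
      Prod.smul_snd, Prod.smul_fst, smul_eq_mul]
    field_simp
    linear_combination (A - B) * rd_sq p
  have e1 : (kvec M a p A B C).1 = (A + B) / 2 := by simp [kvec, Om2]
  refine ⟨?_, ?_, ?_, fun w => ?_⟩
  · rw [dU, dx, e, e1]; field_simp; ring
  · rw [dV, dx, e, e1]; field_simp; ring
  · simp only [dq_c, s2_c hp, kvec, Om2, Prod.smul_mk, Prod.mk_add_mk, Prod.snd_add, Prod.fst_add,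
      Prod.smul_snd, Prod.smul_fst, smul_eq_mul]
    ring
  · rw [rnd_c, e]
    simp only [dq_c, dT_c, kvec, Om2, Prod.smul_mk, Prod.mk_add_mk, Prod.snd_add, Prod.fst_add,
      Prod.smul_snd, Prod.smul_fst, smul_eq_mul]
    ring

theorem vL_forms (hp : p ∈ DK M a) : kl M a p (vL M a p) = 0 ∧ kn M a p (vL M a p) = 2 * cS M a p ∧
    kG M a p (vL M a p) = -(cS M a p * (kU M a p * co M a (kr M a p))) ∧
    kl M a p (vN M a p) = 2 * cS M a p ∧ kn M a p (vN M a p) = 0 ∧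
    kG M a p (vN M a p) = cS M a p * (kV M a p * co M a (kr M a p)) := by
  have R0 : kr M a p - rm M a ≠ 0 := (sub_pos.2 hp.2).ne'
  have k0 := (ka_pos h).ne'
  have r := kr_eq (M := M) (a := a) p
  have c1 := kN h
  have c2 := ON h
  rw [div_eq_iff (mul_ne_zero two_ne_zero k0)] at c1
  simp only [kl, kn, kG, dQ_eq, vL, vN, (kvec_forms hp.1 _ _ _).1, (kvec_forms hp.1 _ _ _).2.1,
    (kvec_forms hp.1 _ _ _).2.2.1, cP, cE, cS, cw, ce, co, Sg_eq]
  refine ⟨?_, ?_, ?_, ?_, ?_, ?_⟩ <;> field_simp <;> grind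

theorem gK_vL (hp : p ∈ DK M a) (w : R4) :
    gK M a p (vL M a p) w = -(kl M a p w / (kr M a p - rm M a)) ∧
      gK M a p (vN M a p) w = -(kn M a p w / (kr M a p - rm M a)) := by
  have R0 : kr M a p - rm M a ≠ 0 := (sub_pos.2 hp.2).ne'
  have S0 := (cS_pos h hp).ne'
  obtain ⟨e1, e2, e3, e4, e5, e6⟩ := vL_forms h hp
  simp only [gK, nf, e1, e2, e3, e4, e5, e6]
  simp only [vL, vN, (kvec_forms hp.1 _ _ _).2.2.1, (kvec_forms hp.1 _ _ _).2.2.2]
  constructor <;> field_simp <;> ring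

theorem gK_XK (hp : p ∈ DK M a) (w : R4) :
    gK M a p (XK M a p) w = -((kl M a p w + kn M a p w) / (kr M a p - rm M a)) := by
  have m := gK_met h
  rw [m.symm p hp, XK, (m.lin p hp w).map_add, m.symm p hp, m.symm p hp w, (gK_vL h hp w).1,
    (gK_vL h hp w).2]
  ring

omit h in
theorem s_kvec {A B C : R4 → ℝ} (hp : xs p ≠ 0) (hA : ContDiffAt ℝ ∞ A p) (hB : ContDiffAt ℝ ∞ B p)
    (hC : ContDiffAt ℝ ∞ C p) : ContDiffAt ℝ ∞ (fun p => kvec M a p (A p) (B p) (C p)) p :=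
  (((hA.add hB).div_const 2).prodMk (((hB.sub hA).div (s_kY contDiffAt_id hp) (kY_pos hp).ne').smul
    contDiffAt_snd)).add (hC.smul (show ContDiffAt ℝ ∞
      (fun p : R4 => ((0, -p.2.2.1, p.2.1, 0) : R4)) p by fun_prop))

omit h in
theorem s_XK (hp : p ∈ DK M a) : ContDiffAt ℝ ∞ (XK M a) p := by
  have r := s_kr (M := M) (a := a) contDiffAt_id hp.1
  have R0 : kr M a p - rm M a ≠ 0 := (sub_pos.2 hp.2).ne'
  have e : ContDiffAt ℝ ∞ (fun p => ce M a (kr M a p)) p :=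
    (contDiffAt_const.sub (contDiffAt_const.mul (r.add contDiffAt_const))).div
      (contDiffAt_const.mul (r.sub contDiffAt_const)) (mul_ne_zero two_ne_zero R0)
  have o : ContDiffAt ℝ ∞ (fun p => co M a (kr M a p)) p :=
    (contDiffAt_const.mul (r.add contDiffAt_const)).div (r.sub contDiffAt_const) R0
  have U := s_kU (M := M) (a := a) contDiffAt_id hp.1
  have V := s_kV (M := M) (a := a) contDiffAt_id hp.1
  have k := contDiffAt_const (c := (1 : ℝ)).sub (e.mul (r.sub (contDiffAt_const (c := rp M a))))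
  exact (s_kvec hp.1 (e.mul (U.pow 2)).neg k (U.mul o)).add
    (s_kvec hp.1 k (e.mul (V.pow 2)).neg (V.mul o).neg)

theorem gK_lor : Lor (gK M a) (DK M a) (XK M a) :=
  ⟨open_DK, gK_met h, gK_vac h, fun _ => gK_sig h, fun p hp => by
    obtain ⟨e1, e2, -, e4, e5, -⟩ := vL_forms h hp
    have := cS_pos h hp
    have := sub_pos.2 hp.2
    rw [gK_XK h hp, XK, (lin_kl p).map_add, (lin_kn p).map_add, e1, e2, e4, e5, neg_lt_zero]
    positivity, fun _ hp => (s_XK hp).continuousAt.continuousWithinAt⟩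

omit h in
theorem s_XI (hp : xs p ≠ 0) : ContDiffAt ℝ ∞ (XI M a) p :=
  ((s_Sg contDiffAt_id hp contDiffAt_const (s_rd contDiffAt_id hp)).add
    (contDiffAt_const.mul (s_rd contDiffAt_id hp))).prodMk (contDiffAt_snd.const_smul _)

theorem gin_lor : Lor (gin M a) (DI M a) (XI M a) :=
  ⟨open_DI, gin_met fun _ => DI_ne h, gin_vac h, fun _ hp => gin_sig (DI_ne h hp), fun p hp => by
    have := rd_pos (DI_ne h hp)
    have := Sg_pos (a := a) (y := xs p) this
    have := M_pos h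
    rw [XI_gin (DI_ne h hp), neg_lt_zero, XI]
    positivity, fun _ hp => (s_XI (DI_ne h hp)).continuousAt.continuousWithinAt⟩

theorem kap_ori (hp : p ∈ DI M a) :
    gK M a (kap M a p) (XK M a (kap M a p)) (fderiv ℝ (kap M a) p (XI M a p)) < 0 := by
  have r0 := rd_pos (DI_ne h hp)
  have S0 := Sg_pos (a := a) (y := xs p) r0
  have := M_pos h
  have := pV_pos hp
  have R0 : 0 < rd p - rm M a := sub_pos.2 hp
  have e1 : dr p (XI M a p) = -(2 * M * rd p) := by
    simp only [dr, dT_c, XI, Prod.smul_snd, Prod.smul_fst, smul_eq_mul]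
    field_simp
    linear_combination rd_sq p
  have e2 : kf a p (XI M a p) = Sg a (rd p) (xs p) := by
    rw [kf, e1]
    simp only [dq_c, XI, Prod.smul_snd, Prod.smul_fst, smul_eq_mul]; ring
  rw [gK_XK h (kap_mem h hp).1, (kap_forms h hp _).1, (kap_forms h hp _).2.1, e1, e2, kap_r h hp,
    neg_lt_zero, show Del M a (rd p) * Sg a (rd p) (xs p) - 2 * Sg a (rd p) (xs p) * -(2 * M * rd p)
      = (rd p ^ 2 + 2 * M * rd p + a ^ 2) * Sg a (rd p) (xs p) by rw [Del]; ring]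
  positivity

theorem mir_ori (hp : p ∈ DK M a) (w : R4) :
    gK M a (mir M a p) (XK M a (mir M a p)) (fderiv ℝ (mir M a) p w) = gK M a p (XK M a p) w := by
  rw [gK_XK h (mir_mem h hp), gK_XK h hp, (mir_kl h hp.1 w).1, (mir_kl h hp.1 w).2.1, mir_r h hp.1,
    add_comm]

theorem mir_DE {σ : Bool} (hp : p ∈ DE M a σ) : mir M a p ∈ DE M a (!σ) := by
  refine ⟨mir_mem h hp.1, ?_⟩
  rw [mir_U h hp.1.1, mir_V h hp.1.1]
  cases σ <;> exact hp.2

theorem isCh (σ : Bool) : IsCh M a σ := by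
  have k : Pull (kin M a) (gK M a) (DE M a true) (gin M a) (DI M a) :=
    pull_inv (kap_pull h) (open_DE _) (fun _ hp => hp.1) (fun _ => s_kin)
      (fun _ hp => kin_mem h hp.1) fun _ => kap_kin h
  cases σ
  · have k1 := pull_comp (mir_pull h) (kap_pull h)
    have k2 := pull_comp k (pull_mono (mir_pull h) (open_DE false)
      (fun _ hp => hp.1) (open_DE true) (fun _ hp => hp.1) fun _ => mir_DE h)
    refine ⟨k1, k2,
      fun _ hp => mir_DE h (kap_mem h hp), fun p hp => ?_, fun p hp => ?_,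
      fun p hp => (mir_r h (kap_mem h hp).1.1).trans (kap_r h hp), fun p hp => ?_⟩
    · show kin M a (mir M a (mir M a (kap M a p))) = p
      rw [mir_mir h (kap_mem h hp).1.1, kin_kap h hp]
    · show mir M a (kap M a (kin M a (mir M a p))) = p
      rw [kap_kin h (mir_DE h hp), mir_mir h hp.1.1]
    · show gK M a (mir M a (kap M a p)) (XK M a (mir M a (kap M a p)))
        (fderiv ℝ (mir M a ∘ kap M a) p (XI M a p)) < 0
      rw [fderiv_comp p (at_df (s_mir (kap_mem h hp).1.1)) (at_df (s_kap h hp))]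
      exact (mir_ori h (kap_mem h hp).1 _).trans_lt (kap_ori h hp)
  · exact ⟨kap_pull h, k, fun _ => kap_mem h, fun _ => kin_kap h, fun _ => kap_kin h,
      fun _ => kap_r h, fun _ => kap_ori h⟩
end

/-- **KLor** and **KCh**. -/
theorem klor : KLor := fun _ _ h => ⟨gK_lor h, gin_lor h⟩
theorem kch : KCh := fun _ _ h => isCh h

end Vale.Agent.P354YR
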