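import Vale.Agent.P354XE.Defs

/-!
Kerr in the Kruskal chart (T, y) of P354XE: the metric gK, and the exact statements about gK,
the ingoing metric gin and the charts.
-/

open scoped ContDiff
open Set Filter Topology

noncomputable section

namespace Vale.Agent.P354YR

open Vale.Agent.P354n (R4)
open Vale.Agent.P354I (X Dat dT dP rnd Sg rm rp)
open Vale.Agent.P354R (Pull Del)
open Vale.Agent.P354XS (zc ds)
open Vale.Agent.P354XE

/-- The form -(l n + n l) / 2 + S rnd + (G dP + dP G) + sin^2 θ G G / S at a point p. -/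
def nf (S : ℝ) (p : R4) (l n G : R4 → ℝ) (v w : R4) : ℝ :=
  -(l v * n w + n v * l w) / 2 + S * rnd (xs p) (xs v) (xs w) + (G v * dq p w + dq p v * G w) +
    (1 - zc (xs p) ^ 2) * (G v * G w) / S

/-- The angular velocity of the outer horizon. -/
def Oh (M a : ℝ) : ℝ := a / (2 * M * rp M a)

/-- The null coordinates U = T - x, V = T + x, the differentials of x, U, V, and the form
x dT - T dx. -/
def kU (M a : ℝ) (p : R4) : ℝ := p.1 - kx M a p
def kV (M a : ℝ) (p : R4) : ℝ := p.1 + kx M a p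
def kY (M a : ℝ) (p : R4) : ℝ := √(rd p) + √(M ^ 2 - a ^ 2) / (2 * √(rd p))
def dx (M a : ℝ) (p v : R4) : ℝ := kY M a p / 2 * dT (xs p) (xs v)
def dU (M a : ℝ) (p v : R4) : ℝ := v.1 - dx M a p v
def dV (M a : ℝ) (p v : R4) : ℝ := v.1 + dx M a p v
def dQ (M a : ℝ) (p v : R4) : ℝ := kx M a p * v.1 - p.1 * dx M a p v

/-- The coefficients. -/
def cw (M a : ℝ) (p : R4) : ℝ := 1 - a * Oh M a * (1 - zc (xs p) ^ 2)
def cS (M a : ℝ) (p : R4) : ℝ := Sg a (kr M a p) (xs p)
def cP (M a : ℝ) (p : R4) : ℝ := cS M a p + (kr M a p - rm M a) * cw M a p / (2 * ka M a)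
def cE (M a : ℝ) (p : R4) : ℝ := kr M a p + rp M a - cw M a p / (2 * ka M a)

/-- The two principal null forms and the angular form; V kl = Del al - Sg dr and
-U kn = Del al + Sg dr with al = dt - a sin^2 θ dφ. -/
def kl (M a : ℝ) (p v : R4) : ℝ :=
  cP M a p * dU M a p v - cE M a p * kU M a p ^ 2 * dV M a p v +
    kU M a p * (kr M a p - rm M a) * a * dq p v
def kn (M a : ℝ) (p v : R4) : ℝ :=
  cP M a p * dV M a p v - cE M a p * kV M a p ^ 2 * dU M a p v -
    kV M a p * (kr M a p - rm M a) * a * dq p v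
def kG (M a : ℝ) (p v : R4) : ℝ :=
  a ^ 2 * dq p v + Oh M a * (kr M a p + rp M a) / ka M a * dQ M a p v

/-- The Kerr metric in the Kruskal chart. -/
def gK (M a : ℝ) : Tw := fun p =>
  nf (cS M a p) p (fun v => kl M a p v / ((kr M a p - rm M a) * cS M a p)) (kn M a p) (kG M a p)

/-- The domains r > rm of the Kruskal chart and of the ingoing chart, and the images of the
ingoing charts of the two ends. -/
def DK (M a : ℝ) : Set R4 := {p | xs p ≠ 0 ∧ rm M a < kr M a p}
def DI (M a : ℝ) : Set R4 := {p | rm M a < rd p}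
def DE (M a : ℝ) (σ : Bool) : Set R4 := {p | p ∈ DK M a ∧ 0 < bif σ then kV M a p else kU M a p}

/-- The vector with the components A, B, C along d/dU, d/dV, d/dφ. -/
def kvec (M a : ℝ) (p : R4) (A B C : ℝ) : R4 :=
  ((A + B) / 2, ((B - A) / kY M a p) • p.2) + C • Om 2 p

/-- The principal null vectors, and their sum, which is future timelike. -/
def ce (M a r : ℝ) : ℝ := (1 - 2 * ka M a * (r + rp M a)) / (2 * (r - rm M a))
def co (M a r : ℝ) : ℝ := Oh M a * (r + rp M a) / (r - rm M a)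
def vL (M a : ℝ) (p : R4) : R4 :=
  kvec M a p (-(ce M a (kr M a p) * kU M a p ^ 2)) (1 - ce M a (kr M a p) * (kr M a p - rp M a))
    (kU M a p * co M a (kr M a p))
def vN (M a : ℝ) (p : R4) : R4 :=
  kvec M a p (1 - ce M a (kr M a p) * (kr M a p - rp M a)) (-(ce M a (kr M a p) * kV M a p ^ 2))
    (-(kV M a p * co M a (kr M a p)))
def XK (M a : ℝ) (p : R4) : R4 := vL M a p + vN M a p

/-- Minus the gradient of t for gin, times Sg. -/
def XI (M a : ℝ) (p : R4) : R4 :=
  (Sg a (rd p) (xs p) + 2 * M * rd p, (-(2 * M)) • p.2)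

/-- The rotation about the axis by the angle c, the ingoing time t as a function on V > 0, and the
inverse of kap. -/
def rz (c : ℝ) (z : X) : X :=
  !₂[Real.cos c * z 0 - Real.sin c * z 1, Real.sin c * z 0 + Real.cos c * z 1, z 2]
def kt (M a : ℝ) (p : R4) : ℝ := Real.log (kV M a p / mf M a (kr M a p)) / ka M a
def kin (M a : ℝ) (p : R4) : R4 :=
  pt (kt M a p) ((kr M a p / rd p) •
    rz (Oh M a * kt M a p - a / rp M a * Real.log (kr M a p - rm M a)) (xs p))

/-- The inverses of the charts ch. -/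
def ci (M a : ℝ) (σ : Bool) : R4 → R4 := bif σ then kin M a else kin M a ∘ mir M a

/-- Both metrics are Lorentzian vacuum metrics. -/
def KLor : Prop := ∀ M a : ℝ, |a| < M → Lor (gK M a) (DK M a) (XK M a) ∧
  Lor (gin M a) (DI M a) (XI M a)

/-- The charts are isometries from DI onto DE, with the smooth inverses ci; they respect the
radius and the time orientation. -/
structure IsCh (M a : ℝ) (σ : Bool) : Prop where
  pull : Pull (ch M a σ) (gin M a) (DI M a) (gK M a) (DK M a)
  back : Pull (ci M a σ) (gK M a) (DE M a σ) (gin M a) (DI M a)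
  maps : MapsTo (ch M a σ) (DI M a) (DE M a σ)
  left : ∀ p ∈ DI M a, ci M a σ (ch M a σ p) = p
  right : ∀ p ∈ DE M a σ, ch M a σ (ci M a σ p) = p
  rad : ∀ p ∈ DI M a, kr M a (ch M a σ p) = rd p
  ori : ∀ p ∈ DI M a, gK M a (ch M a σ p) (XK M a (ch M a σ p))
    (fderiv ℝ (ch M a σ) p (XI M a p)) < 0

def KCh : Prop := ∀ M a : ℝ, |a| < M → ∀ σ, IsCh M a σ

/-- The data induced on T = 0 and on r = r0. -/
def KInd : Prop := ∀ M a : ℝ, |a| < M → Ind (gK M a) (XK M a) (pt 0) (ds M a) ∧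
  ∀ r0 ∈ Ioo (rm M a) (rp M a), Ind (gK M a) (XK M a) (cyl M a r0) (P354I.kerr M a r0)

end Vale.Agent.P354YR
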