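import Vale.Agent.P354YR.Cau

/-!
Deformation tensors of d/dt, d/dφ and of the ingoing principal null field for gin.
-/

open scoped ContDiff
open Set Filter Topology

noncomputable section

namespace Vale.Agent.P354YR

open Vale.Agent.P354n (R4 mink IsConn)
open Vale.Agent.P354I (X Dat ee pd dT dP rnd Sg rm rp)
open Vale.Agent.P354R (Pull Del Sig Met Vac)
open Vale.Agent.P354XS (zc ds dZ)
open Vale.Agent.P354XE
open Vale.Agent.P354XK hiding Om kf
open Vale.Agent.P354RC (at_df)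

variable {M a : ℝ} {p u v w : R4}

/-- The Euclidean product of the space parts, and the area form of the first two components. -/
def sp (v w : R4) : ℝ := v.2.1 * w.2.1 + v.2.2.1 * w.2.2.1 + v.2.2.2 * w.2.2.2
def ar (v w : R4) : ℝ := v.2.1 * w.2.2.1 - v.2.2.1 * w.2.1

theorem dr_c (hp : xs p ≠ 0) (v : R4) : dr p v = sp p v / rd p := by
  have := (rd_pos hp).ne'
  rw [dr, dT_c, sp]; field_simp

theorem fd_drx (hp : xs p ≠ 0) (w u : R4) :
    fderiv ℝ (fun x => dr x w) p u = (sp u w - dr p w * dr p u) / rd p := by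
  obtain ⟨L, d, e⟩ := hd_rd hp
  have r0 := (rd_pos hp).ne'
  have x0 := hasFDerivAt_snd (𝕜 := ℝ) (p := p)
  have k := (((x0.fst.mul_const w.2.1).add (x0.snd.fst.mul_const w.2.2.1)).add
    (x0.snd.snd.mul_const w.2.2.2)).mul ((hasDerivAt_inv r0).comp_hasFDerivAt p d)
  rw [(k.congr_of_eventuallyEq (f₁ := fun x => dr x w)
    (mem_of_superset (open_ne.mem_nhds hp) fun x hx => dr_c hx w)).fderiv, dr_c hp w]
  simp [e, sp]
  field_simp
  ring

theorem fd_dqx (hp : xs p ≠ 0) (w u : R4) :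
    fderiv ℝ (fun x => dq x w) p u = ar u w / rd p ^ 2 - 2 * dq p w * dr p u / rd p := by
  obtain ⟨L, d, e⟩ := hd_rd hp
  have r0 := (rd_pos hp).ne'
  have x0 := hasFDerivAt_snd (𝕜 := ℝ) (p := p)
  rw [show fderiv ℝ (fun x => dq x w) p = _ from (((x0.fst.mul_const w.2.2.1).sub
    (x0.snd.fst.mul_const w.2.1)).mul ((hasDerivAt_inv (pow_ne_zero 2 r0)).comp_hasFDerivAt p
      (d.pow 2))).fderiv, dq_c]
  simp [e, ar]
  field_simp
  ring

theorem rnd_dr (hp : xs p ≠ 0) (v w : R4) :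
    rnd (xs p) (xs v) (xs w) = (sp v w - dr p v * dr p w) / rd p ^ 2 := by
  have := (rd_pos hp).ne'
  rw [rnd_c, dr, dr, sp]; field_simp

theorem fd_rndx (hp : xs p ≠ 0) (v w u : R4) :
    fderiv ℝ (fun x => rnd (xs x) (xs v) (xs w)) p u =
      -(((sp u v - dr p v * dr p u) * dr p w + dr p v * (sp u w - dr p w * dr p u)) / rd p ^ 3) -
        2 * rnd (xs p) (xs v) (xs w) * dr p u / rd p := by
  obtain ⟨L, d, e⟩ := hd_rd hp
  have r0 := (rd_pos hp).ne'
  have k := (((at_df (s_dr contDiffAt_id hp v)).hasFDerivAt.mul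
    (at_df (s_dr contDiffAt_id hp w)).hasFDerivAt).const_sub (sp v w)).mul
      ((hasDerivAt_inv (pow_ne_zero 2 r0)).comp_hasFDerivAt p (d.pow 2))
  rw [(k.congr_of_eventuallyEq (f₁ := fun x => rnd (xs x) (xs v) (xs w))
    (mem_of_superset (open_ne.mem_nhds hp) fun x hx => rnd_dr hx v w)).fderiv, rnd_dr hp]
  simp [e, fd_drx hp]
  field_simp
  ring

theorem fd_Sgx (hp : xs p ≠ 0) (u : R4) : fderiv ℝ (fun x => Sg a (rd x) (xs x)) p u =
    2 * rd p * dr p u + 2 * a ^ 2 * zc (xs p) * dZ (xs p) (xs u) := by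
  obtain ⟨L, d, e⟩ := hd_rd hp
  simp only [Sg_eq]
  rw [show fderiv ℝ (fun x => rd x ^ 2 + a ^ 2 * zc (xs x) ^ 2) p = _ from ((d.pow 2).add
    (((at_df (s_zc contDiffAt_id hp)).hasFDerivAt.pow 2).const_mul (a ^ 2))).fderiv]
  simp [e, fd_zc hp]
  ring

/-- The derivative of the components of gin. -/
theorem fd_gin (hp : xs p ≠ 0) (w u : R4) : fderiv ℝ (fun x => gin M a x w w) p u =
    2 * dr p w * fderiv ℝ (fun x => dr x w) p u - 2 * a * (fderiv ℝ (fun x => dr x w) p u * dq p w +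
      dr p w * fderiv ℝ (fun x => dq x w) p u) +
    fderiv ℝ (fun x => Sg a (rd x) (xs x)) p u * rnd (xs p) (xs w) (xs w) +
    Sg a (rd p) (xs p) * fderiv ℝ (fun x => rnd (xs x) (xs w) (xs w)) p u +
    2 * a ^ 2 * dq p w * fderiv ℝ (fun x => dq x w) p u +
    2 * M * (dr p u / Sg a (rd p) (xs p) - rd p * fderiv ℝ (fun x => Sg a (rd x) (xs x)) p u /
      Sg a (rd p) (xs p) ^ 2) * kf a p w ^ 2 +
    4 * M * rd p / Sg a (rd p) (xs p) * kf a p w *
      (fderiv ℝ (fun x => dr x w) p u - a * fderiv ℝ (fun x => dq x w) p u) := by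
  obtain ⟨L, d, e⟩ := hd_rd hp
  have S0 := (Sg_pos (a := a) (y := xs p) (rd_pos hp)).ne'
  have d1 := (at_df (show ContDiffAt ℝ ∞ (fun x => dr x w) p from s_dr contDiffAt_id hp w)).hasFDerivAt
  have d2 := (at_df (show ContDiffAt ℝ ∞ (fun x => dq x w) p from s_dq contDiffAt_id hp w)).hasFDerivAt
  have d3 := (at_df (show ContDiffAt ℝ ∞ (fun x => Sg a (rd x) (xs x)) p from
    s_Sg contDiffAt_id hp contDiffAt_const (s_rd contDiffAt_id hp))).hasFDerivAt
  have d4 := (at_df (show ContDiffAt ℝ ∞ (fun x => rnd (xs x) (xs w) (xs w)) p from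
    s_rnd contDiffAt_id hp w w)).hasFDerivAt
  have d5 := (d1.const_add w.1).sub (d2.const_mul a)
  rw [show fderiv ℝ (fun x => gin M a x w w) p = _ from ((((((d1.mul d1).const_add
    (-(w.1 * w.1))).sub (((d1.mul d2).add (d2.mul d1)).const_mul a)).add (d3.mul d4)).add
      ((d2.mul d2).const_mul (a ^ 2))).add (((d.const_mul (2 * M)).mul
        ((hasDerivAt_inv S0).comp_hasFDerivAt p d3)).mul (d5.mul d5))).fderiv]
  simp [e, kf]
  field_simp
  ring

theorem pi_eT (hp : xs p ≠ 0) (w : R4) : pi (gin M a) (fun _ => eT) p w = 0 := by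
  have e : dT (xs p) (xs eT) = 0 := by simp [dT_c, eT]
  rw [P354XE.pi, fd_gin hp, fd_drx hp, fd_dqx hp, fd_rndx hp, fd_Sgx hp]
  simp [dr, dZ, e, show sp eT w = 0 by simp [sp, eT], show ar eT w = 0 by simp [ar, eT],
    show xs eT 2 = 0 from rfl, gin, kf, dq_c, rnd_c, dT_c]

theorem fd_Om2 (p w : R4) : fderiv ℝ (Om 2) p w = Om 2 w := by
  have x0 := hasFDerivAt_snd (𝕜 := ℝ) (p := p)
  rw [show fderiv ℝ (Om 2) p = _ from ((hasFDerivAt_const (0 : ℝ) p).prodMk (x0.snd.fst.neg.prodMk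
    (x0.fst.prodMk (hasFDerivAt_const (0 : ℝ) p)))).fderiv]
  simp [Om2]

theorem pi_Om (hp : xs p ≠ 0) (w : R4) : pi (gin M a) (Om 2) p w = 0 := by
  have r0 := (rd_pos hp).ne'
  have S0 := (Sg_pos (a := a) (y := xs p) (rd_pos hp)).ne'
  have e : dr p (Om 2 p) = 0 := by simp [dr_c hp, sp, Om2]; left; ring
  have e2 : dZ (xs p) (xs (Om 2 p)) = 0 := by
    rw [dZ, (mul_eq_zero.1 e).resolve_left r0]; simp [xs, Om2]
  rw [P354XE.pi, fd_gin hp, fd_drx hp, fd_dqx hp, fd_rndx hp, fd_Sgx hp, fd_Om2, e, e2]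
  simp only [gin, kf, rnd_dr hp, dr_c hp, dq_c, sp, ar, Om2]
  field_simp
  ring

/-- The ingoing principal null field. -/
def nI (p : R4) : R4 := (1, -(rd p)⁻¹ • p.2)

theorem s_nI (hp : xs p ≠ 0) : ContDiffAt ℝ ∞ nI p :=
  contDiffAt_const.prodMk (((s_rd contDiffAt_id hp).inv (rd_pos hp).ne').neg.smul contDiffAt_snd)

theorem fd_nI (hp : xs p ≠ 0) (w : R4) :
    fderiv ℝ nI p w = (0, -(rd p)⁻¹ • w.2 + (dr p w / rd p ^ 2) • p.2) := by
  obtain ⟨L, d, e⟩ := hd_rd hp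
  rw [show fderiv ℝ nI p = _ from ((hasFDerivAt_const (1 : ℝ) p).prodMk
    (((hasDerivAt_inv (rd_pos hp).ne').comp_hasFDerivAt p d).neg.smul hasFDerivAt_snd)).fderiv]
  simp [e, div_eq_inv_mul]

theorem gin_nI (hp : xs p ≠ 0) (w : R4) : gin M a p (nI p) w = -kf a p w := by
  have r0 := (rd_pos hp).ne'
  have k := rd_sq p
  have e : dr p (nI p) = -1 := by
    simp only [dr_c hp, sp, nI, Prod.smul_snd, Prod.smul_fst, smul_eq_mul]
    field_simp; linarith
  have e2 : dq p (nI p) = 0 := by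
    simp only [dq_c, nI, Prod.smul_snd, Prod.smul_fst, smul_eq_mul]; ring
  simp only [gin, kf, rnd_dr hp, e, e2]
  simp only [dr_c hp, sp, nI, Prod.smul_snd, Prod.smul_fst, smul_eq_mul]
  field_simp
  ring

theorem pi_nI (hp : xs p ≠ 0) (w : R4) : pi (gin M a) nI p w = -(rd p * rnd (xs p) (xs w) (xs w)) +
    M * (rd p ^ 2 - a ^ 2 * zc (xs p) ^ 2) * kf a p w ^ 2 / Sg a (rd p) (xs p) ^ 2 := by
  have r0 := (rd_pos hp).ne'
  have S0 := (Sg_pos (a := a) (y := xs p) (rd_pos hp)).ne'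
  have k := rd_sq p
  have e : dr p (nI p) = -1 := by
    simp only [dr_c hp, sp, nI, Prod.smul_snd, Prod.smul_fst, smul_eq_mul]
    field_simp; linarith
  have e2 : dZ (xs p) (xs (nI p)) = 0 := by
    rw [dr] at e
    rw [dZ, show dT (xs p) (xs (nI p)) = -1 / rd p by field_simp; linarith, zc_c, ← rd]
    simp [xs, nI]; ring
  have e3 : sp (nI p) w = -dr p w := by
    simp only [dr_c hp, sp, nI, Prod.smul_snd, Prod.smul_fst, smul_eq_mul]; ring
  have e4 : ar (nI p) w = -(rd p * dq p w) := by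
    simp only [dq_c, ar, nI, Prod.smul_snd, Prod.smul_fst, smul_eq_mul]; field_simp; ring
  have e5 : dr p (fderiv ℝ nI p w) = 0 := by
    simp only [fd_nI hp, dr_c hp, sp, Prod.smul_snd, Prod.smul_fst, smul_eq_mul, Prod.snd_add,
      Prod.fst_add]
    field_simp
    linear_combination (-(p.2.1 * w.2.1 + p.2.2.1 * w.2.2.1 + p.2.2.2 * w.2.2.2)) * k
  have e6 : dq p (fderiv ℝ nI p w) = -dq p w / rd p := by
    simp only [fd_nI hp, dq_c, Prod.smul_snd, Prod.smul_fst, smul_eq_mul, Prod.snd_add, Prod.fst_add]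
    ring
  have e7 : rnd (xs p) (xs (fderiv ℝ nI p w)) (xs w) = -rnd (xs p) (xs w) (xs w) / rd p := by
    rw [rnd_dr hp, rnd_dr hp, e5]
    simp only [fd_nI hp, dr_c hp, sp, Prod.smul_snd, Prod.smul_fst, smul_eq_mul, Prod.snd_add,
      Prod.fst_add]
    field_simp
    ring
  have e8 : (fderiv ℝ nI p w).1 = 0 := by rw [fd_nI hp]
  have e9 : Sg a (rd p) (xs p) = rd p ^ 2 + a ^ 2 * zc (xs p) ^ 2 := Sg_eq _
  rw [P354XE.pi, fd_gin hp, fd_drx hp, fd_dqx hp, fd_rndx hp, fd_Sgx hp, e, e2, e3, e4, gin,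
    kf.eq_1 a p (fderiv ℝ nI p w), e5, e6, e7, e8]
  field_simp
  linear_combination (-2 * M * rd p ^ 3 * kf a p w ^ 2) * e9

/-- The deformation tensor of a multiple of a field. -/
theorem pi_smul {g : Tw} {f : R4 → ℝ} {V : R4 → R4} (hl : IsLinearMap ℝ (g p w))
    (hs : ∀ a b, g p a b = g p b a) (hf : DifferentiableAt ℝ f p) (hV : DifferentiableAt ℝ V p) :
    pi g (fun x => f x • V x) p w = f p * pi g V p w + fderiv ℝ f p w * g p (V p) w := by
  rw [P354XE.pi, P354XE.pi, fderiv_fun_smul hf hV, map_smul, hs _ w, hs _ w, hs _ w]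
  simp only [add_apply, smul_apply, ContinuousLinearMap.smulRight_apply, hl.map_add, hl.map_smul,
    smul_eq_mul]
  ring

/-- The frame identities. -/
theorem gin_TO (hp : xs p ≠ 0) (w : R4) : (rd p ^ 2 + a ^ 2) * gin M a p eT w +
    a * gin M a p (Om 2 p) w = Sg a (rd p) (xs p) * dr p w - Del M a (rd p) * kf a p w := by
  have r0 := (rd_pos hp).ne'
  have S0 := (Sg_pos (a := a) (y := xs p) (rd_pos hp)).ne'
  have e9 : Sg a (rd p) (xs p) = rd p ^ 2 + a ^ 2 * zc (xs p) ^ 2 := Sg_eq _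
  have e1 : dr p (Om 2 p) = 0 := by simp [dr_c hp, sp, Om2]; left; ring
  have e2 : dq p (Om 2 p) = 1 - zc (xs p) ^ 2 := by rw [s2_c hp]; simp only [dq_c, Om2]; ring
  have e3 : rnd (xs p) (xs (Om 2 p)) (xs w) = dq p w := by
    rw [rnd_dr hp, e1]; simp only [dq_c, Om2, sp]; ring
  have e4 : dr p eT = 0 := by simp [dr_c hp, sp, eT]
  have e5 : dq p eT = 0 := by simp [dq_c, eT]
  have e6 : rnd (xs p) (xs eT) (xs w) = 0 := by rw [rnd_dr hp, e4]; simp [sp, eT]
  simp only [gin, kf, e1, e2, e3, e4, e5, e6, Del, show eT.1 = 1 from rfl,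
    show (Om 2 p).1 = 0 from rfl]
  field_simp
  rw [e9]
  ring

theorem gin_sq (hp : xs p ≠ 0) (w : R4) : gin M a p w w =
    -(Del M a (rd p) / Sg a (rd p) (xs p) * kf a p w ^ 2) + 2 * kf a p w * dr p w +
      ang (Sg a (rd p) (xs p)) p (fun v => -(a * kf a p v)) w := by
  rw [gin_nf hp, nf_sq]; ring

end Vale.Agent.P354YR
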