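import Vale.Agent.P354YR.Nf
import Vale.Agent.P354XE.Iface

/-!
The charts kap, mir and the cylinder: KAP.
-/

open scoped ContDiff
open Set Filter Topology

noncomputable section

namespace Vale.Agent.P354YR

open Vale.Agent.P354n (R4 mink)
open Vale.Agent.P354I (X Dat dT dP rnd Sg rm rp)
open Vale.Agent.P354R (Pull Del Met Vac)
open Vale.Agent.P354XS (zc ds)
open Vale.Agent.P354XE
open Vale.Agent.P354XK hiding Om

variable {M a : ℝ} {p v w : R4}

theorem rz_rz (c c' : ℝ) (z : X) : rz c (rz c' z) = rz (c + c') z := by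
  ext i; fin_cases i <;> simp [rz, Real.cos_add, Real.sin_add] <;> ring
theorem rz_zero (z : X) : rz 0 z = z := by ext i; fin_cases i <;> simp [rz]
theorem rz_smul (c l : ℝ) (z : X) : rz c (l • z) = l • rz c z := by
  ext i; fin_cases i <;> simp [rz] <;> ring
theorem rz_norm (c : ℝ) (z : X) : ‖rz c z‖ = ‖z‖ := by
  have := pol_rd (τ := fun _ => 0) (l := fun _ => 1) (c := fun _ => c) (p := pt 0 z) zero_le_one
  simpa [pol, rd, xs_pt] using this

theorem kp_eq (U V c : ℝ) (z : X) :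
    kp M a U V c z = pt ((U + V) / 2) ((ky M a ((V - U) / 2) / ‖z‖) • rz c z) := rfl
theorem kr_eq (p : R4) : kr M a p = rp M a - kU M a p * kV M a p := by
  simp only [kr, kU, kV]; ring

section
variable (h : |a| < M)
include h

theorem M_pos : 0 < M := (abs_nonneg a).trans_lt h
theorem dis_pos : 0 < M ^ 2 - a ^ 2 := by
  have := abs_nonneg a
  rw [← sq_abs a]; nlinarith
theorem b_pos : 0 < √(M ^ 2 - a ^ 2) := Real.sqrt_pos.2 (dis_pos h)
theorem b_sq : √(M ^ 2 - a ^ 2) ^ 2 = M ^ 2 - a ^ 2 := Real.sq_sqrt (dis_pos h).le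
theorem rp_pos : 0 < rp M a := add_pos (M_pos h) (b_pos h)
theorem rm_lt : rm M a < rp M a := by have := b_pos h; simp only [rm, rp]; linarith
theorem rp_rm : rp M a * rm M a = a ^ 2 := by have := b_sq h; simp only [rm, rp]; linarith
theorem rm_nn : 0 ≤ rm M a := nonneg_of_mul_nonneg_right (by rw [rp_rm h]; positivity) (rp_pos h)
theorem ka_pos : 0 < ka M a := div_pos (b_pos h) (by have := M_pos h; have := rp_pos h; positivity)
theorem Np_eq : 2 * M * rp M a = rp M a ^ 2 + a ^ 2 := by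
  rw [← rp_rm h]; simp only [rm, rp]; ring
theorem Del_eq (r : ℝ) : Del M a r = (r - rp M a) * (r - rm M a) := by
  rw [Del, ← rp_rm h]; simp only [rm, rp]; ring

theorem ky_rt (x : ℝ) : 0 < (x + √(x ^ 2 + 2 * √(M ^ 2 - a ^ 2))) / 2 := by
  have := Real.lt_sqrt_of_sq_lt (x := -x) (y := x ^ 2 + 2 * √(M ^ 2 - a ^ 2))
    (by have := b_pos h; linarith [neg_sq x])
  linarith
theorem ky_pos (x : ℝ) : 0 < ky M a x := pow_pos (ky_rt h x) 2
theorem ky_cd : ContDiff ℝ ∞ (ky M a) :=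
  ((contDiff_id.add (((contDiff_id.pow 2).add contDiff_const).sqrt fun x => by
    have := b_pos h; positivity)).div_const 2).pow 2

theorem kx_of {x : ℝ} (e : rd p = ky M a x) : kx M a p = x := by
  have k := ky_rt h x
  have k2 := Real.sq_sqrt (show 0 ≤ x ^ 2 + 2 * √(M ^ 2 - a ^ 2) by positivity)
  rw [kx, e, ky, Real.sqrt_sq k.le, sub_eq_iff_eq_add, ← sub_eq_iff_eq_add', eq_div_iff (by linarith)]
  linarith

omit h in
theorem kY_pos (hp : xs p ≠ 0) : 0 < kY M a p := by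
  have := Real.sqrt_pos.2 (rd_pos hp)
  rw [kY]; positivity
omit h in
theorem kY_sq (hp : xs p ≠ 0) : kY M a p ^ 2 = kx M a p ^ 2 + 2 * √(M ^ 2 - a ^ 2) := by
  have := Real.sqrt_pos.2 (rd_pos hp)
  rw [kY, kx]; field_simp; ring
omit h in
theorem ky_kx (hp : xs p ≠ 0) : ky M a (kx M a p) = rd p := by
  rw [ky, ← kY_sq hp, Real.sqrt_sq (kY_pos hp).le, kY, kx]
  linear_combination Real.sq_sqrt (rd_nn p)

theorem kp_rd {U V c : ℝ} {z : X} (hz : z ≠ 0) : rd (kp M a U V c z) = ky M a ((V - U) / 2) := by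
  have := norm_pos_iff.2 hz
  rw [kp_eq, rd, xs_pt, norm_smul, rz_norm, Real.norm_of_nonneg (div_pos (ky_pos h _) this).le,
    div_mul_cancel₀ _ this.ne']
theorem kp_ne {U V c : ℝ} {z : X} (hz : z ≠ 0) : xs (kp M a U V c z) ≠ 0 :=
  xs_ne (by rw [kp_rd h hz]; exact ky_pos h _)
theorem kp_U {U V c : ℝ} {z : X} (hz : z ≠ 0) : kU M a (kp M a U V c z) = U := by
  rw [kU, kx_of h (kp_rd h hz)]; simp only [kp, pt]; ring
theorem kp_V {U V c : ℝ} {z : X} (hz : z ≠ 0) : kV M a (kp M a U V c z) = V := by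
  rw [kV, kx_of h (kp_rd h hz)]; simp only [kp, pt]; ring
theorem kp_r {U V c : ℝ} {z : X} (hz : z ≠ 0) : kr M a (kp M a U V c z) = rp M a - U * V := by
  rw [kr_eq, kp_U h hz, kp_V h hz]

omit h in
theorem kp_self (hp : xs p ≠ 0) {l c : ℝ} (hl : 0 < l) :
    kp M a (kU M a p) (kV M a p) c (l • rz (-c) (xs p)) = p := by
  have r0 := rd_pos hp
  rw [kp_eq, show (kV M a p - kU M a p) / 2 = kx M a p by simp only [kU, kV]; ring,
    show (kU M a p + kV M a p) / 2 = p.1 by simp only [kU, kV]; ring, ky_kx hp, norm_smul,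
    rz_norm, rz_smul, rz_rz, add_neg_cancel, rz_zero, smul_smul, Real.norm_of_nonneg hl.le,
    show rd p / (l * ‖xs p‖) * l = 1 by rw [← rd]; field_simp, one_smul, pt_xs]

theorem kp_back {U V c l : ℝ} {z : X} (hz : z ≠ 0) :
    (l / rd (kp M a U V c z)) • rz (-c) (xs (kp M a U V c z)) = (l / ‖z‖) • z := by
  have := norm_pos_iff.2 hz
  have k := ky_pos h ((V - U) / 2)
  rw [kp_rd h hz, kp_eq, xs_pt, rz_smul, rz_rz, neg_add_cancel, rz_zero, smul_smul]
  congr 1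
  field_simp

omit h in
theorem mf_pos {r : ℝ} (hr : rm M a < r) : 0 < mf M a r := Real.rpow_pos_of_pos (sub_pos.2 hr) _

/-- The functions U, V and the angle of kap. -/
def pV (M a : ℝ) (p : R4) : ℝ := mf M a (rd p) * Real.exp (ka M a * p.1)
def pU (M a : ℝ) (p : R4) : ℝ := -(rd p - rp M a) / pV M a p
def pc (M a : ℝ) (p : R4) : ℝ := a / rp M a * Real.log (rd p - rm M a) - Oh M a * p.1

omit h in
theorem kap_eq (p : R4) : kap M a p = kp M a (pU M a p) (pV M a p) (pc M a p) (xs p) := rfl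
omit h in
theorem pV_pos (hp : p ∈ DI M a) : 0 < pV M a p := mul_pos (mf_pos hp) (Real.exp_pos _)
theorem DI_ne (hp : p ∈ DI M a) : xs p ≠ 0 := xs_ne ((rm_nn h).trans_lt hp)
theorem kap_U (hp : p ∈ DI M a) : kU M a (kap M a p) = pU M a p := kp_U h (DI_ne h hp)
theorem kap_V (hp : p ∈ DI M a) : kV M a (kap M a p) = pV M a p := kp_V h (DI_ne h hp)
theorem kap_r (hp : p ∈ DI M a) : kr M a (kap M a p) = rd p := by
  have := (pV_pos hp).ne'
  rw [kap_eq, kp_r h (DI_ne h hp), pU]; field_simp; ring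
theorem kap_mem (hp : p ∈ DI M a) : kap M a p ∈ DE M a true :=
  ⟨⟨kp_ne h (DI_ne h hp), by rw [kap_r h hp]; exact hp⟩, by
    show 0 < kV M a (kap M a p)
    rw [kap_V h hp]; exact pV_pos hp⟩
theorem kap_t (hp : p ∈ DI M a) : kt M a (kap M a p) = p.1 := by
  rw [kt, kap_V h hp, kap_r h hp, pV, mul_div_cancel_left₀ _ (mf_pos hp).ne', Real.log_exp,
    mul_div_cancel_left₀ _ (ka_pos h).ne']
theorem kin_kap (hp : p ∈ DI M a) : kin M a (kap M a p) = p := by
  have z0 := DI_ne h hp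
  rw [kin, kap_t h hp, kap_r h hp, ← neg_sub, show _ - Oh M a * p.1 = pc M a p from rfl, kap_eq,
    kp_back h z0, ← rd, div_self (rd_pos z0).ne', one_smul, pt_xs]
theorem kin_rd (hp : p ∈ DK M a) : rd (kin M a p) = kr M a p := by
  have r0 := rd_pos hp.1
  rw [kin, rd, xs_pt, norm_smul, rz_norm,
    Real.norm_of_nonneg (div_nonneg ((rm_nn h).trans hp.2.le) r0.le), ← rd, div_mul_cancel₀ _ r0.ne']
theorem kin_mem (hp : p ∈ DK M a) : kin M a p ∈ DI M a := by
  show rm M a < _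
  rw [kin_rd h hp]; exact hp.2
theorem kap_kin (hp : p ∈ DE M a true) : kap M a (kin M a p) = p := by
  have V0 : 0 < kV M a p := hp.2
  have m0 := mf_pos hp.1.2
  have e1 : pV M a (kin M a p) = kV M a p := by
    rw [pV, kin_rd h hp.1, show (kin M a p).1 = kt M a p from rfl, kt,
      mul_div_cancel₀ _ (ka_pos h).ne', Real.exp_log (div_pos V0 m0), mul_div_cancel₀ _ m0.ne']
  have e2 : pU M a (kin M a p) = kU M a p := by
    rw [pU, e1, kin_rd h hp.1, kr_eq]; field_simp; ring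
  rw [kap_eq, e1, e2, pc, kin_rd h hp.1, show (kin M a p).1 = kt M a p from rfl, kin, xs_pt,
    ← neg_sub (a / rp M a * _)]
  exact kp_self hp.1.1 (div_pos ((rm_nn h).trans_lt hp.1.2) (rd_pos hp.1.1))

section
variable {Q : Type} [NormedAddCommGroup Q] [NormedSpace ℝ Q] {q : Q} {f : Q → R4}

theorem s_kp {U V c : Q → ℝ} (hU : ContDiffAt ℝ ∞ U q) (hV : ContDiffAt ℝ ∞ V q)
    (hc : ContDiffAt ℝ ∞ c q) {z : Q → X} (hz : ContDiffAt ℝ ∞ z q) (z0 : z q ≠ 0) :
    ContDiffAt ℝ ∞ (fun q => kp M a (U q) (V q) (c q) (z q)) q := by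
  have k := ((ky_cd h).contDiffAt.comp q ((hV.sub hU).div_const 2)).div (c_n hz z0)
    (norm_ne_zero_iff.2 z0)
  exact ((hU.add hV).div_const 2).prodMk ((k.mul ((hc.cos.mul (c_co hz 0)).sub
    (hc.sin.mul (c_co hz 1)))).prodMk ((k.mul ((hc.sin.mul (c_co hz 0)).add
      (hc.cos.mul (c_co hz 1)))).prodMk (k.mul (c_co hz 2))))

omit h
theorem s_mf {r : Q → ℝ} (hr : ContDiffAt ℝ ∞ r q) (h0 : rm M a < r q) :
    ContDiffAt ℝ ∞ (fun q => mf M a (r q)) q :=
  (hr.sub contDiffAt_const).rpow_const_of_ne (sub_pos.2 h0).ne'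

variable (hf : ContDiffAt ℝ ∞ f q) (h0 : xs (f q) ≠ 0)
include hf h0
theorem s_kx : ContDiffAt ℝ ∞ (fun q => kx M a (f q)) q :=
  have k := (s_rd hf h0).sqrt (rd_pos h0).ne'
  k.sub (contDiffAt_const.div (contDiffAt_const.mul k)
    (mul_ne_zero two_ne_zero (Real.sqrt_pos.2 (rd_pos h0)).ne'))
theorem s_kY : ContDiffAt ℝ ∞ (fun q => kY M a (f q)) q :=
  have k := (s_rd hf h0).sqrt (rd_pos h0).ne'
  k.add (contDiffAt_const.div (contDiffAt_const.mul k)
    (mul_ne_zero two_ne_zero (Real.sqrt_pos.2 (rd_pos h0)).ne'))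
theorem s_kU : ContDiffAt ℝ ∞ (fun q => kU M a (f q)) q := hf.fst.sub (s_kx hf h0)
theorem s_kV : ContDiffAt ℝ ∞ (fun q => kV M a (f q)) q := hf.fst.add (s_kx hf h0)
theorem s_kr : ContDiffAt ℝ ∞ (fun q => kr M a (f q)) q :=
  (contDiffAt_const.add ((s_kx hf h0).pow 2)).sub (hf.fst.pow 2)
end

theorem s_pV (hp : p ∈ DI M a) : ContDiffAt ℝ ∞ (pV M a) p :=
  (s_mf (s_rd contDiffAt_id (DI_ne h hp)) hp).mul (contDiffAt_const.mul contDiffAt_fst).exp
theorem s_pU (hp : p ∈ DI M a) : ContDiffAt ℝ ∞ (pU M a) p :=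
  ((s_rd contDiffAt_id (DI_ne h hp)).sub contDiffAt_const).neg.div (s_pV h hp) (pV_pos hp).ne'
theorem s_pc (hp : p ∈ DI M a) : ContDiffAt ℝ ∞ (pc M a) p :=
  (contDiffAt_const.mul (((s_rd contDiffAt_id (DI_ne h hp)).sub contDiffAt_const).log
    (sub_pos.2 hp).ne')).sub (contDiffAt_const.mul contDiffAt_fst)
theorem s_kap (hp : p ∈ DI M a) : ContDiffAt ℝ ∞ (kap M a) p :=
  s_kp h (s_pU h hp) (s_pV h hp) (s_pc h hp) xs_cd.contDiffAt (DI_ne h hp)
omit h in
theorem s_kt (hp : p ∈ DE M a true) : ContDiffAt ℝ ∞ (kt M a) p :=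
  (((s_kV contDiffAt_id hp.1.1).div (s_mf (s_kr contDiffAt_id hp.1.1) hp.1.2)
    (mf_pos hp.1.2).ne').log (div_pos hp.2 (mf_pos hp.1.2)).ne').div_const _
omit h in
theorem s_kin (hp : p ∈ DE M a true) : ContDiffAt ℝ ∞ (kin M a) p :=
  pol_cd (τ := kt M a) (l := fun p => kr M a p / rd p)
    (c := fun p => Oh M a * kt M a p - a / rp M a * Real.log (kr M a p - rm M a)) (s_kt hp)
    ((s_kr contDiffAt_id hp.1.1).div (s_rd contDiffAt_id hp.1.1) (rd_pos hp.1.1).ne')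
    ((contDiffAt_const.mul (s_kt hp)).sub (contDiffAt_const.mul
      (((s_kr contDiffAt_id hp.1.1).sub contDiffAt_const).log (sub_pos.2 hp.1.2).ne')))

omit h in
theorem ik_eq (p : R4) : ik M a p = kin M a p := by
  rw [kin, ← neg_sub]
  simp only [ik, pt, rz, Real.cos_neg, Real.sin_neg, kt, kV, Oh, xs]
  simp

/-! ### The reflection -/

omit h in
theorem mir_c (p : R4) : mir M a p = (p.1, (M ^ 2 - a ^ 2) / (4 * rd p ^ 2) * p.2.1,
    (M ^ 2 - a ^ 2) / (4 * rd p ^ 2) * -p.2.2.1, (M ^ 2 - a ^ 2) / (4 * rd p ^ 2) * p.2.2.2) := rfl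
theorem mir_rd (hp : xs p ≠ 0) : rd (mir M a p) = (M ^ 2 - a ^ 2) / (4 * rd p) := by
  have r0 := rd_pos hp
  refine rd_eq (by have := dis_pos h; positivity) ?_
  simp only [mir_c]
  field_simp
  linear_combination (-(M ^ 2 - a ^ 2) ^ 2) * rd_sq p
theorem mir_ne (hp : xs p ≠ 0) : xs (mir M a p) ≠ 0 :=
  xs_ne (by rw [mir_rd h hp]; have := dis_pos h; have := rd_pos hp; positivity)
theorem mir_mir (hp : xs p ≠ 0) : mir M a (mir M a p) = p := by
  have r0 := rd_pos hp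
  have := (dis_pos h).ne'
  rw [mir_c, mir_rd h hp]
  simp only [mir_c]
  refine Prod.ext rfl (Prod.ext ?_ (Prod.ext ?_ ?_)) <;> simp only <;> field_simp
theorem mir_rt (hp : xs p ≠ 0) : √(rd (mir M a p)) = √(M ^ 2 - a ^ 2) / (2 * √(rd p)) := by
  rw [mir_rd h hp, Real.sqrt_div (dis_pos h).le, Real.sqrt_mul (by norm_num),
    show √4 = 2 from (Real.sqrt_eq_iff_mul_self_eq_of_pos two_pos).2 (by norm_num)]
theorem mir_kx (hp : xs p ≠ 0) : kx M a (mir M a p) = -kx M a p := by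
  have := Real.sqrt_pos.2 (rd_pos hp)
  have := b_pos h
  rw [kx, kx, mir_rt h hp]; field_simp; ring
theorem mir_kY (hp : xs p ≠ 0) : kY M a (mir M a p) = kY M a p := by
  have := Real.sqrt_pos.2 (rd_pos hp)
  have := b_pos h
  rw [kY, kY, mir_rt h hp]; field_simp; ring
theorem mir_U (hp : xs p ≠ 0) : kU M a (mir M a p) = kV M a p := by
  rw [kU, mir_kx h hp, sub_neg_eq_add]; rfl
theorem mir_V (hp : xs p ≠ 0) : kV M a (mir M a p) = kU M a p := by
  rw [kV, mir_kx h hp, ← sub_eq_add_neg]; rfl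
theorem mir_r (hp : xs p ≠ 0) : kr M a (mir M a p) = kr M a p := by
  rw [kr_eq, kr_eq, mir_U h hp, mir_V h hp, mul_comm]
omit h in
theorem s_mir (hp : xs p ≠ 0) : ContDiffAt ℝ ∞ (mir M a) p :=
  contDiffAt_fst.prodMk ((contDiffAt_const.div (contDiffAt_const.mul
    ((s_rd contDiffAt_id hp).pow 2)) (by have := rd_pos hp; positivity)).smul (by fun_prop))

theorem box_cpt (c : ℝ) : IsCompact {p | xs p ≠ 0 ∧ |p.1| ≤ c ∧ |kx M a p| ≤ c} := by
  have k := (isCompact_Icc (a := -c) (b := c)).prod ((isCompact_Icc (a := -c) (b := c)).prod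
    (isCompact_sphere (0 : X) 1))
  have e : {p | xs p ≠ 0 ∧ |p.1| ≤ c ∧ |kx M a p| ≤ c} =
      (fun q : ℝ × ℝ × X => kp M a (q.1 - q.2.1) (q.1 + q.2.1) 0 q.2.2) ''
        Icc (-c) c ×ˢ Icc (-c) c ×ˢ Metric.sphere (0 : X) 1 := by
    ext p
    constructor
    · rintro ⟨h1, h2, h3⟩
      have r0 := rd_pos h1
      refine ⟨(p.1, kx M a p, (rd p)⁻¹ • rz (-0) (xs p)), ⟨abs_le.1 h2, abs_le.1 h3, ?_⟩,
        kp_self h1 (inv_pos.2 r0)⟩
      rw [mem_sphere_zero_iff_norm, norm_smul, rz_norm, Real.norm_of_nonneg (inv_pos.2 r0).le]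
      exact inv_mul_cancel₀ r0.ne'
    · rintro ⟨q, ⟨h1, h2, h3⟩, rfl⟩
      have z0 := Metric.ne_of_mem_sphere h3 one_ne_zero
      refine ⟨kp_ne h z0, ?_, ?_⟩
      · rw [show (kp M a (q.1 - q.2.1) (q.1 + q.2.1) 0 q.2.2).1 = q.1 by simp [kp, pt]]
        exact abs_le.2 h1
      · rw [kx_of h (kp_rd h z0), show (q.1 + q.2.1 - (q.1 - q.2.1)) / 2 = q.2.1 by ring]
        exact abs_le.2 h2
  rw [e]
  exact k.image_of_continuousOn fun q hq => (s_kp (q := q) h
    (contDiffAt_fst.sub contDiffAt_snd.fst) (contDiffAt_fst.add contDiffAt_snd.fst) contDiffAt_const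
    contDiffAt_snd.snd (Metric.ne_of_mem_sphere hq.2.2 one_ne_zero)).continuousAt.continuousWithinAt

/-! ### The cylinder -/

/-- The relative angular velocity, and the inverse of cyl. -/
def wc (M a : ℝ) : ℝ := a / (rm M a ^ 2 + a ^ 2) - a / (2 * M * rp M a)
def lc (M a r0 : ℝ) (p : R4) : ℝ := Real.log (kV M a p / √(rp M a - r0)) / ka M a
def icyl (M a r0 : ℝ) (p : R4) : X :=
  (Real.exp (lc M a r0 p) / rd p) • rz (-(wc M a * lc M a r0 p)) (xs p)

omit h in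
theorem cyl_eq (r0 : ℝ) (y : X) : cyl M a r0 y =
    kp M a (√(rp M a - r0) * Real.exp (-(ka M a * Real.log ‖y‖)))
      (√(rp M a - r0) * Real.exp (ka M a * Real.log ‖y‖)) (wc M a * Real.log ‖y‖) y := rfl

theorem s_cyl {Q : Type} [NormedAddCommGroup Q] [NormedSpace ℝ Q] {q : Q} {r : Q → ℝ} {z : Q → X}
    (hr : ContDiffAt ℝ ∞ r q) (h1 : r q < rp M a) (hz : ContDiffAt ℝ ∞ z q) (z0 : z q ≠ 0) :
    ContDiffAt ℝ ∞ (fun q => cyl M a (r q) (z q)) q :=
  have k := (contDiffAt_const.sub hr).sqrt (sub_pos.2 h1).ne'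
  have l := (c_n hz z0).log (norm_ne_zero_iff.2 z0)
  s_kp h (k.mul (contDiffAt_const.mul l).neg.exp) (k.mul (contDiffAt_const.mul l).exp)
    (contDiffAt_const.mul l) hz z0

variable {r0 : ℝ} {y : X} (hr : r0 < rp M a)
include hr

theorem cyl_r (hy : y ≠ 0) : kr M a (cyl M a r0 y) = r0 := by
  rw [cyl_eq, kp_r h hy, mul_mul_mul_comm, Real.mul_self_sqrt (sub_pos.2 hr).le, ← Real.exp_add]
  simp
theorem cyl_V (hy : y ≠ 0) : 0 < kV M a (cyl M a r0 y) := by
  rw [cyl_eq, kp_V h hy]; have := Real.sqrt_pos.2 (sub_pos.2 hr); positivity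
theorem cyl_U (hy : y ≠ 0) : 0 < kU M a (cyl M a r0 y) := by
  rw [cyl_eq, kp_U h hy]; have := Real.sqrt_pos.2 (sub_pos.2 hr); positivity
theorem icyl_cyl (hy : y ≠ 0) : icyl M a r0 (cyl M a r0 y) = y := by
  have y0 := norm_pos_iff.2 hy
  have e : lc M a r0 (cyl M a r0 y) = Real.log ‖y‖ := by
    rw [lc, cyl_eq, kp_V h hy, mul_div_cancel_left₀ _ (Real.sqrt_pos.2 (sub_pos.2 hr)).ne',
      Real.log_exp, mul_div_cancel_left₀ _ (ka_pos h).ne']
  rw [icyl, e, cyl_eq, kp_back h hy, Real.exp_log y0, div_self y0.ne', one_smul]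

theorem cyl_emb : IsEmbedding fun y : ({0}ᶜ : Set X) => cyl M a r0 y := by
  let S : Set R4 := {p | xs p ≠ 0 ∧ 0 < kV M a p}
  have c1 : Continuous fun y : ({0}ᶜ : Set X) => cyl M a r0 y :=
    continuous_iff_continuousAt.2 fun y => ContinuousAt.comp (f := Subtype.val)
      (s_cyl h contDiffAt_const hr contDiffAt_id y.2).continuousAt continuousAt_subtype_val
  have c2 : ContinuousOn (icyl M a r0) S := fun p hp => by
    have l : ContDiffAt ℝ ∞ (lc M a r0) p := (((s_kV contDiffAt_id hp.1).div_const _).log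
      (div_pos hp.2 (Real.sqrt_pos.2 (sub_pos.2 hr))).ne').div_const _
    have := s_xs (pol_cd (τ := fun _ => 0) contDiffAt_const (l.exp.div (s_rd contDiffAt_id hp.1)
      (rd_pos hp.1).ne') ((contDiffAt_const (c := wc M a)).mul l).neg)
    simp only [pol, xs_pt] at this
    exact this.continuousAt.continuousWithinAt
  have m : ∀ y : ({0}ᶜ : Set X), cyl M a r0 y ∈ S := fun y => ⟨kp_ne h y.2, cyl_V h hr y.2⟩
  have k : IsEmbedding (S.codRestrict _ m) := IsEmbedding.of_comp (c1.subtype_mk m) c2.domRestrict (by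
    rw [show S.domRestrict (icyl M a r0) ∘ S.codRestrict _ m = Subtype.val from
      funext fun y => icyl_cyl h hr y.2]
    exact IsEmbedding.subtypeVal)
  exact IsEmbedding.subtypeVal.comp k

theorem cyl_iff (p : R4) : (xs p ≠ 0 ∧ 0 < p.1 ∧ kr M a p = r0) ↔ ∃ y ≠ 0, p = cyl M a r0 y := by
  have s0 := Real.sqrt_pos.2 (sub_pos.2 hr)
  have s1 := Real.mul_self_sqrt (sub_pos.2 hr).le
  constructor
  · rintro ⟨h1, h2, h3⟩
    have r1 := rd_pos h1
    have e : kU M a p * kV M a p = rp M a - r0 := by rw [← h3, kr_eq]; ring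
    have V0 : 0 < kV M a p := by
      by_contra k
      have : 0 < kU M a p := by simp only [kU, kV] at k ⊢; linarith
      nlinarith
    have l0 := div_pos (Real.exp_pos (lc M a r0 p)) r1
    have n : ‖icyl M a r0 p‖ = Real.exp (lc M a r0 p) := by
      rw [icyl, norm_smul, rz_norm, Real.norm_of_nonneg l0.le, ← rd, div_mul_cancel₀ _ r1.ne']
    have e1 : Real.exp (ka M a * lc M a r0 p) = kV M a p / √(rp M a - r0) := by
      rw [lc, mul_div_cancel₀ _ (ka_pos h).ne', Real.exp_log (div_pos V0 s0)]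
    refine ⟨icyl M a r0 p, norm_pos_iff.1 (n ▸ Real.exp_pos _), ?_⟩
    rw [cyl_eq, n, Real.log_exp, Real.exp_neg, e1, mul_div_cancel₀ _ s0.ne',
      show √(rp M a - r0) * (kV M a p / √(rp M a - r0))⁻¹ = kU M a p by
        field_simp; linarith]
    exact (kp_self h1 l0).symm
  · rintro ⟨y, hy, rfl⟩
    refine ⟨kp_ne h hy, ?_, cyl_r h hr hy⟩
    have := cyl_U h hr hy
    have := cyl_V h hr hy
    simp only [kU, kV] at *
    linarith
end

/-- **KAP.** -/
theorem kap_ok : KAP := fun _ _ _ h =>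
  ⟨fun _ hp => ⟨s_kap h hp, (ik_eq _).trans (kin_kap h hp), (kap_mem h hp).1.1, kap_r h hp,
      kap_V h hp⟩,
    fun p h1 h2 h3 => by
      rw [funext ik_eq]
      exact ⟨s_kin ⟨⟨h1, h2⟩, h3⟩, kap_kin h ⟨⟨h1, h2⟩, h3⟩, kin_rd h ⟨h1, h2⟩⟩,
    fun _ hp => ⟨s_mir hp, mir_mir h hp, mir_ne h hp, mir_kx h hp, s_kx contDiffAt_id hp⟩,
    box_cpt h, fun _ hr => ⟨fun _ hy =>
      (s_cyl h contDiffAt_const hr.2 contDiffAt_id hy).contDiffWithinAt, cyl_emb h hr.2,
      cyl_iff h hr.2⟩⟩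

end Vale.Agent.P354YR
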