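import Vale.Agent.P354YR.Ind

/-!
Time functions for gK.
-/

open scoped ContDiff
open Set Filter Topology

noncomputable section

namespace Vale.Agent.P354YR

open Vale.Agent.P354n (R4 mink IsConn)
open Vale.Agent.P354I (X Dat ee pd dT dP rnd Sg rm rp)
open Vale.Agent.P354R (Pull Del Sig Met Vac)
open Vale.Agent.P354XS (zc ds dZ)
open Vale.Agent.P354XE
open Vale.Agent.P354XK hiding Om kf
open Vale.Agent.P354RC (at_df)

variable {M a : ℝ} {p v w : R4}

/-- A causal vector orthogonal to a timelike vector is zero. -/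
theorem zero_of {B : R4 → R4 → ℝ} {T : R4}
    (s : ∃ L : R4 → R4, IsLinearMap ℝ L ∧ L.Injective ∧ ∀ v w, B v w = mink (L v) (L w))
    (hT : B T T < 0) (h1 : B w w ≤ 0) (h2 : B w T = 0) : w = 0 := by
  obtain ⟨L, l, i, e⟩ := s
  simp only [e, mink, P354n.cu, P354n.cv, P354n.c1, P354n.c2] at hT h1 h2
  refine i (l.map_zero.symm ▸ ?_)
  generalize L w = x at *
  generalize L T = z at *
  obtain ⟨a, b, c, d⟩ := x
  obtain ⟨A, B, C, D⟩ := z
  simp only at hT h1 h2
  have k : (b ^ 2 + c ^ 2 + d ^ 2) * (A ^ 2 - (B ^ 2 + C ^ 2 + D ^ 2)) ≤ 0 := by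
    have e1 : a * A = b * B + c * C + d * D := by linarith
    have e2 : (a * A) ^ 2 ≤ (b ^ 2 + c ^ 2 + d ^ 2) * (B ^ 2 + C ^ 2 + D ^ 2) := by
      rw [e1]
      nlinarith [sq_nonneg (b * C - c * B), sq_nonneg (b * D - d * B), sq_nonneg (c * D - d * C)]
    nlinarith [mul_le_mul_of_nonneg_right (show b ^ 2 + c ^ 2 + d ^ 2 ≤ a ^ 2 by linarith) (sq_nonneg A)]
  have k2 := nonpos_of_mul_nonpos_left k (by linarith)
  have b0 : b = 0 := by nlinarith [sq_nonneg b, sq_nonneg c, sq_nonneg d]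
  have c0 : c = 0 := by nlinarith [sq_nonneg b, sq_nonneg c, sq_nonneg d]
  have d0 : d = 0 := by nlinarith [sq_nonneg b, sq_nonneg c, sq_nonneg d]
  have A0 : A ≠ 0 := fun z => by rw [z] at hT; nlinarith [sq_nonneg B, sq_nonneg C, sq_nonneg D]
  have a0 : a = 0 := (mul_eq_zero.1 (show a * A = 0 by rw [b0, c0, d0] at h2; linarith)).resolve_right A0
  rw [a0, b0, c0, d0]; rfl

/-- A function which increases along all future causal vectors is a time function. -/
theorem tm_of_pos {g : Tw} {D : Set R4} {Xf : R4 → R4} {f : R4 → ℝ} (h : Lor g D Xf) (hp : p ∈ D)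
    (c : ContDiffAt ℝ 1 f p)
    (k : ∀ w ≠ 0, g p w w ≤ 0 → g p w (Xf p) ≤ 0 → 0 < fderiv ℝ f p w) : Tm g Xf f p := by
  have t := h.tl p hp
  have l := h.met.lin p hp
  have s := h.met.symm p hp
  refine ⟨c, k _ (fun e => t.ne (by rw [e, (l _).map_zero])) t.le t.le, fun v v0 e => ?_⟩
  by_contra n
  rcases le_total (g p v (Xf p)) 0 with q | q
  · exact (k v v0 (not_lt.1 n) q).ne' e
  · have := k (-v) (neg_ne_zero.2 v0) (by rw [(l _).map_neg, s, (l _).map_neg]; linarith)
      (by rw [s, (l _).map_neg, s]; linarith)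
    rw [map_neg, e] at this
    simp at this

/-- The angular part of nf. -/
def ang (S : ℝ) (p : R4) (G : R4 → ℝ) (v : R4) : ℝ :=
  S * rnd (xs p) (xs v) (xs v) + 2 * (G v * dq p v) + (1 - zc (xs p) ^ 2) * G v ^ 2 / S

theorem nf_sq (S : ℝ) (l n G : R4 → ℝ) : nf S p l n G v v = -(l v * n v) + ang S p G v := by
  rw [nf, ang]; ring

theorem ang_nn {S : ℝ} {G : R4 → ℝ} (hp : xs p ≠ 0) (hS : 0 < S) : 0 ≤ ang S p G v := by
  have := nL_mink (l := fun _ => 0) (n := fun _ => 0) (G := G) hp hS v v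
  rw [nf_sq, mink, show P354n.cu (nL S p (fun _ => 0) (fun _ => 0) G v) = 0 by
    simp [P354n.cu, nL]] at this
  nlinarith [mul_self_nonneg (P354n.cv (nL S p (fun _ => 0) (fun _ => 0) G v)),
    mul_self_nonneg (P354n.c1 (nL S p (fun _ => 0) (fun _ => 0) G v)),
    mul_self_nonneg (P354n.c2 (nL S p (fun _ => 0) (fun _ => 0) G v))]

theorem ang_eq {S : ℝ} {G : R4 → ℝ} (hp : xs p ≠ 0) (hS : S ≠ 0) :
    (1 - zc (xs p) ^ 2) * (S * ang S p G v) =
      (S * dZ (xs p) (xs v)) ^ 2 + (S * dq p v + (1 - zc (xs p) ^ 2) * G v) ^ 2 := by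
  rw [ang]
  field_simp
  linear_combination S ^ 2 * rnd_dZ hp v v

theorem ang_ge {S : ℝ} {G : R4 → ℝ} (hp : xs p ≠ 0) (hS : 0 < S) :
    (S * dq p v + (1 - zc (xs p) ^ 2) * G v) ^ 2 ≤ S * ang S p G v := by
  have := ang_eq (G := G) (v := v) hp hS.ne'
  have := mul_nonneg hS.le (ang_nn (G := G) (v := v) hp hS)
  nlinarith [sq_nonneg (S * dZ (xs p) (xs v)), sq_nonneg (zc (xs p))]

/-- The component along the rotation, and the functions V / mf, U / mf and their sum. -/
def kE (M a : ℝ) (p v : R4) : ℝ := cS M a p * dq p v + (1 - zc (xs p) ^ 2) * kG M a p v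
def eV (M a : ℝ) (p : R4) : ℝ := kV M a p / mf M a (kr M a p)
def eU (M a : ℝ) (p : R4) : ℝ := kU M a p / mf M a (kr M a p)
def tau0 (M a : ℝ) (p : R4) : ℝ := 2 * p.1 / mf M a (kr M a p)

theorem tau0_eq : tau0 M a = fun p => eV M a p + eU M a p := funext fun p => by
  simp only [tau0, eV, eU, kU, kV]; ring

theorem s_eV (hp : p ∈ DK M a) : ContDiffAt ℝ ∞ (eV M a) p :=
  (s_kV contDiffAt_id hp.1).div (s_mf (s_kr contDiffAt_id hp.1) hp.2) (mf_pos hp.2).ne'
theorem s_eU (hp : p ∈ DK M a) : ContDiffAt ℝ ∞ (eU M a) p :=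
  (s_kU contDiffAt_id hp.1).div (s_mf (s_kr contDiffAt_id hp.1) hp.2) (mf_pos hp.2).ne'

theorem fd_mf {f : R4 → ℝ} (hp : p ∈ DK M a) (hf : ContDiffAt ℝ ∞ f p) (v : R4) :
    fderiv ℝ (fun p => f p / mf M a (kr M a p)) p v = (fderiv ℝ f p v - f p *
      (rm M a / (2 * rp M a) / (kr M a p - rm M a) * fderiv ℝ (kr M a) p v)) / mf M a (kr M a p) := by
  have R0 : kr M a p - rm M a ≠ 0 := (sub_pos.2 hp.2).ne'
  have m0 := (mf_pos hp.2).ne'
  have d := ((at_df (s_kr (M := M) (a := a) contDiffAt_id hp.1)).hasFDerivAt.sub_const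
    (rm M a)).rpow_const (p := rm M a / (2 * rp M a)) (Or.inl R0)
  rw [show fderiv ℝ (fun p => f p / mf M a (kr M a p)) p = _ from ((at_df hf).hasFDerivAt.mul
    ((hasDerivAt_inv m0).comp_hasFDerivAt p d)).fderiv]
  rw [mf] at m0
  simp [mf, Real.rpow_sub_one R0]
  field_simp
  ring

section
variable (h : |a| < M) (hp : p ∈ DK M a)
include h hp

omit h hp in
theorem gK_sq (v : R4) : gK M a p v v = -(kl M a p v * kn M a p v) /
    ((kr M a p - rm M a) * cS M a p) + ang (cS M a p) p (kG M a p) v := by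
  rw [gK, nf_sq]; ring

/-- The frame components of future causal vectors. -/
theorem fut (h1 : gK M a p w w ≤ 0) (h2 : gK M a p w (XK M a p) ≤ 0) :
    0 ≤ kl M a p w ∧ 0 ≤ kn M a p w ∧
      (kr M a p - rm M a) * kE M a p w ^ 2 ≤ kl M a p w * kn M a p w ∧
      (w ≠ 0 → 0 < kl M a p w + kn M a p w) := by
  have S0 := cS_pos h hp
  have R0 := sub_pos.2 hp.2
  have k := (gK_met h).symm p hp w (XK M a p)
  rw [gK_XK h hp] at k
  have e1 : 0 ≤ kl M a p w + kn M a p w := by
    rw [k, neg_nonpos] at h2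
    exact nonneg_of_mul_nonneg_left h2 (inv_pos.2 R0)
  have e2 : (kr M a p - rm M a) * kE M a p w ^ 2 ≤ kl M a p w * kn M a p w := by
    rw [gK_sq, neg_div, neg_add_le_iff_le_add, add_zero, le_div_iff₀ (by positivity)] at h1
    have := mul_le_mul_of_nonneg_left (ang_ge (G := kG M a p) (v := w) hp.1 S0) R0.le
    rw [kE]; linarith
  have e3 : 0 ≤ kl M a p w * kn M a p w := le_trans (by positivity) e2
  refine ⟨by nlinarith, by nlinarith, e2, fun w0 => e1.lt_of_ne fun e => w0 ?_⟩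
  exact zero_of (gK_sig h hp) ((gK_lor h).tl p hp) h1 (by rw [k, ← e]; simp)

theorem fd_kr' (v : R4) : fderiv ℝ (kr M a) p v =
    -(kU M a p * kn M a p v + kV M a p * kl M a p v) / (2 * cS M a p) := by
  have S0 := (cS_pos h hp).ne'
  have e := PE h p
  have r := kr_eq (M := M) (a := a) p
  rw [fd_kr hp.1, kl, kn]
  field_simp
  grind

theorem fd_VU (v : R4) :
    dV M a p v - kV M a p * (rm M a / (2 * rp M a) / (kr M a p - rm M a) * fderiv ℝ (kr M a) p v) =
      ka M a / cS M a p * ((kr M a p ^ 2 + 2 * M * kr M a p + a ^ 2) / (2 * (kr M a p - rm M a)) *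
        kn M a p v + kV M a p ^ 2 * kl M a p v / 2 + a * kV M a p * kE M a p v) ∧
    dU M a p v - kU M a p * (rm M a / (2 * rp M a) / (kr M a p - rm M a) * fderiv ℝ (kr M a) p v) =
      ka M a / cS M a p * ((kr M a p ^ 2 + 2 * M * kr M a p + a ^ 2) / (2 * (kr M a p - rm M a)) *
        kl M a p v + kU M a p ^ 2 * kn M a p v / 2 - a * kU M a p * kE M a p v) := by
  have S0 := (cS_pos h hp).ne'
  have R0 : kr M a p - rm M a ≠ 0 := (sub_pos.2 hp.2).ne'
  have p0 := (rp_pos h).ne'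
  have k0 := (ka_pos h).ne'
  have r := kr_eq (M := M) (a := a) p
  have c1 := kN h
  have c2 := ON h
  have c3 := rp_rm h
  have c4 : 2 * M = rp M a + rm M a := by simp only [rp, rm]; ring
  rw [div_eq_iff (mul_ne_zero two_ne_zero k0)] at c1
  have c5 : cS M a p = kr M a p ^ 2 + a ^ 2 * zc (xs p) ^ 2 := Sg_eq _
  simp only [fd_kr hp.1, kl, kn, kE, kG, dQ_eq, cP, cE, cw, c4]
  generalize kr M a p = ρ at *
  generalize rp M a = P at *
  generalize rm M a = m at *
  generalize ka M a = k at *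
  generalize Oh M a = O at *
  generalize cS M a p = S at *
  generalize zc (xs p) = z at *
  have N0 : P ^ 2 + a ^ 2 ≠ 0 := by positivity
  have d1 : O = a / (P ^ 2 + a ^ 2) := eq_div_of_mul_eq N0 c2
  have d2 : k = (P - m) / (2 * (P ^ 2 + a ^ 2)) := by field_simp; linarith
  have d3 : m = a ^ 2 / P := by field_simp; linarith
  constructor <;> field_simp <;> rw [c5, r, d1, d2, d3] <;> field_simp <;> ring

/-- The lower bounds for the derivatives of V / mf and U / mf. -/
theorem eV_ge (h1 : gK M a p w w ≤ 0) (h2 : gK M a p w (XK M a p) ≤ 0) :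
    ka M a * M * kr M a p / (cS M a p * (kr M a p - rm M a)) * kn M a p w ≤
      mf M a (kr M a p) * fderiv ℝ (eV M a) p w ∧
    ka M a * M * kr M a p / (cS M a p * (kr M a p - rm M a)) * kl M a p w ≤
      mf M a (kr M a p) * fderiv ℝ (eU M a) p w := by
  obtain ⟨l0, n0, e, -⟩ := fut h hp h1 h2
  have S0 := cS_pos h hp
  have R0 := sub_pos.2 hp.2
  have k0 := ka_pos h
  have m0 := (mf_pos hp.2).ne'
  have q : ∀ {A B V E : ℝ}, 0 ≤ A → 0 ≤ B → (kr M a p - rm M a) * E ^ 2 ≤ A * B →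
      ka M a * M * kr M a p / (cS M a p * (kr M a p - rm M a)) * A ≤ ka M a / cS M a p *
        ((kr M a p ^ 2 + 2 * M * kr M a p + a ^ 2) / (2 * (kr M a p - rm M a)) * A + V ^ 2 * B / 2 +
          a * V * E) := fun {A B V E} A0 B0 e => by
    have k : |2 * (a * V * E) * (kr M a p - rm M a)| ≤ a ^ 2 * A + V ^ 2 * B * (kr M a p - rm M a) :=
      abs_le_of_sq_le_sq (by
        nlinarith [sq_nonneg (a ^ 2 * A - V ^ 2 * B * (kr M a p - rm M a)),
          mul_le_mul_of_nonneg_left e (show 0 ≤ 4 * (a * V) ^ 2 * (kr M a p - rm M a) by positivity)])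
        (by positivity)
    rw [← sub_nonneg, show _ - _ = ka M a / (2 * cS M a p * (kr M a p - rm M a)) *
      (kr M a p ^ 2 * A + (a ^ 2 * A + V ^ 2 * B * (kr M a p - rm M a) +
        2 * (a * V * E) * (kr M a p - rm M a))) by field_simp; ring]
    have := (abs_le.1 k).1
    exact mul_nonneg (by positivity) (add_nonneg (by positivity) (by linarith))
  constructor
  · rw [show eV M a = fun p => kV M a p / mf M a (kr M a p) from rfl,
      fd_mf (f := kV M a) hp (s_kV contDiffAt_id hp.1), mul_div_cancel₀ _ m0, fd_kV hp.1, (fd_VU h hp w).1]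
    exact q n0 l0 (mul_comm (kl M a p w) _ ▸ e)
  · rw [show eU M a = fun p => kU M a p / mf M a (kr M a p) from rfl,
      fd_mf (f := kU M a) hp (s_kU contDiffAt_id hp.1), mul_div_cancel₀ _ m0, fd_kU hp.1, (fd_VU h hp w).2,
      sub_eq_add_neg _ (a * _ * _), ← mul_neg]
    exact q l0 n0 (by rwa [neg_sq])

theorem cf_pos : 0 < ka M a * M * kr M a p / (cS M a p * (kr M a p - rm M a)) := by
  have := cS_pos h hp
  have := sub_pos.2 hp.2
  have := ka_pos h
  have := M_pos h
  have := (rm_nn h).trans_lt hp.2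
  positivity

theorem eV_nn (h1 : gK M a p w w ≤ 0) (h2 : gK M a p w (XK M a p) ≤ 0) :
    0 ≤ fderiv ℝ (eV M a) p w ∧ 0 ≤ fderiv ℝ (eU M a) p w := by
  obtain ⟨l0, n0, -⟩ := fut h hp h1 h2
  obtain ⟨e1, e2⟩ := eV_ge h hp h1 h2
  exact ⟨nonneg_of_mul_nonneg_right ((mul_nonneg (cf_pos h hp).le n0).trans e1) (mf_pos hp.2),
    nonneg_of_mul_nonneg_right ((mul_nonneg (cf_pos h hp).le l0).trans e2) (mf_pos hp.2)⟩

theorem tau0_ge (h1 : gK M a p w w ≤ 0) (h2 : gK M a p w (XK M a p) ≤ 0) :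
    ka M a * M * kr M a p / (cS M a p * (kr M a p - rm M a)) * (kl M a p w + kn M a p w) ≤
      mf M a (kr M a p) * fderiv ℝ (tau0 M a) p w := by
  obtain ⟨e1, e2⟩ := eV_ge h hp h1 h2
  rw [tau0_eq, fderiv_fun_add (at_df (s_eV hp)) (at_df (s_eU hp)), add_apply]
  linarith

/-- The function 2 T / mf is a time function on the whole chart. -/
theorem tm_tau0 : Tm (gK M a) (XK M a) (tau0 M a) p :=
  tm_of_pos (gK_lor h) hp (tau0_eq ▸ ((s_eV hp).add (s_eU hp)).of_le (by simp)) fun w w0 h1 h2 =>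
    pos_of_mul_pos_left (b := mf M a (kr M a p)) (mul_comm (mf M a _) _ ▸
      (mul_pos (cf_pos h hp) ((fut h hp h1 h2).2.2.2 w0)).trans_le (tau0_ge h hp h1 h2))
      (mf_pos hp.2).le

/-- Minus r is a time function in the black hole. -/
theorem tm_kr (U0 : 0 < kU M a p) (V0 : 0 < kV M a p) :
    Tm (gK M a) (XK M a) (fun p => -kr M a p) p :=
  tm_of_pos (gK_lor h) hp ((s_kr contDiffAt_id hp.1).neg.of_le (by simp)) fun w w0 h1 h2 => by
    obtain ⟨l0, n0, -, e⟩ := fut h hp h1 h2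
    have e0 := e w0
    have := cS_pos h hp
    rw [fderiv_fun_neg, neg_apply, fd_kr' h hp, neg_div, neg_neg]
    refine div_pos ?_ (by positivity)
    rcases l0.eq_or_lt with e | e
    · rw [← e] at e0 ⊢; nlinarith
    · positivity

/-- T is a time function near T = 0. -/
theorem tm_T (k : |p.1| * (|p.1| + |kx M a p|) < ka M a * M * kr M a p) :
    Tm (gK M a) (XK M a) (fun p => p.1) p :=
  tm_of_pos (gK_lor h) hp contDiffAt_fst fun w w0 h1 h2 => by
    obtain ⟨l0, n0, -, e⟩ := fut h hp h1 h2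
    have e0 := e w0
    have S0 := cS_pos h hp
    have R0 := sub_pos.2 hp.2
    have p0 := rp_pos h
    have m0 := rm_nn h
    have m1 := rm_lt h
    have t := tau0_ge h hp h1 h2
    rw [show tau0 M a = fun p => 2 * p.1 / mf M a (kr M a p) from rfl,
      fd_mf hp (contDiffAt_const.mul contDiffAt_fst), mul_div_cancel₀ _ (mf_pos hp.2).ne',
      fderiv_const_mul differentiableAt_fst, fd_kr' h hp] at t
    have U : |p.1 * kU M a p| ≤ |p.1| * (|p.1| + |kx M a p|) := by
      rw [abs_mul]; gcongr; exact abs_sub _ _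
    have V : |p.1 * kV M a p| ≤ |p.1| * (|p.1| + |kx M a p|) := by
      rw [abs_mul]; gcongr; exact abs_add_le _ _
    have c0 : 0 ≤ rm M a / (2 * rp M a) := by positivity
    have c1 : rm M a / (2 * rp M a) ≤ 1 := by rw [div_le_one (by positivity)]; linarith
    have b := mul_nonneg (abs_nonneg p.1) (add_nonneg (abs_nonneg p.1) (abs_nonneg (kx M a p)))
    generalize rm M a / (2 * rp M a) = c at *
    generalize |p.1| * (|p.1| + |kx M a p|) = B at *
    generalize kr M a p - rm M a = R at *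
    have q : c * (p.1 * kU M a p * kn M a p w + p.1 * kV M a p * kl M a p w) ≤
        B * (kl M a p w + kn M a p w) := by
      have q1 := mul_le_mul_of_nonneg_right (abs_le.1 U).2 n0
      have q2 := mul_le_mul_of_nonneg_right (abs_le.1 V).2 l0
      nlinarith [mul_nonneg b e0.le]
    have q3 : 0 < (ka M a * M * kr M a p * (kl M a p w + kn M a p w) -
        c * (p.1 * kU M a p * kn M a p w + p.1 * kV M a p * kl M a p w)) /
          (cS M a p * R) :=
      div_pos (by nlinarith [mul_lt_mul_of_pos_right k e0]) (by positivity)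
    simp only [smul_apply, smul_eq_mul] at t
    refine pos_of_mul_pos_left (b := 2) (q3.trans_le ?_) two_pos.le
    linear_combination (exp := 1) t
end

section
variable (h : |a| < M) {r1 : ℝ}
include h

omit h in
theorem D0_sub (h1 : rm M a ≤ r1) : D0 M a r1 ⊆ DK M a := fun _ hp => ⟨hp.1, h1.trans_lt hp.2.2⟩

theorem isKr (h1 : rm M a ≤ r1) : IsKr M a r1 (gK M a) :=
  ⟨⟨_, open_DK, D0_sub h1, gK_met h⟩, fun σ p hp _ => funext fun v => funext fun w =>
    ((isCh h σ).pull.eq p (h1.trans_lt hp) v w).symm⟩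

/-- T is a time function on the box, for small θ. -/
theorem tm_box (h1 : rm M a < r1) : ∃ θ0 > 0, ∀ θ ≤ θ0, ∀ p ∈ Bx M a r1 θ,
    Tm (gK M a) (XK M a) (fun p => p.1) p := by
  have m0 := rm_nn h
  have r0 := m0.trans_lt h1
  have k0 := mul_pos (ka_pos h) (M_pos h)
  have c0 : 0 < ka M a * M * r1 / (8 * (1 + r1)) := by positivity
  refine ⟨_, Real.sqrt_pos.2 c0, fun θ hθ p hp => tm_T h (D0_sub h1.le hp.1) ?_⟩
  have r2 := hp.1.2.2
  have T0 := hp.1.2.1
  rcases hp.2 with e | e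
  · rw [e, abs_zero, zero_mul]; exact mul_pos k0 (r0.trans r2)
  have R0 : 0 < kr M a p - rm M a := by linarith
  have m1 := mf_pos (h1.trans r2)
  have m2 : mf M a (kr M a p) ^ 2 ≤ 1 + kr M a p := by
    have p0 := rp_pos h
    have c1 : rm M a / (2 * rp M a) * 2 ≤ 1 := by
      rw [div_mul_eq_mul_div, div_le_one (by positivity)]; linarith [rm_lt h]
    rw [mf, ← Real.rpow_natCast, ← Real.rpow_mul R0.le, Nat.cast_ofNat]
    rcases le_total (kr M a p - rm M a) 1 with q | q
    · linarith [Real.rpow_le_one R0.le q (show 0 ≤ rm M a / (2 * rp M a) * 2 by positivity)]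
    · linarith [Real.rpow_le_self_of_one_le q c1]
  rw [abs_of_nonneg T0]
  have x0 := abs_nonneg (kx M a p)
  have b : p.1 + |kx M a p| ≤ 2 * √(ka M a * M * r1 / (8 * (1 + r1))) * mf M a (kr M a p) :=
    e.trans (by gcongr)
  calc _ ≤ (2 * √(ka M a * M * r1 / (8 * (1 + r1))) * mf M a (kr M a p)) ^ 2 := by nlinarith
    _ = ka M a * M * (r1 / (2 * (1 + r1)) * mf M a (kr M a p) ^ 2) := by
      rw [mul_pow, mul_pow, Real.sq_sqrt c0.le]; field_simp; ring
    _ < _ := mul_lt_mul_of_pos_left (by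
      rw [div_mul_eq_mul_div, div_lt_iff₀ (by positivity)]
      nlinarith [mul_le_mul_of_nonneg_left m2 r0.le]) k0
end

end Vale.Agent.P354YR
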