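import Vale.Agent.P354YR.Geo4

/-!
GEO: from the optical function to the bounds for the metric.
-/

open scoped ContDiff
open Set Filter Topology

noncomputable section

namespace Vale.Agent.P354YR.Geo

open Vale.Agent.P354n (R4)
open Vale.Agent.P354XE (Tw pb)
open Vale.Agent.P354YQ (SA JB JD)
open Vale.Agent.P354SA Vale.Agent.P354SG

variable {n k : ℕ} {K : ℝ} {F : Dt n K → R4 → ℝ} {μ ν : Dt n K → ℝ}

/-- The metric of the slab. -/
abbrev Dt.h (j : Dt n K) : Tw := pb (sm j.R j.Λ) j.g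

theorem s_O2 : Ds n (fun j : Dt n K => O2 j.h) fun _ => 1 :=
  (((s_mu.mul (pullD d_Om)).eq fun _ => one_mul _).cm tm_nn (-1)).congr fun j =>
    j.ev.mono fun _ a => ((j.pt a).O2_eq).trans (by ring)

theorem bb_ev (j : Dt n K) (a : Fin 2) : bb j.h a =ᶠ[𝓝 j.p]
    fun x => -2 * a1 j.g a (sm j.R j.Λ x) + -4 * AA j.R j.Λ j.g a x :=
  j.ev.mono fun _ h => ((j.pt h).bb_eq a).trans (by ring)

theorem gm_ev (j : Dt n K) (a b : Fin 2) : gm j.h a b =ᶠ[𝓝 j.p] fun x => gm j.g a b (sm j.R j.Λ x) :=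
  j.ev.mono fun _ h => (j.pt h).gm_eq a b

theorem ri_le (j : Dt n K) : j.r⁻¹ ≤ 1 * 1 := (inv_le_one_of_one_le₀ j.r1).trans_eq (one_mul _).symm

theorem s_gm (a b : Fin 2) :
    Ks n (fun (j : Dt n K) x => gm j.g a b (sm j.R j.Λ x)) fun j => j.r ^ 2 :=
  (pull (k := 2) (r_gm a b)).ord (by omega)

variable (hK : 0 < K)
include hK

theorem s_bb (a : Fin 2) : Ks n (fun j : Dt n K => bb j.h a) fun _ => 1 :=
  ((((pull (k := 2) (r_a1 a)).ord (by omega)).cm (-2)).add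
    (((s_AA hK a).f'.wt one ri_le).cm (-4))).congr fun j => bb_ev j a

theorem s_db (a : Fin 2) :
    Ks n (fun j : Dt n K => dv nv (bb j.h a)) fun j => j.r⁻¹ * (j.θ * j.m) := by
  have s := (pull (n := n) (K := K) (k := 2) (r_a1 a)).cm (-2)
  have h := (((d_nv (k := 2) (r_a1 a).sa (r_d1 a)).ord n.le_succ).wt (c := 1)
    (s_AA hK a).d.nn fun j => (mul_le_mul_of_nonneg_left (le_mul_of_one_le_left j.m0.le j.t1)
      (inv_pos.2 j.r0).le).trans_eq (one_mul _).symm).cm (-2)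
  refine (h.add ((s_AA hK a).cm tm_nn (-4)).d).congr fun j => (dv_congr (bb_ev j a)).trans
    ((dv_add (s.sa j) (((s_AA hK a).f.cm (-4)).sa j)).trans ?_)
  filter_upwards [((pull (n := n) (K := K) (k := 2) (r_a1 a)).sa j).ev] with q hq
  simp only [dv, fderiv_const_mul hq.diff, smul_apply, smul_eq_mul]

theorem s_chi (a b : Fin 2) : Ks n (fun j : Dt n K => lie j.h (lv j.h) a b)
    fun j => j.r ^ 2 * (j.θ * j.m) := by
  have p := fun j : Dt n K => mul_nonneg (sq_nonneg j.r) (tm_nn j)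
  have w : ∀ {F : Dt n K → R4 → ℝ}, Ks n F (fun j => j.r ^ 2 * j.m) →
      Ks n F fun j => j.r ^ 2 * (j.θ * j.m) := fun h => h.wt (c := 1) p fun j =>
    (mul_le_mul_of_nonneg_left (le_mul_of_one_le_left j.m0.le j.t1) (sq_nonneg _)).trans_eq
      (one_mul _).symm
  have h1 := w ((pull (k := 2) (r_chi a b)).ord (by omega))
  have h2 := w (((s_QQ hK).ord n.le_succ).mul1 ((pull (k := 2) (r_dg a b)).ord (by omega)))
  have h3 := fun c => w (((s_AA hK c).f'.mul ((pull (k := 1) (r_ey a b c)).ord (by omega))).wt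
    (c := 1) (r_dg a b).nn fun j => by
      rw [one_mul, mul_comm]; exact mul_le_mul_of_nonneg_left j.m2 (sq_nonneg _))
  have h4 := fun c => w (((((s_gm c b).mul (s_La a).f').add ((s_gm a c).mul (s_La b).f')).mul
    ((pull (k := 2) (r_d1 c)).ord (by omega))).eq fun j => by have := j.r0; field_simp)
  have h5 := fun c => (((s_gm c b).mul (s_dv (s_AA hK c).f (ey a))).add
    ((s_gm a c).mul (s_dv (s_AA hK c).f (ey b)))).wt (c := 1) p fun j => (mul_le_mul_of_nonneg_left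
      (mul_le_mul_of_nonneg_left j.m2 j.t0.le) (sq_nonneg _)).trans_eq (one_mul _).symm
  refine (((((h1.cm 2).add (h2.cm (-2))).add ((Kc.sum h3).cm (-4))).add
    ((Kc.sum h4).cm (-2))).add ((Kc.sum h5).cm (-4))).congr fun j => ?_
  filter_upwards [j.ev.eventually_nhds, j.evs ((r_gm a b).sa j),
    eventually_all.2 fun c => j.evs ((r_a1 c).sa j),
    eventually_all.2 fun c => ((s_AA hK c).f.sa j).ev] with q x y z u
  exact lie_eq (x.mono fun _ h => ⟨_, j.pt h⟩) (j.ek x.self_of_nhds) a b y z fun c => (u c).diff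

theorem s_cf (i a : Fin 4) :
    Ks n (fun j : Dt n K => cf j.R j.Λ j.g j.r j.r' i a) fun _ => 1 := by
  have c : ∀ c : ℝ, Ks n (fun (_ : Dt n K) _ => c) fun _ => 1 := fun c =>
    .cst (C := |c|) ne_s one fun _ => (mul_one _).ge
  have q : ∀ j : Dt n K, j.r' * j.r⁻¹ ≤ K * 1 := fun j => by
    rw [mul_one, ← div_eq_mul_inv, div_le_iff₀ j.r0]; exact j.r2
  have A := fun c => (((s_AA (n := n) hK c).f'.sm fun j => j.r0'.le).wt one q).cm (-4)
  have L := fun c => ((s_La (n := n) (K := K) c).f'.sm fun j => (inv_pos.2 j.r0).le).eq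
    fun j => inv_mul_cancel₀ j.r0.ne'
  have r : Ks n (fun (j : Dt n K) _ => j.r' / j.r) fun _ => 1 :=
    .cst (C := K) ne_s one fun j => by rw [abs_of_pos (div_pos j.r0' j.r0)]; exact q j
  fin_cases i <;> fin_cases a
  exacts [c 2, ((s_QQ hK).ord n.le_succ).cm (-2), A 0, A 1, c 0, s_mu.f', c 0, c 0, c 0, L 0, r,
    c 0, c 0, L 1, c 0, r]

theorem s_cur (i o u w : Fin 4) :
    Ks n (fun j : Dt n K => rie j.h (fv (lv j.h) nv j.r) i o u w) fun j => j.θ * j.m :=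
  ((Kc.sum fun a => (s_cf hK i a).mul1 (Kc.sum fun b => (s_cf hK o b).mul1 (Kc.sum fun c =>
    (s_cf hK u c).mul1 (Kc.sum fun d => (s_cf hK w d).mul1
      ((pull (k := 2) (r_cur a b c d)).ord (by omega)))))).wt (c := 1) tm_nn fun j =>
        (le_mul_of_one_le_left j.m0.le j.t1).trans_eq (one_mul _).symm).congr fun j =>
          j.ev.mono fun _ h => rie_eq j.P h (j.pt h) (j.ek h) j.r0'.ne' i o u w

omit hK in
theorem fin {ι : Type} [Finite ι] {F : ι → Dt n K → R4 → ℝ} (h : ∀ i, Ks n (F i) μ) :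
    ∀ᶠ C in atTop, ∀ (j : Dt n K) i, Cl n j.ϑ⁻¹ j.ϑ⁻¹ (F i j) j.p (C * μ j) := by
  have := fun i => ((h i).scale (fun j => j.t0) fun j => j.t2).bd
  choose C _ b using this
  filter_upwards [eventually_all.2 fun i => eventually_ge_atTop (C i)] with C' e j i
  exact JB.mono (b i j) (mul_le_mul_of_nonneg_right (e i) ((h i).nn j))

theorem all : ∀ᶠ C in atTop, ∀ j : Dt n K, DNp n C (2 * j.C0 + 4) j.r j.m j.ϑ j.π j.h j.p := by
  filter_upwards [eventually_ge_atTop (K ^ 2), eventually_ge_atTop (K ^ 5),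
    fin fun _ : Unit => s_O2.f', fin (s_bb hK),
    fin fun a : Fin 2 × Fin 2 => (s_gm a.1 a.2).congr fun j => gm_ev j a.1 a.2,
    fin fun _ : Unit => s_O2.d, fin (s_db hK),
    fin fun a : Fin 2 × Fin 2 => ((d_nv (k := 2) (r_gm a.1 a.2).sa (r_dg a.1 a.2)).ord
      n.le_succ).congr fun j => dv_congr (gm_ev j a.1 a.2),
    fin fun a : Fin 2 × Fin 2 => s_chi hK a.1 a.2,
    fin fun a : Fin 4 × Fin 4 × Fin 4 × Fin 4 => s_cur hK a.1 a.2.1 a.2.2.1 a.2.2.2]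
    with C k2 k5 h1 h2 h3 h4 h5 h6 h7 h8 j
  have k := j.pt j.hp
  have C0 : 0 < C := (pow_pos hK 2).trans_le k2
  have t : C * (j.θ * j.m) ≤ C * j.ϑ * j.m := by
    rw [mul_assoc]; exact mul_le_mul_of_nonneg_left (mul_le_mul_of_nonneg_right j.t2 j.m0.le) C0.le
  refine ⟨⟨k.null1.1, k.null1.2, k.null2 (j.ek j.hp) (j.hq _ j.hp).2.2.1.ne'
    (j.hq _ j.hp).2.2.2.1.ne'⟩, ⟨?_, ?_, k.gm_eq 0 0 ▸ j.rp.pos.2.2⟩,
    ⟨mul_one C ▸ h1 j (), fun a => mul_one C ▸ h2 j a, fun a b => h3 j (a, b)⟩,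
    JB.mono (h4 j ()) (by rwa [one_mul]), fun a => JB.mono (h5 j a) ?_,
    fun a b => JB.mono (h6 j (a, b)) (mul_assoc ..).ge, fun a b => JB.mono (h7 j (a, b)) ?_,
    fun a b c d => JB.mono (h8 j (a, b, c, d)) t, fun a => ?_, fun a => ?_⟩
  · rw [k.O2_eq]
    have i := inv_pos.2 hK
    refine (inv_anti₀ (pow_pos hK 2) k2).trans ?_
    rw [sq, mul_inv]
    exact mul_le_mul j.op.mu.2 j.rp.pos.1 i.le (i.le.trans j.op.mu.2)
  · rw [k.dg_eq]
    exact (mul_le_mul_of_nonneg_right (inv_anti₀ (pow_pos hK 5) k5) (pow_pos j.r0 4).le).trans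
      (dg_ge j)
  · exact le_of_eq_of_le (by ring) (div_le_div_of_nonneg_right t j.r0.le)
  · exact le_of_eq_of_le (by ring)
      ((mul_le_mul_of_nonneg_left t (sq_nonneg j.r)).trans_eq (by ring))
  · have h1 := abs_le.1 (j.rp.sharp.2.1 a).zero
    have h2 := abs_le.1 (j.op.sharp.1 a)
    simp only [lc_gy] at h2
    rw [k.bb_eq, AA, abs_le]
    constructor <;> linarith [h1.1, h1.2, h2.1, h2.2]
  · rw [k.O2_eq, k.gi_eq]
    exact le_of_eq_of_le (by rw [a2]; ring) (j.op.sharp.2 a)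

end Vale.Agent.P354YR.Geo

/-- GEO. -/
theorem Vale.Agent.P354YR.geo : Vale.Agent.P354SG.GEO := fun n K => by
  by_cases hK : 0 < K
  · obtain ⟨C, h, c⟩ := ((Geo.all (n := n) hK).and (eventually_ge_atTop 1)).exists
    exact ⟨C, c, fun C0 l l' θ ϑ r r' m m' π rc R g Λ B D p P hp hq rp K1 r1 r2 r3 m1 m2 l1 l2 t1
      t2 lt op => h ⟨C0, l, l', θ, ϑ, r, r', m, m', π, rc, R, g, Λ, B, D, p, P, hp, hq, rp, K1, r1,
        r2, r3, m1, m2, l1, l2, t1, t2, lt, op⟩⟩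
  · exact ⟨1, le_rfl, fun _ _ _ _ _ _ _ _ _ _ _ _ _ _ _ _ _ _ _ _ _ K1 =>
      absurd (zero_lt_one.trans_le K1) hK⟩
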