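import Vale.Agent.P354YR.Geo1

/-!
A calculus for families of functions in the classes Cl.
-/

open scoped ContDiff Nat
open Set Filter Topology

noncomputable section

namespace Vale.Agent.P354YR.Geo

open Vale.Agent.P354n (R4)
open Vale.Agent.P354SA
open Vale.Agent.P354YQ (SA JB JD)

section point
variable {n : ℕ} {l k c : ℝ} {z : R4} {F : R4 → ℝ}

/-- The linear part of dl. -/
def dL (l k : ℝ) : R4 →L[ℝ] R4 := 
  (l • ContinuousLinearMap.fst ℝ ℝ _).prod (k • ContinuousLinearMap.snd ℝ ℝ _)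

theorem dl_eq (l k : ℝ) (z ξ : R4) : dl l k z ξ = z + dL l k ξ := rfl
theorem dl_zero (l k : ℝ) (z : R4) : dl l k z 0 = z := by rw [dl_eq, map_zero, add_zero]
theorem dl_cd (l k : ℝ) (z : R4) : ContDiff ℝ ∞ (dl l k z) := contDiff_const.add (dL l k).contDiff
theorem dl_fd (l k : ℝ) (z ξ : R4) : HasFDerivAt (dl l k z) (dL l k) ξ :=
  (dL l k).hasFDerivAt.const_add z

theorem ev_dl {P : R4 → Prop} (h : ∀ᶠ x in 𝓝 z, P x) : ∀ᶠ ξ in 𝓝 (0 : R4), P (dl l k z ξ) :=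
  (dl_cd l k z).continuous.continuousAt.eventually (by rwa [dl_zero])

theorem dl_inv (hl : l ≠ 0) (hk : k ≠ 0) (z x : R4) : dl l k z (dL l⁻¹ k⁻¹ (x - z)) = x := by
  ext <;> simp [dl, dL, hl, smul_smul, hk]

theorem cl_sa (h : Cl n l k F z c) (hl : l ≠ 0) (hk : k ≠ 0) : SA F z := by
  have s : SA (fun x => dL l⁻¹ k⁻¹ (x - z)) z :=
    SA.of ((dL _ _).contDiff.comp (contDiff_id.sub contDiff_const))
  exact (SA.comp (u := fun ξ => F (dl l k z ξ)) (by simpa using h.sm) s).congr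
    (.of_forall fun x => by simp only [dl_inv hl hk])

theorem cl_val (h : Cl n l k F z c) : |F z| ≤ c := by simpa only [dl_zero, Real.norm_eq_abs] using h.zero
end point

variable {J : Type} {n n' : ℕ} {l k μ ν μ' ν' : J → ℝ} {z : J → R4} {F G : J → R4 → ℝ}

/-- The functions F j are in the class Cl with the size O (μ j). -/
structure Kc (n : ℕ) (l k : J → ℝ) (z : J → R4) (F : J → R4 → ℝ) (μ : J → ℝ) : Prop where
  ne : ∀ j, l j ≠ 0 ∧ k j ≠ 0
  nn : ∀ j, 0 ≤ μ j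
  bd : ∃ C, 0 ≤ C ∧ ∀ j, Cl n (l j) (k j) (F j) (z j) (C * μ j)

namespace Kc

theorem of {C : ℝ} (e : ∀ j, l j ≠ 0 ∧ k j ≠ 0) (p : ∀ j, 0 ≤ μ j)
    (h : ∀ j, Cl n (l j) (k j) (F j) (z j) (C * μ j)) : Kc n l k z F μ :=
  ⟨e, p, |C|, abs_nonneg _, fun j => JB.mono (h j)
    (mul_le_mul_of_nonneg_right (le_abs_self C) (p j))⟩

theorem sa (h : Kc n l k z F μ) (j : J) : SA (F j) (z j) :=
  let ⟨_, _, b⟩ := h.bd
  cl_sa (b j) (h.ne j).1 (h.ne j).2

theorem ord (h : Kc n l k z F μ) (e : n' ≤ n) : Kc n' l k z F μ :=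
  let ⟨C, c, b⟩ := h.bd
  ⟨h.ne, h.nn, C, c, fun j => JB.ord (b j) e⟩

theorem wt (h : Kc n l k z F μ) {c : ℝ} (p : ∀ j, 0 ≤ ν j) (e : ∀ j, μ j ≤ c * ν j) :
    Kc n l k z F ν :=
  let ⟨C, c0, b⟩ := h.bd
  .of (C := C * c) h.ne p fun j => JB.mono (b j)
    ((mul_le_mul_of_nonneg_left (e j) c0).trans_eq (mul_assoc ..).symm)

theorem eq (h : Kc n l k z F μ) (e : ∀ j, μ j = ν j) : Kc n l k z F ν := funext e ▸ h

theorem congr (h : Kc n l k z F μ) (e : ∀ j, G j =ᶠ[𝓝 (z j)] F j) : Kc n l k z G μ :=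
  let ⟨C, c, b⟩ := h.bd
  ⟨h.ne, h.nn, C, c, fun j => JB.congr (b j) (ev_dl (e j))⟩

theorem add (h : Kc n l k z F μ) (h' : Kc n l k z G μ) : Kc n l k z (fun j x => F j x + G j x) μ :=
  let ⟨C, _, b⟩ := h.bd
  let ⟨C', _, b'⟩ := h'.bd
  .of (C := C + C') h.ne h.nn fun j => add_mul C C' _ ▸ JB.add (b j) (b' j)

theorem mul (h : Kc n l k z F μ) (h' : Kc n l k z G ν) :
    Kc n l k z (fun j x => F j x * G j x) fun j => μ j * ν j :=
  let ⟨C, _, b⟩ := h.bd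
  let ⟨C', _, b'⟩ := h'.bd
  .of (C := 2 ^ n * C * C') h.ne (fun j => mul_nonneg (h.nn j) (h'.nn j)) fun j =>
    JB.mono (JB.smul (b j) (b' j)) (le_of_eq (by ring))

theorem cst (e : ∀ j, l j ≠ 0 ∧ k j ≠ 0) {v : J → ℝ} {C : ℝ} (p : ∀ j, 0 ≤ μ j)
    (h : ∀ j, |v j| ≤ C * μ j) : Kc n l k z (fun j _ => v j) μ :=
  .of e p fun j => (JB.const (v j)).mono (h j)

theorem cm (h : Kc n l k z F μ) (c : ℝ) : Kc n l k z (fun j x => c * F j x) μ :=
  ((cst (μ := fun _ => 1) (C := |c|) h.ne (fun _ => zero_le_one) fun _ => (mul_one _).ge).mul h).eq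
    fun _ => one_mul _

theorem sm (h : Kc n l k z F μ) {v : J → ℝ} (p : ∀ j, 0 ≤ v j) :
    Kc n l k z (fun j x => v j * F j x) fun j => v j * μ j :=
  (cst (C := 1) h.ne p fun j => by rw [abs_of_nonneg (p j), one_mul]).mul h

theorem mul1 (h : Kc n l k z F fun _ => 1) (h' : Kc n l k z G ν) :
    Kc n l k z (fun j x => F j x * G j x) ν := (h.mul h').eq fun _ => one_mul _

theorem sub (h : Kc n l k z F μ) (h' : Kc n l k z G μ) : Kc n l k z (fun j x => F j x - G j x) μ :=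
  (h.add (h'.cm (-1))).congr fun _ => .of_forall fun _ => by ring

theorem sum {ι : Type} [Fintype ι] [Nonempty ι] {F : ι → J → R4 → ℝ} (h : ∀ i, Kc n l k z (F i) μ) :
    Kc n l k z (fun j x => ∑ i, F i j x) μ := by
  classical
  obtain ⟨i0⟩ := ‹Nonempty ι›
  have : ∀ s : Finset ι, Kc n l k z (fun j x => ∑ i ∈ s, F i j x) μ := fun s => by
    induction s using Finset.induction_on with
    | empty => exact cst (v := fun _ => 0) (C := 0) (h i0).ne (h i0).nn (by simp)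
    | insert a s ha ih => simpa only [Finset.sum_insert ha] using (h a).add ih
  exact this _

theorem val (h : Kc n l k z F μ) : ∃ C, 0 ≤ C ∧ ∀ j, |F j (z j)| ≤ C * μ j :=
  let ⟨C, c, b⟩ := h.bd
  ⟨C, c, fun j => cl_val (b j)⟩

theorem inv (h : Kc n l k z F fun _ => 1) {c : ℝ} (c0 : 0 < c) (e : ∀ j, c ≤ F j (z j)) :
    Kc n l k z (fun j x => (F j x)⁻¹) fun _ => 1 := by
  obtain ⟨C, _, b⟩ := h.bd
  have s : ∀ x : ℝ, x ≠ 0 → ContDiffAt ℝ ∞ (fun x : ℝ => x⁻¹) x := fun x h => contDiffAt_inv ℝ h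
  obtain ⟨B, _, hB⟩ := P354YI.ex_jb n (isCompact_Icc (a := c) (b := C))
    fun x hx => s x (c0.trans_le hx.1).ne'
  refine .of (C := n ! * B * max 1 C ^ n) h.ne h.nn fun j => ?_
  have m : F j (dl (l j) (k j) (z j) 0) ∈ Icc c C := by
    rw [dl_zero]; exact ⟨e j, (le_abs_self _).trans ((cl_val (b j)).trans_eq (mul_one _))⟩
  rw [mul_one]
  exact JB.comp (u := fun x : ℝ => x⁻¹) ⟨(isOpen_ne.eventually_mem (c0.trans_le m.1).ne').mono s,
    hB _ m⟩ ((b j).jd.mono ((mul_one C).le.trans (le_max_right _ _))) (le_max_left _ _)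

/-- A derivative along v = c dL w costs c. -/
theorem dv (h : Kc (n + 1) l k z F μ) {v w : R4} {c : J → ℝ} (p : ∀ j, 0 ≤ c j)
    (e : ∀ j, v = c j • dL (l j) (k j) w) :
    Kc n l k z (fun j => dv v (F j)) fun j => c j * μ j := by
  obtain ⟨C, _, b⟩ := h.bd
  have : Kc n l k z (fun j x => fderiv ℝ (F j) x (dL (l j) (k j) w)) μ :=
    .of (C := ‖ContinuousLinearMap.apply ℝ ℝ w‖ * C) h.ne h.nn fun j => by
      refine JB.congr (mul_assoc _ C _ ▸ (b j).jd.fderiv.clm (ContinuousLinearMap.apply ℝ ℝ w)) ?_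
      filter_upwards [ev_dl (h.sa j)] with ξ s
      rw [ContinuousLinearMap.apply_apply,
        show fderiv ℝ (fun ξ => F j (dl (l j) (k j) (z j) ξ)) ξ = _ from
          ((s.differentiableAt (by simp)).hasFDerivAt.comp ξ (dl_fd ..)).fderiv]
      rfl
  exact (this.sm p).congr fun j => .of_forall fun x => by
    simp only [P354SA.dv]; rw [e j, map_smul, smul_eq_mul]

/-- Composition with the map to the rays. -/
theorem comp {θ R : J → ℝ} {Λ : J → R4 → ℝ} {p : J → R4} {C : ℝ}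
    (h : Kc n l (fun _ => 1) (fun j => P354SA.sm (R j) (Λ j) (p j)) F μ) (t : ∀ j, 1 ≤ θ j)
    (l0 : ∀ j, 0 < l j) (d : ∀ j, JD n (fun ξ => Λ j (dl (θ j)⁻¹ (θ j)⁻¹ (p j) ξ)) 0 (C * l j)) :
    Kc n (fun j => (θ j)⁻¹) (fun j => (θ j)⁻¹) p (fun j x => F j (P354SA.sm (R j) (Λ j) x)) μ := by
  obtain ⟨B, _, b⟩ := h.bd
  have t0 := fun j => (inv_pos.2 (zero_lt_one.trans_le (t j)))
  refine .of (C := n ! * B * max 2 C ^ n) (fun j => ⟨(t0 j).ne', (t0 j).ne'⟩) h.nn fun j => ?_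
  let A : R4 →L[ℝ] P354H.X3 := (θ j)⁻¹ • ((ContinuousLinearMap.fst ℝ ℝ _ +
    (ContinuousLinearMap.fst ℝ ℝ _).comp (.snd ℝ ℝ _)).prod ((ContinuousLinearMap.snd ℝ ℝ _).comp
      (.snd ℝ ℝ _)))
  have a : ‖A‖ ≤ max 2 C := le_trans (ContinuousLinearMap.opNorm_le_bound _ zero_le_two fun x => by
    have h1 := norm_fst_le x
    have h2 := (norm_fst_le x.2).trans (norm_snd_le x)
    have h3 := (norm_snd_le x.2).trans (norm_snd_le x)
    have h4 : ‖((x.1 + x.2.1, x.2.2) : P354H.X3)‖ ≤ 2 * ‖x‖ :=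
      norm_prod_le_iff.2 ⟨by linarith [norm_add_le x.1 x.2.1], by linarith [norm_nonneg x]⟩
    refine (norm_smul_le (θ j)⁻¹ ((x.1 + x.2.1, x.2.2) : P354H.X3)).trans (le_trans (mul_le_of_le_one_left (norm_nonneg _) ?_) h4)
    rw [Real.norm_of_nonneg (t0 j).le]; exact inv_le_one_of_one_le₀ (t j)) (le_max_left _ _)
  have k1 : JD n (fun ξ => ((l j)⁻¹ • ContinuousLinearMap.id ℝ ℝ)
      (Λ j (dl (θ j)⁻¹ (θ j)⁻¹ (p j) ξ) - Λ j (p j))) 0 (max 2 C) := by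
    refine ((((d j).mono (mul_le_mul_of_nonneg_right (le_max_right 2 C) (l0 j).le)).sub
      (JD.const _)).clm _).mono (le_of_eq ?_)
    rw [norm_smul, ContinuousLinearMap.norm_id, Real.norm_of_nonneg (inv_pos.2 (l0 j)).le]
    field_simp [(l0 j).ne']
    ring
  have k2 := JB.comp (u := fun ξ => F j (dl (l j) 1 (P354SA.sm (R j) (Λ j) (p j)) ξ))
    (by simpa only [dl_zero, sub_self, map_zero, Prod.mk_zero_zero, Cl] using b j)
    (k1.prod ((JD.lin A).mono a)) (le_trans one_le_two (le_max_left _ _))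
  refine (k2.congr (.of_forall fun ξ => congrArg (F j) ?_)).mono (le_of_eq (by ring))
  ext <;> simp [A, dl, P354SA.sm, (l0 j).ne']
  ring

/-- A smaller scale. -/
theorem scale {θ ϑ : J → ℝ} (h : Kc n (fun j => (θ j)⁻¹) (fun j => (θ j)⁻¹) z F μ)
    (t : ∀ j, 0 < θ j) (e : ∀ j, θ j ≤ ϑ j) :
    Kc n (fun j => (ϑ j)⁻¹) (fun j => (ϑ j)⁻¹) z F μ := by
  obtain ⟨B, _, b⟩ := h.bd
  have t0 := fun j => ((t j).trans_le (e j))
  refine .of (C := n ! * B) (fun j => ⟨(inv_pos.2 (t0 j)).ne', (inv_pos.2 (t0 j)).ne'⟩) h.nn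
    fun j => ?_
  have k2 := JB.comp (u := fun ξ => F j (dl (θ j)⁻¹ (θ j)⁻¹ (z j) ξ))
    (f := (θ j / ϑ j) • ContinuousLinearMap.id ℝ R4) (z := 0) (by simpa only [map_zero, Cl] using b j)
    ((JD.lin _).mono (D := 1) (by
      rw [norm_smul, ContinuousLinearMap.norm_id, mul_one,
        Real.norm_of_nonneg (div_pos (t j) (t0 j)).le]
      exact div_le_one_of_le₀ (e j) (t0 j).le)) le_rfl
  refine (k2.congr (.of_forall fun ξ => congrArg (F j) ?_)).mono (le_of_eq (by ring))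
  have := (t j).ne'
  have := (t0 j).ne'
  ext <;> simp [dl] <;> field_simp

end Kc

theorem dv_mul {F G : R4 → ℝ} {z v : R4} (h : SA F z) (h' : SA G z) :
    dv v (fun x => F x * G x) =ᶠ[𝓝 z] fun x => dv v F x * G x + F x * dv v G x := by
  filter_upwards [h.ev, h'.ev] with x a b
  rw [dv, fderiv_fun_mul a.diff b.diff]
  simp only [dv, add_apply, smul_apply, smul_eq_mul]
  ring

theorem dv_add {F G : R4 → ℝ} {z v : R4} (h : SA F z) (h' : SA G z) :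
    dv v (fun x => F x + G x) =ᶠ[𝓝 z] fun x => dv v F x + dv v G x := by
  filter_upwards [h.ev, h'.ev] with x a b
  rw [dv, fderiv_fun_add a.diff b.diff]
  rfl

theorem dv_congr {F G : R4 → ℝ} {z v : R4} (e : G =ᶠ[𝓝 z] F) : dv v G =ᶠ[𝓝 z] dv v F :=
  (e.fderiv (𝕜 := ℝ)).mono fun _ h => by simp only [dv, h]

/-- The derivative along v gains the factor ρ. -/
structure Kd (n : ℕ) (l k : J → ℝ) (z : J → R4) (v : R4) (ρ : J → ℝ) (F : J → R4 → ℝ) (μ : J → ℝ) :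
    Prop where
  f : Kc (n + 1) l k z F μ
  d : Kc n l k z (fun j => dv v (F j)) fun j => μ j * ρ j

namespace Kd
variable {v : R4} {ρ : J → ℝ}

theorem f' (h : Kd n l k z v ρ F μ) : Kc n l k z F μ := h.f.ord n.le_succ

theorem eq (h : Kd n l k z v ρ F μ) (e : ∀ j, μ j = ν j) : Kd n l k z v ρ F ν := funext e ▸ h

theorem congr (h : Kd n l k z v ρ F μ) (e : ∀ j, G j =ᶠ[𝓝 (z j)] F j) : Kd n l k z v ρ G μ :=
  ⟨h.f.congr e, h.d.congr fun j => dv_congr (e j)⟩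

theorem add (h : Kd n l k z v ρ F μ) (h' : Kd n l k z v ρ G μ) :
    Kd n l k z v ρ (fun j x => F j x + G j x) μ :=
  ⟨h.f.add h'.f, (h.d.add h'.d).congr fun j => dv_add (h.f.sa j) (h'.f.sa j)⟩

theorem mul (h : Kd n l k z v ρ F μ) (h' : Kd n l k z v ρ G ν) :
    Kd n l k z v ρ (fun j x => F j x * G j x) fun j => μ j * ν j :=
  ⟨h.f.mul h'.f, (((h.d.mul h'.f').eq fun _ => by ring).add ((h.f'.mul h'.d).eq fun _ => by
    ring)).congr fun j => dv_mul (h.f.sa j) (h'.f.sa j)⟩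

theorem cst (h : Kd n l k z v ρ F μ) {u : J → ℝ} {C : ℝ} (r : ∀ j, 0 ≤ ρ j) (p : ∀ j, 0 ≤ ν j)
    (e : ∀ j, |u j| ≤ C * ν j) : Kd n l k z v ρ (fun j _ => u j) ν :=
  ⟨.cst h.f.ne p e, (Kc.cst (v := fun _ => 0) (C := 0) h.f.ne (fun j => mul_nonneg (p j) (r j))
    (by simp)).congr fun _ => .of_forall fun _ => by simp [dv]⟩

theorem cm (h : Kd n l k z v ρ F μ) (r : ∀ j, 0 ≤ ρ j) (c : ℝ) :
    Kd n l k z v ρ (fun j x => c * F j x) μ :=
  ((h.cst (ν := fun _ => 1) (C := |c|) r (fun _ => zero_le_one) fun _ => (mul_one _).ge).mul h).eq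
    fun _ => one_mul _

theorem sm (h : Kd n l k z v ρ F μ) (r : ∀ j, 0 ≤ ρ j) {u : J → ℝ} (p : ∀ j, 0 ≤ u j) :
    Kd n l k z v ρ (fun j x => u j * F j x) fun j => u j * μ j :=
  (h.cst (C := 1) r p fun j => by rw [abs_of_nonneg (p j), one_mul]).mul h

theorem inv (h : Kd n l k z v ρ F fun _ => 1) {c : ℝ} (c0 : 0 < c) (e : ∀ j, c ≤ F j (z j)) :
    Kd n l k z v ρ (fun j x => (F j x)⁻¹) fun _ => 1 := by
  have i := h.f'.inv c0 e
  refine ⟨h.f.inv c0 e, ((i.mul1 (i.mul1 h.d)).cm (-1)).congr fun j => ?_⟩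
  filter_upwards [(h.f.sa j).ev, (h.f.sa j).cont.eventually_ne (c0.trans_le (e j)).ne'] with x a b
  rw [dv, show fderiv ℝ (fun x => (F j x)⁻¹) x = _ from
    ((hasDerivAt_inv b).comp_hasFDerivAt x a.diff.hasFDerivAt).fderiv]
  simp only [dv, smul_apply, smul_eq_mul]
  ring

end Kd

end Vale.Agent.P354YR.Geo
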