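import Vale.Agent.P354YR.Rp4

/-!
RPF: collection of the constants.
-/

open Set Filter Topology

noncomputable section

namespace Vale.Agent.P354YR.Rp

open Vale.Agent.P354n (R4)
open Vale.Agent.P354YQ (JB)
open Vale.Agent.P354SA

variable {n : ℕ} {K B : ℝ} {μ ν : Dt n K B → ℝ}

theorem fin {ι : Type} [Finite ι] {F : ι → Dt n K B → R4 → ℝ} (h : ∀ i, Kz n (F i) μ) (c : ℝ)
    (p : ∀ j, 0 ≤ ν j) (e : ∀ j, μ j ≤ c * ν j) :
    ∀ᶠ C in atTop, ∀ (j : Dt n K B) i, Cl n j.l 1 (F i j) j.z (C * ν j) := by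
  have := fun i => ((h i).wt p e).bd
  choose C _ b using this
  filter_upwards [eventually_all.2 fun i => eventually_ge_atTop (C i)] with C' e j i
  exact JB.mono (b i j) (mul_le_mul_of_nonneg_right (e i) (p j))

theorem w0 (j : Dt n K B) : j.r⁻¹ ≤ K * j.r'⁻¹ := by
  rw [← div_eq_mul_inv, le_div_iff₀ j.r0', inv_mul_le_iff₀ j.r0, mul_comm]; exact j.r3

theorem w1 (j : Dt n K B) : j.r ^ 2 ≤ K ^ 2 * j.r' ^ 2 :=
  (pow_le_pow_left₀ j.r0.le j.r2 2).trans_eq (mul_pow ..)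

theorem w2 {a b c : ℝ} (j : Dt n K B) (h : a ≤ c * b) (a0 : 0 ≤ a) :
    a * j.m ≤ c * K * (b * j.m') :=
  (mul_le_mul h j.m1 j.m0.le (a0.trans h)).trans_eq (by ring)

theorem w3 (j : Dt n K B) : (j.r ^ 2)⁻¹ ≤ K ^ 2 * (j.r' ^ 2)⁻¹ := by
  rw [← inv_pow, ← inv_pow, ← mul_pow]; exact pow_le_pow_left₀ (ri j) (w0 j) 2

theorem all (hK : 0 < K) (hB : 0 < B) :
    ∀ᶠ C in atTop, ∀ j : Dt n K B, Rq n C j.r' j.m' j.l j.g j.h j.Y j.z := by
  have o := fun _ : Dt n K B => (one_mul (1 : ℝ)).ge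
  have p1 := fun j : Dt n K B => j.m0'.le
  have p2 := fun j : Dt n K B => mul_nonneg (sq_nonneg j.r') (p1 j)
  have p3 := fun j : Dt n K B => (inv_pos.2 j.r0').le
  filter_upwards [eventually_ge_atTop (2 * K), eventually_ge_atTop (K ^ 8 * B),
    fin (fun _ : Unit => low z_Om) 1 one o, fin (fun _ : Unit => low (z_a0 hB)) 1 one fun j => (ri1 j).trans (o j),
    fin (z_a1 hK hB) 1 one o,
    fin (fun a : Fin 2 × Fin 2 => z_gm a.1 a.2) _ (fun _ => sq_nonneg _) w1,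
    fin (fun _ : Unit => z_dO) K p1 Dt.m1,
    fin (fun _ : Unit => z_ds (z_a0 hB)) K p1 fun j => (rm j).trans j.m1,
    fin (z_d1 hK hB) _ (fun j => mul_nonneg (p3 j) (p1 j)) fun j => w2 j (w0 j) (ri j),
    fin (fun a : Fin 2 × Fin 2 => z_dg a.1 a.2) _ p2 fun j => w2 j (w1 j) (sq_nonneg _),
    fin (fun a : Fin 2 × Fin 2 => z_chi hK hB a.1 a.2) _ p2 fun j => w2 j (w1 j) (sq_nonneg _),
    fin (fun a : Fin 4 × Fin 4 × Fin 4 × Fin 4 => z_cur hB a.1 a.2.1 a.2.2.1 a.2.2.2) K p1 Dt.m1,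
    fin (fun a : Fin 2 × Fin 2 => z_a2 hK hB a.1 a.2) _ (fun j => inv_nonneg.2 (sq_nonneg _)) w3,
    fin (fun _ : Unit => low z_wr) _ (fun j => mul_nonneg j.r0'.le (p1 j))
      fun j => w2 j j.r2 j.r0.le,
    fin (fun _ : Unit => ((le1 (z_lr hB) one ri1).add (low z_κ)).congr (G := fun j => lr j.g j.Y)
      fun _ => .of_forall fun _ => (sub_add_cancel ..).symm) 1 one o,
    fin (fun _ : Unit => z_lr hB) K p3 w0, fin (fun _ : Unit => low (z_a0 hB)) K p3 w0]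
    with C k2 k8 h1 h2 h3 h4 h5 h6 h7 h8 h9 h10 h11 h12 h13 h14 h15 j
  obtain ⟨_, k⟩ := j.gd.self_of_nhds
  have d : (K ^ 4)⁻¹ * (B⁻¹ * j.r ^ 4) ≤ dg j.h j.z := by
    rw [k.dg_eq, sq]
    exact mul_le_mul j.de_ge j.fp.pos.1 (by positivity) (mul_self_nonneg _)
  have r0 := j.r0
  refine ⟨⟨?_, le_trans ?_ d, ?_⟩, ⟨mul_one C ▸ h1 j (), mul_one C ▸ h2 j (),
    fun a => mul_one C ▸ h3 j a, fun a b => h4 j (a, b)⟩, h5 j (), h6 j (),
    fun a => JB.mono (h7 j a) (le_of_eq (by ring)), fun a b => JB.mono (h8 j (a, b)) (mul_assoc ..).ge,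
    fun a b => JB.mono (h9 j (a, b)) (mul_assoc ..).ge, fun a b c d => h10 j (a, b, c, d),
    fun a b => h11 j (a, b), JB.mono (h12 j ()) (mul_assoc ..).ge, mul_one C ▸ h13 j (),
    Geo.cl_val (h14 j ()), Geo.cl_val (h15 j ())⟩
  · rw [k.Om_eq]
    refine (inv_anti₀ (by positivity) k2).trans ?_
    rw [mul_inv]
    exact mul_le_mul (by simpa using j.fp.c.2.1) j.lc.kap.1 (by positivity)
      (one_half_pos.le.trans j.fp.c.2.1)
  · refine (mul_le_mul (inv_anti₀ (by positivity) k8) (pow_le_pow_left₀ j.r0'.le j.r3 4)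
      (pow_pos j.r0' 4).le (by positivity)).trans_eq ?_
    field_simp
  · have g0 := j.fp.pos.2
    have e : Gp j.g 0 0 (pq j.Y j.z) * gm j.h 0 0 j.z = (Jm j.Y 0 0 j.z * Gp j.g 0 0 (pq j.Y j.z) +
        Jm j.Y 0 1 j.z * Gp j.g 0 1 (pq j.Y j.z)) ^ 2 + Jm j.Y 0 1 j.z ^ 2 * dG j.g (pq j.Y j.z) := by
      simp only [k.gm_eq, Fin.sum_univ_two, k.G_sy, dG]; ring
    have d0 : 0 < dG j.g (pq j.Y j.z) := lt_of_lt_of_le (by positivity) j.fp.pos.1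
    have h := nonneg_of_mul_nonneg_right (le_of_le_of_eq (by positivity) e.symm) g0
    refine h.lt_of_ne fun h0 => ?_
    have : 0 < dg j.h j.z := lt_of_lt_of_le (by positivity) d
    rw [dg, ← h0] at this
    nlinarith [sq_nonneg (gm j.h 0 1 j.z)]

end Vale.Agent.P354YR.Rp

/-- RPF. -/
theorem Vale.Agent.P354YR.rpf : Vale.Agent.P354SA.RPF := fun n K K1 B B1 => by
  obtain ⟨C, h, c⟩ := ((Rp.all (n := n) (one_pos.trans_le K1) (one_pos.trans_le B1)).and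
    (eventually_ge_atTop 1)).exists
  exact ⟨C, c, fun m l r' m' g D Y z lc jn fp r2 r3 m1 =>
    h ⟨m, l, r', m', g, D, Y, z, K1, B1, lc, jn, fp, r2, r3, m1⟩⟩
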