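import Vale.Agent.P354SA.Defs
import Vale.Agent.P354XM.Inv

/-!
The pull back of the metric of the rays to the slab: pointwise identities.
-/

open scoped ContDiff
open Set Filter Topology

noncomputable section

namespace Vale.Agent.P354YR.Geo

open Vale.Agent.P354n (R4)
open Vale.Agent.P354R (Met Pull)
open Vale.Agent.P354RC (B2 Rm at_df)
open Vale.Agent.P354XD (tb rp_tb)
open Vale.Agent.P354XE (Tw pb)
open Vale.Agent.P354SA

variable {R : ℝ} {Λ : R4 → ℝ} {g : Tw} {q : R4}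

theorem sm_fd (h : DifferentiableAt ℝ Λ q) (v : R4) :
    fderiv ℝ (sm R Λ) q v = (fderiv ℝ Λ q v, v.1 + v.2.1, v.2.2) := by
  have x := hasFDerivAt_snd (𝕜 := ℝ) (p := q)
  rw [show fderiv ℝ (sm R Λ) q = _ from (h.hasFDerivAt.prodMk
    (((hasFDerivAt_fst.add x.fst).sub_const R).prodMk x.snd)).fderiv]
  rfl

/-- The angular gradient, and the fields A^a = a2^ab Λ_b, Q = a2 Λ Λ. -/
def La (Λ : R4 → ℝ) (a : Fin 2) : R4 → ℝ := dv (ey a) Λ
def AA (R : ℝ) (Λ : R4 → ℝ) (g : Tw) (a : Fin 2) (q : R4) : ℝ := ∑ b, a2 g a b (sm R Λ q) * La Λ b q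
def QQ (R : ℝ) (Λ : R4 → ℝ) (g : Tw) (q : R4) : ℝ := ∑ a, AA R Λ g a q * La Λ a q

/-- The hypotheses at q. -/
structure Pt (R : ℝ) (Λ : R4 → ℝ) (g : Tw) (q : R4) (h : B2) : Prop where
  df : DifferentiableAt ℝ Λ q
  eq : ∀ u v, g (sm R Λ q) u v = h u v
  sy : ∀ u v, h u v = h v u
  n0 : h e0 e0 = 0
  na : ∀ a, h e0 (ey a) = 0

namespace Pt
variable {h : B2} (k : Pt R Λ g q h)
include k

theorem T_nv : fderiv ℝ (sm R Λ) q nv = dv nv Λ q • e0 := by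
  rw [sm_fd k.df]; simp [nv, e0, dv]

theorem T_ey (a : Fin 2) : fderiv ℝ (sm R Λ) q (ey a) = La Λ a q • e0 + ey a := by
  rw [sm_fd k.df]; fin_cases a <;> simp [ey, e0, dv, La]

theorem T_11 : fderiv ℝ (sm R Λ) q (1, 1, 0, 0) = dv (1, 1, 0, 0) Λ q • e0 + (2 : ℝ) • e1 := by
  rw [sm_fd k.df]; simp [e0, e1, dv]; norm_num

theorem gm_eq (a b : Fin 2) : gm (pb (sm R Λ) g) a b q = gm g a b (sm R Λ q) := by
  simp only [gm, pb, k.eq, k.T_ey, map_add, map_smul, add_apply, smul_apply, k.n0, k.na,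
    k.sy (ey a) e0, smul_zero, zero_add]

theorem dg_eq : dg (pb (sm R Λ) g) q = dg g (sm R Λ q) := by simp only [dg, k.gm_eq]

theorem gi_eq (a b : Fin 2) : gi (pb (sm R Λ) g) a b q = gi g a b (sm R Λ q) := by
  simp only [gi, k.gm_eq, k.dg_eq]

theorem O2_eq : O2 (pb (sm R Λ) g) q = -dv nv Λ q * Om g (sm R Λ q) := by
  simp only [O2, Om, pb, k.eq, k.T_nv, k.T_11, map_add, map_smul, smul_apply, k.n0, smul_eq_mul]
  ring

theorem bb_eq (a : Fin 2) :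
    bb (pb (sm R Λ) g) a q = -2 * a1 g a (sm R Λ q) - 4 * AA R Λ g a q := by
  simp only [bb, k.gi_eq, a1, AA, a2, Om, pb, k.eq, k.T_ey, k.T_11, map_add, map_smul, add_apply,
    smul_apply, k.n0, k.na, k.sy e1 e0, smul_eq_mul, Fin.sum_univ_two]
  ring

theorem null1 : pb (sm R Λ) g q nv nv = 0 ∧ ∀ a, pb (sm R Λ) g q nv (ey a) = 0 := by
  simp only [pb, k.eq, k.T_nv, k.T_ey, map_add, map_smul, smul_apply, k.n0, k.na, smul_zero,
    add_zero, implies_true, and_self]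

variable (e : dv (1, 1, 0, 0) Λ q =
  2 * (a0 g (sm R Λ q) + ∑ a, a1 g a (sm R Λ q) * La Λ a q + QQ R Λ g q))
include e

theorem T_lv : fderiv ℝ (sm R Λ) q (lv (pb (sm R Λ) g) q) = (2 : ℝ) • lh g (sm R Λ q) +
    (-2 * QQ R Λ g q) • e0 + ∑ a, (-4 * AA R Λ g a q) • ey a := by
  have : lv (pb (sm R Λ) g) q = (1, 1, 0, 0) + ∑ a, bb (pb (sm R Λ) g) a q • ey a := by
    simp [lv, ey]
  rw [this, map_add, map_sum, k.T_11, e]
  simp only [map_smul, k.T_ey, k.bb_eq, QQ, Fin.sum_univ_two]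
  ext <;> simp [lh, e0, e1, ey] <;> ring

theorem null2 (o : Om g (sm R Λ q) ≠ 0) (d : dg g (sm R Λ q) ≠ 0) :
    pb (sm R Λ) g q (lv (pb (sm R Λ) g) q) (lv (pb (sm R Λ) g) q) = 0 := by
  have l : lh g (sm R Λ q) = a0 g (sm R Λ q) • e0 + e1 + ∑ a, (-a1 g a (sm R Λ q)) • ey a := by
    ext <;> simp [lh, e0, e1, ey]
  rw [pb, k.T_lv e, l, k.eq]
  simp only [Fin.sum_univ_two, map_add, map_smul, add_apply, smul_apply, smul_eq_mul, k.n0, k.na,
    k.sy e1 e0, k.sy (ey _) e0, k.sy (ey _) e1, k.sy (ey 1) (ey 0), QQ, AA, a0, a1, a2, gi, Om, gm,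
    k.eq, dg] at o d ⊢
  simp only [Matrix.cons_val_zero, Matrix.cons_val_one]
  generalize hD : h (ey 0) (ey 0) * h (ey 1) (ey 1) - h (ey 0) (ey 1) ^ 2 = D at d ⊢
  field_simp
  subst hD
  ring
end Pt

end Vale.Agent.P354YR.Geo
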