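import Vale.Agent.P354YR.Fb1

/-!
The real inequality FB.
-/

noncomputable section

namespace Vale.Agent.P354YR

open Vale.Agent.P354XY

/-- Elementary facts on the parameters; a = C ε, q = C / r, T = r a R c. -/
structure Nm (η R r S th P a q T : ℝ) : Prop where
  R1 : 1 ≤ R
  r0 : 0 < r
  P0 : 0 < P
  Pr : P * r = R / 2
  P2 : 2 * P ≤ th
  a0 : 0 ≤ a
  q0 : 0 ≤ q
  aR : a ≤ a * R
  a1 : a ≤ η
  q1 : q ≤ 2 * η * P
  q2 : q ≤ η
  u1 : a * r * S ≤ T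
  u3 : a * R * S ≤ η
  u4 : a * S ≤ a * R * S
  u5 : a * R * S ≤ 2 * T * P
  u6 : a * S ≤ a * r * S
  u7 : a * R * S * r ≤ T
  f0 : 0 ≤ a * r * S
  f1 : P * (a * r * S) ≤ η / 2
  v1 : a * R / r ≤ 2 * η * P
  v2 : a * R / r ^ 2 ≤ 2 * η * P

theorem nm {C η R r S c th P a : ℝ} (hC : 1 ≤ C) (e0 : 0 < η) (e1 : η ≤ 1 / 100) (R0 : 0 < R)
    (hR : C ≤ η * R) (a0 : 0 ≤ a) (hδ : a * R ≤ η) (hr : R ≤ r) (t0 : R / r ≤ th) (t1 : th ≤ 1)
    (S0 : 0 ≤ S) (S1 : S ≤ c) (c1 : c ≤ 1) (eP : P = R / (2 * r)) :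
    Nm η R r S th P a (C / r) (r * (a * R) * c) := by
  have R1 : 1 ≤ R := by linarith [mul_le_mul_of_nonneg_right e1 R0.le]
  have r0 : 0 < r := by linarith
  have P0 : 0 < P := by rw [eP]; positivity
  have Pr : P * r = R / 2 := by rw [eP]; field_simp
  have P2 : 2 * P ≤ th := by rw [eP]; refine le_trans (le_of_eq ?_) t0; field_simp
  have c0 := S0.trans S1
  have aR : a ≤ a * R := le_mul_of_one_le_right a0 R1
  have b0 := a0.trans aR
  have q1 : C / r ≤ 2 * η * P := by rw [div_le_iff₀ r0, mul_assoc, Pr]; linarith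
  have u3 : a * R * S ≤ η := (mul_le_of_le_one_right b0 (S1.trans c1)).trans hδ
  have v1 : a * R / r ≤ 2 * η * P := by
    rw [div_le_iff₀ r0, mul_assoc (2 * η), Pr]; linarith [le_mul_of_one_le_right e0.le R1]
  have h1 := mul_le_mul_of_nonneg_left S1 (mul_nonneg r0.le b0)
  refine ⟨R1, r0, P0, Pr, P2, a0, by positivity, aR, aR.trans hδ, q1, q1.trans ?_, ?_, u3,
    mul_le_mul_of_nonneg_right aR S0, ?_,
    mul_le_mul_of_nonneg_right (le_mul_of_one_le_right a0 (R1.trans hr)) S0, by linarith,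
    by positivity, ?_, v1, le_trans (div_le_div_of_nonneg_left b0 r0 ?_) v1⟩
  · linarith [mul_le_mul_of_nonneg_left (P2.trans t1) e0.le]
  · linarith [mul_le_mul_of_nonneg_right aR (mul_nonneg r0.le S0)]
  · rw [show 2 * (r * (a * R) * c) * P = a * R * c * R by linear_combination 2 * (a * R) * c * Pr]
    exact (mul_le_mul_of_nonneg_left S1 b0).trans (le_mul_of_one_le_right (mul_nonneg b0 c0) R1)
  · rw [show P * (a * r * S) = a * R * S / 2 by linear_combination a * S * Pr]; linarith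
  · rw [sq]; exact le_mul_of_one_le_right r0.le (R1.trans hr)

section
variable {η R r S th P a q T A B ξ E Z : ℝ} (N : Nm η R r S th P a q T) (e0 : 0 < η) (t1 : th ≤ 1)
  (S0 : 0 ≤ S) (z0 : 0 ≤ ξ) (hZ : Z = th * A ^ 2 + P * B ^ 2 + ξ ^ 2) (E0 : 0 ≤ E)
  (i2 : |A| ≤ 3 * E) (i3 : P * |B| ≤ 7 * E)
include N e0 t1 S0 z0 hZ i2 i3

include E0 in
theorem lL {Wt x : ℝ} (W0 : 0 ≤ Wt) (W1 : Wt ≤ 2) (w1 : a * Wt ≤ 2 * η * th + T)
    (h1 : ξ ^ 2 - ((a + q) * ξ ^ 2 + (q + a * Wt + a * r * S) * A ^ 2 + a * S * |A| * |B|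
        + q * |B| * ξ + (a * Wt + a * S + q) * |A| * ξ) ≤ x) :
    ξ ^ 2 / 2 - 2 * (10 * η * Z + T * |A| * (26 * E)) ≤ (2 - th - P) * x := by
  have L := errL e0 N.P2 t1 N.P0.le (abs_nonneg A) (abs_nonneg B) z0 N.a1 N.q1 (mul_nonneg N.a0 W0)
    (by linarith [mul_le_mul_of_nonneg_left W1 N.a0, N.a1]) w1
    (mul_nonneg N.a0 S0) (N.u4.trans N.u3) (N.u6.trans N.u1) (N.u4.trans N.u5) N.u1
  rw [sq_abs, sq_abs, ← hZ] at L
  have T0 : 0 ≤ T * |A| := mul_nonneg (N.f0.trans N.u1) (abs_nonneg A)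
  have P0 := N.P0
  have P2 := N.P2
  have l1 : ξ ^ 2 - (10 * η * Z + T * |A| * (26 * E)) ≤ x := by
    linarith [mul_le_mul_of_nonneg_left (show 4 * |A| + 2 * (P * |B|) ≤ 26 * E by linarith) T0]
  have t0 : 0 ≤ th := by linarith
  have h0 : 0 ≤ 10 * η * Z + T * |A| * (26 * E) := by rw [hZ]; positivity
  generalize 10 * η * Z + T * |A| * (26 * E) = y at l1 h0 ⊢
  linarith [mul_le_mul_of_nonneg_left l1 (show 0 ≤ 2 - th - P by linarith),
    mul_le_mul_of_nonneg_right (show 1 / 2 ≤ 2 - th - P by linarith) (sq_nonneg ξ),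
    mul_le_mul_of_nonneg_right (show 2 - th - P ≤ 2 by linarith) h0]

omit S0 in
theorem lN {x : ℝ} (i4 : P * ξ ≤ 2 * E)
    (h1 : -((a * R * S * r * A ^ 2 + (a * R * S + a * R / r) * |A| * |B| +
      a * R / r ^ 2 * B ^ 2 + a * R * S * |A| * ξ + a * R / r * |B| * ξ + a * R * S * ξ ^ 2) / 2) ≤ x) :
    -(2 * η * Z + T * |A| * (11 * E)) ≤ x := by
  have L := errN e0 N.P2 t1 N.P0.le (abs_nonneg A) (abs_nonneg B) z0 N.u7 N.u5 N.u3 N.v1 N.v2
  rw [sq_abs, sq_abs, ← hZ] at L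
  have T0 : 0 ≤ T * |A| := mul_nonneg (N.f0.trans N.u1) (abs_nonneg A)
  linarith [mul_le_mul_of_nonneg_left
    (show |A| + 2 * (P * |B|) + 2 * (P * ξ) ≤ 22 * E by linarith [abs_nonneg A]) T0]
end

theorem lD {η k th P T x E Z1 Z2 Z3 y u v w : ℝ} (k0 : 0 < k) (k1 : k ≤ 1 / 4) (e2 : η ≤ k / 1000)
    (T0 : 0 ≤ T * x) (E0 : 0 ≤ E) (z1 : 0 ≤ Z1) (z2 : 0 ≤ Z2) (z3 : 0 ≤ Z3) (i : x + y ≤ 10 * E)
    (l2 : Z3 / 2 - 2 * (10 * η * (Z1 + Z2 + Z3) + T * x * (26 * E)) ≤ (2 - th - P) * v)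
    (l3 : -(2 * η * (Z1 + Z2 + Z3) + T * x * (11 * E)) ≤ u)
    (Mn : -(1 / 4) + k / 2 * Z1 + Z2 - Z3 / 8 - 5 * η * (Z1 + Z2 + Z3) - T * x * (x + y) ≤ w) :
    -(1 / 4) + k / 4 * (Z1 + Z2 + Z3) - 100 * (T * x * E) ≤ u + (2 - th - P) * v + w := by
  have := mul_le_mul_of_nonneg_left i T0
  have := mul_nonneg T0 E0
  have := mul_le_mul_of_nonneg_right e2 (show 0 ≤ Z1 + Z2 + Z3 by positivity)
  have := mul_le_mul_of_nonneg_right k1 z2
  have := mul_le_mul_of_nonneg_right k1 z3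
  have := mul_nonneg k0.le z1
  linarith

/-- The case A ≤ 0. -/
theorem lS {η P th φ q A B ξ F b la mu al eN E : ℝ} (e0 : 0 < η) (e1 : η ≤ 1 / 100) (P0 : 0 < P)
    (P1 : P ≤ 1 / 2) (t0 : 0 ≤ th) (f1 : P * φ ≤ η / 2) (z0 : 0 ≤ ξ) (q2 : q ≤ η)
    (hF : |F - 1| ≤ 2 * η + φ) (hb : |b - 1| ≤ η) (hl0 : |la| ≤ q * ξ) (hl : |la| ≤ 2 * η * P * ξ)
    (hm : |mu| ≤ 2 * η * ξ) (ea : al = b * A - la) (a0 : 0 ≤ al) (en : eN = F * A + b * B - mu)
    (eE : E = P * eN + (2 - th - P) * al) (s : A ≤ 0) :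
    |A| ≤ 2 * (q * ξ) ∧ E ≤ 2 * (P * |B|) + ξ := by
  have b1 := abs_le.1 hb
  have X0 := abs_nonneg A
  have h2 : al + b * |A| ≤ q * ξ := by rw [abs_of_nonpos s]; linarith [(abs_le.1 hl0).1]
  have h0 := mul_le_mul_of_nonneg_right (show 1 / 2 ≤ b by linarith) X0
  have h3 : |A| ≤ 2 * (q * ξ) := by linarith
  have h4 := mul_le_mul_of_nonneg_right (q2.trans e1) z0
  refine ⟨h3, ?_⟩
  have j1 := (abs_le.1 (rho_le (A := A) e0 P0 P1 f1 z0 hF hb hl hm)).2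
  have j2 : E = b * (P * B) + P * ((F - b) * A + la - mu) + (2 - th) * al := by
    rw [eE, en]; linear_combination (-P) * ea
  have j3 : b * (P * B) ≤ 2 * (P * |B|) := (le_abs_self _).trans (ab_mul
    (abs_le.2 ⟨by linarith, by linarith⟩) (by rw [abs_mul, abs_of_pos P0]))
  have j4 := mul_le_mul_of_nonneg_right e1 X0
  have j5 := mul_le_mul e1 (mul_le_mul_of_nonneg_right P1 z0) (by positivity) (by norm_num)
  generalize P * ((F - b) * A + la - mu) = rho at j1 j2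
  linarith [mul_nonneg t0 a0]

theorem lG {η k C r γ P th T A B ξ E : ℝ} (e0 : 0 < η) (k0 : 0 < k) (C0 : 0 ≤ C)
    (ηk : η * C = k / 1000) (r0 : 0 < r) (P0 : 0 < P) (P1 : P ≤ 1 / 2) (t0 : 0 ≤ th) (z0 : 0 ≤ ξ)
    (E0 : 0 ≤ E) (T0 : 0 ≤ T) (g0 : 1000 * T ≤ r * γ) (g1 : γ ≤ η)
    (hs : A ≤ 0 → |A| ≤ 2 * (C / r * ξ) ∧ E ≤ 2 * (P * |B|) + ξ) :
    100 * (T * |A| * E) - r * (γ * A * E) ≤ k / 8 * (th * A ^ 2 + P * B ^ 2 + ξ ^ 2) := by
  have X0 := abs_nonneg A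
  have h1 : 100 * (T * |A| * E) ≤ r * (γ * |A| * E) := by
    linarith [mul_le_mul_of_nonneg_right g0 (mul_nonneg X0 E0), mul_nonneg T0 (mul_nonneg X0 E0)]
  have Z0 : 0 ≤ k * (th * A ^ 2 + P * B ^ 2 + ξ ^ 2) := by positivity
  rcases le_total 0 A with s | s
  · rw [abs_of_nonneg s] at h1 ⊢; linarith
  obtain ⟨h3, h5⟩ := hs s
  have h6 : r * |A| ≤ 2 * C * ξ := by
    have := mul_le_mul_of_nonneg_left h3 r0.le
    rwa [show r * (2 * (C / r * ξ)) = 2 * C * ξ by field_simp] at this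
  have h7 : γ * (r * |A| * E) ≤ η * (2 * C * ξ * (2 * (P * |B|) + ξ)) :=
    mul_le_mul g1 (mul_le_mul h6 h5 E0 (by positivity)) (by positivity) e0.le
  have h8 : ξ * (2 * (P * |B|) + ξ) ≤ 2 * (th * A ^ 2 + P * B ^ 2 + ξ ^ 2) := by
    have := mul_le_mul_of_nonneg_left (am (u := |B|) (v := ξ)) P0.le
    rw [sq_abs] at this
    linarith [mul_le_mul_of_nonneg_right P1 (sq_nonneg ξ), sq_nonneg ξ, mul_nonneg t0 (sq_nonneg A),
      mul_nonneg P0.le (sq_nonneg B)]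
  have h9 := mul_le_mul_of_nonneg_left h8 (show 0 ≤ η * C by positivity)
  have h10 : r * (γ * A * E) = -(γ * (r * |A| * E)) := by rw [abs_of_nonpos s]; ring
  generalize th * A ^ 2 + P * B ^ 2 + ξ ^ 2 = Z at Z0 h9 ⊢
  have h11 : η * C * (2 * Z) = k / 500 * Z := by rw [ηk]; ring
  linarith

theorem lT {C R r S th a : ℝ} (hC : 1 ≤ C) (R1 : 1 ≤ R) (hr : R ≤ r) (h1 : r ≤ R + 2) (a0 : 0 ≤ a)
    (S1 : S ≤ 1) (t0 : R / r ≤ th) :
    C / r ≤ C / R ∧ a * r ≤ 3 * (a * R) ∧ a * r * S ≤ a * r ∧ 1 - th ≤ 2 * (C / R) := by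
  have r0 : 0 < r := by linarith
  have s1 : C / r ≤ C / R := div_le_div_of_nonneg_left (by linarith) (by linarith) hr
  refine ⟨s1, ?_, mul_le_of_le_one_right (by positivity) S1, ?_⟩
  · linarith [mul_le_mul_of_nonneg_left (show r ≤ 3 * R by linarith) a0]
  have h2 : 1 - R / r ≤ 2 / r := by rw [le_div_iff₀ r0]; field_simp; linarith
  have h3 : 2 / r ≤ 2 * (C / r) := by rw [← mul_div_assoc]; gcongr; linarith
  linarith

theorem lW {η r c th a R Wt : ℝ} (r0 : 0 < r) (a0 : 0 ≤ a) (a1 : a ≤ η) (aR : a ≤ a * R)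
    (t0 : 0 ≤ th) (c0 : 0 ≤ c) (W2 : Wt / r ≤ 2 * th / r + c) :
    a * Wt ≤ 2 * η * th + r * (a * R) * c := by
  have h1 := mul_le_mul_of_nonneg_left W2 (mul_nonneg a0 r0.le)
  rw [show a * r * (Wt / r) = a * Wt by field_simp,
    show a * r * (2 * th / r + c) = 2 * a * th + a * r * c by field_simp] at h1
  linarith [mul_le_mul_of_nonneg_right a1 t0, mul_le_mul_of_nonneg_right aR (mul_nonneg r0.le c0)]

theorem lF {k r Z D u v : ℝ} (k0 : 0 < k) (r1 : 1 ≤ r) (Z0 : 0 ≤ Z)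
    (l4 : -(1 / 4) + k / 4 * Z - u ≤ r * D) (l5 : u - r * v ≤ k / 8 * Z) :
    k * Z / (1000 * r) - 1 - v ≤ D := by
  have r0 : 0 < r := by linarith
  refine le_of_mul_le_mul_left ?_ r0
  rw [mul_sub, mul_sub, show r * (k * Z / (1000 * r)) = k / 1000 * Z by field_simp]
  linarith [mul_nonneg k0.le Z0]

theorem fa_nm {C ε r S Wt A B ξ F b la mu ga pL pN R P : ℝ} (r0 : 0 < r) (P0 : 0 < P)
    (Pr : P * r = R / 2) (H : Fa C ε r S Wt A B ξ F b la mu ga pL pN) :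
    |F - 1| ≤ C / r + C * ε + C * ε * r * S ∧ |la| ≤ C / r * ξ ∧ |mu| ≤ (C * ε + C / r) * ξ ∧
    |ga - ξ ^ 2| ≤ (C * ε + C / r) * ξ ^ 2 ∧
    ξ ^ 2 - ((C * ε + C / r) * ξ ^ 2 + (C / r + C * ε * Wt + C * ε * r * S) * A ^ 2 +
      C * ε * S * |A| * |B| + C / r * |B| * ξ + (C * ε * Wt + C * ε * S + C / r) * |A| * ξ) ≤ r * pL ∧
    -((C * ε * R * S * r * A ^ 2 + (C * ε * R * S + C * ε * R / r) * |A| * |B| +
      C * ε * R / r ^ 2 * B ^ 2 + C * ε * R * S * |A| * ξ + C * ε * R / r * |B| * ξ +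
      C * ε * R * S * ξ ^ 2) / 2) ≤ P * r * pN := by
  refine ⟨H.hF.trans_eq (by ring), H.hl.trans_eq (by ring), H.hm.trans_eq (by ring),
    H.hg.trans_eq (by ring), le_trans (le_of_eq ?_) (mul_le_mul_of_nonneg_left H.hL r0.le),
    le_trans (le_of_eq ?_) (mul_le_mul_of_nonneg_left H.hN (mul_pos P0 r0).le)⟩
  · field_simp
  · rw [Pr]; ring

/-- **FB.** -/
theorem fb : FB := by
  refine ⟨1000, by norm_num, fun C hC k k0 k1 => ⟨k / (1000 * C), by positivity, ?_⟩⟩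
  intro R ε r S Wt c th A B ξ F b la mu ga pL pN m P al eN E D R0 hR ε0 hδ hr t0 t1 S0 S1 c1 W0 W1 W2
    z0 H em m1 m0 eP ea a0 en eE eD
  have ηk : k / (1000 * C) * C = k / 1000 := by field_simp
  have e0 : 0 < k / (1000 * C) := by positivity
  generalize k / (1000 * C) = η at *
  have e2 : η ≤ k / 1000 := (le_mul_of_one_le_right e0.le hC).trans_eq ηk
  have e1 : η ≤ 1 / 100 := by linarith only [e2, k1]
  have C0 : 0 ≤ C := zero_le_one.trans hC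
  have N := nm hC e0 e1 R0 hR (mul_nonneg C0 ε0) hδ hr t0 t1 S0 S1 c1 eP
  obtain ⟨hF0, hl0, hm0, hg0, hL, hN⟩ := fa_nm N.r0 N.P0 N.Pr H
  have hb0 := H.hb
  clear H
  generalize C * ε = a at *
  have P1 : P ≤ 1 / 2 := by linarith only [N.P2, t1]
  have th0 : 0 ≤ th := by linarith only [N.P2, N.P0]
  have hF : |F - 1| ≤ 2 * η + a * r * S := by linarith only [hF0, N.a1, N.q2]
  have hb := hb0.trans N.a1
  have aq : a + C / r ≤ 2 * η := by linarith only [N.a1, N.q2]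
  have hl := hl0.trans (mul_le_mul_of_nonneg_right N.q1 z0)
  have hm := hm0.trans (mul_le_mul_of_nonneg_right aq z0)
  have hg := hg0.trans (mul_le_mul_of_nonneg_right aq (sq_nonneg ξ))
  obtain ⟨E0, i1, i2, i3, i4⟩ := fb1 e0 e1 N.P0 P1 th0 t1 N.f1 z0 hF hb hl hm hg em m0 ea a0 en eE
  refine ⟨by linarith only [E0, i1, i2, i3, i4], ?_, fun γ g0 g1 => ?_, fun e f h1 _ f2 hd => ?_⟩
  · have h1 : |F| ≤ 1 + (2 * η + a * r * S) := by
      linarith only [hF, abs_sub_abs_le_abs_sub F 1, abs_one (α := ℝ)]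
    have h2 : P * |F| ≤ 1 := by
      linarith only [mul_le_mul_of_nonneg_left h1 N.P0.le, mul_le_mul_of_nonneg_left e1 N.P0.le,
        N.f1, P1, e1]
    linarith only [mul_le_mul_of_nonneg_left h2 N.P0.le, P1]
  · have T0 := N.f0.trans N.u1
    have l2 := lL N e0 t1 S0 z0 rfl E0 i2 i3 W0 W1 (lW N.r0 N.a0 N.a1 N.aR th0 (S0.trans S1) W2) hL
    have l3 := lN N e0 t1 z0 rfl i2 i3 i4 hN
    have l4 := lD k0 k1 e2 (mul_nonneg T0 (abs_nonneg A)) E0 (mul_nonneg th0 (sq_nonneg A))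
      (mul_nonneg N.P0.le (sq_nonneg B)) (sq_nonneg ξ) (by linarith only [i2, i3]) l2 l3
      (mainD e0 N.P2 t1 N.P0.le k0 k1 z0 N.f0 N.u1 hF hb hl hm hg em m1)
    have l5 := lG (B := B) e0 k0 C0 ηk N.r0 N.P0 P1 th0 z0 E0 T0
      (by linarith only [mul_le_mul_of_nonneg_left g0 N.r0.le]) g1
      (lS e0 e1 N.P0 P1 th0 N.f1 z0 N.q2 hF hb hl0 hl hm ea a0 en eE)
    have r0 := N.r0
    have P0 := N.P0
    refine lF k0 (N.R1.trans hr) (by positivity) (l4.trans_eq ?_) l5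
    rw [eD, en, ea]; field_simp; ring
  · obtain ⟨s1, s2, s3, s4⟩ := lT hC N.R1 hr h1 N.a0 (S1.trans c1) t0
    have n0 : 0 ≤ |A| + |B| + ξ := by positivity
    have s0 : 0 ≤ C / R := by positivity
    have aR := N.aR
    have b0 := N.a0
    have := shell (σ := C / R + a * R) (A := A) (B := B) (d := e - eN) (by positivity) N.P0.le P1 N.P2
      t1 (by linarith only [s4, aR, b0]) z0 (by linarith only [hF0, s0, s1, s2, s3, aR])
      (by linarith only [hb0, aR, s0]) (hb.trans e1)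
      (hl0.trans (mul_le_mul_of_nonneg_right (by linarith only [s1, aR, b0]) z0))
      (hm0.trans (mul_le_mul_of_nonneg_right (by linarith only [s1, aR]) z0))
      (hd.trans (mul_le_mul_of_nonneg_right (by linarith only [s0, s2]) n0)) f2
    rw [eE, ea]
    rw [en] at this ⊢
    linarith only [this]

end Vale.Agent.P354YR
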