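import Vale.Agent.P354XY.Defs2

/-!
Pieces of the real inequality FB.
-/

noncomputable section

namespace Vale.Agent.P354YR

theorem am {u v : ℝ} : u * v ≤ (u ^ 2 + v ^ 2) / 2 := by nlinarith [sq_nonneg (u - v)]

theorem ab_mul {u v U V : ℝ} (h1 : |u| ≤ U) (h2 : |v| ≤ V) : |u * v| ≤ U * V := by
  rw [abs_mul]; exact mul_le_mul h1 h2 (abs_nonneg _) ((abs_nonneg _).trans h1)

theorem rho_le {η P φ A ξ F b la mu : ℝ} (e0 : 0 < η) (P0 : 0 < P) (P1 : P ≤ 1 / 2)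
    (f1 : P * φ ≤ η / 2) (x0 : 0 ≤ ξ) (hF : |F - 1| ≤ 2 * η + φ) (hb : |b - 1| ≤ η)
    (hl : |la| ≤ 2 * η * P * ξ) (hm : |mu| ≤ 2 * η * ξ) :
    |P * ((F - b) * A + la - mu)| ≤ 2 * η * |A| + 3 * η * (P * ξ) := by
  have h1 : |F - b| ≤ 3 * η + φ := by
    rw [show F - b = (F - 1) - (b - 1) by ring]; linarith [abs_sub (F - 1) (b - 1)]
  have h2 : |(F - b) * A + la - mu| ≤ (3 * η + φ) * |A| + 2 * η * P * ξ + 2 * η * ξ := by
    linarith [abs_sub ((F - b) * A + la) mu, abs_add_le ((F - b) * A) la, ab_mul h1 (le_refl |A|)]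
  have h3 := ab_mul (abs_of_pos P0).le h2
  have h4 : P * (3 * η + φ) * |A| ≤ 2 * η * |A| :=
    mul_le_mul_of_nonneg_right (by nlinarith) (abs_nonneg A)
  have h5 : P * (η * (P * ξ)) ≤ 1 / 2 * (η * (P * ξ)) :=
    mul_le_mul_of_nonneg_right P1 (by positivity)
  linarith

theorem fs1 {A b la al p : ℝ} (b0 : 0.99 ≤ b) (p0 : 0 ≤ p) (hl : |la| ≤ 0.02 * p)
    (ea : al = b * A - la) (a0 : 0 ≤ al) : |A| ≤ 1.02 * al + 0.03 * p := by
  have h1 : b * |A| ≤ al + 0.02 * p := by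
    rw [← abs_of_pos (show 0 < b by linarith), ← abs_mul, show b * A = al + la by linarith]
    linarith [abs_add_le al la, abs_of_nonneg a0]
  linarith [mul_le_mul_of_nonneg_right b0 (abs_nonneg A)]

theorem fs2 {x al p : ℝ} (x0 : 0 ≤ x) (h : x ≤ 1.02 * al + 0.03 * p) :
    x ^ 2 ≤ 1.1 * al ^ 2 + 0.04 * p ^ 2 := by
  linarith [pow_le_pow_left₀ x0 h 2, am (u := al) (v := p), sq_nonneg al, sq_nonneg p]

theorem fs7 {b u al rho th E G p : ℝ} (b0 : 0.99 ≤ b) (b1 : b ≤ 1.01) (t1 : th ≤ 1) (a0 : 0 ≤ al)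
    (G0 : 2 * p ^ 2 ≤ G) (s6 : -(0.295 * al ^ 2) + 0.475 * G < u)
    (r : -(0.0204 * al + 0.031 * p) ≤ rho) (h1 : al * E = b * u + al * rho + (2 - th) * al ^ 2) :
    0.5 * al ^ 2 + 0.25 * G < al * E := by
  have h2 := mul_lt_mul_of_pos_left s6 (show 0 < b by linarith)
  have h3 := mul_le_mul_of_nonneg_left r a0
  have h4 := mul_le_mul_of_nonneg_right b1 (sq_nonneg al)
  have h5 := mul_le_mul_of_nonneg_right b0 (show 0 ≤ G by linarith [sq_nonneg p])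
  have h6 := mul_le_mul_of_nonneg_right t1 (sq_nonneg al)
  linarith [am (u := al) (v := p), sq_nonneg al, sq_nonneg p]

theorem fs8 {al E G p : ℝ} (a0 : 0 ≤ al) (G0 : 2 * p ^ 2 ≤ G)
    (s7 : 0.5 * al ^ 2 + 0.25 * G < al * E) : al ≤ 2 * E ∧ p ≤ 2 * E := by
  have a1 : 0 < al := a0.lt_of_ne fun e => by
    rw [← e] at s7; linarith [sq_nonneg p]
  have s8 : al ≤ 2 * E := le_of_mul_le_mul_left (by linarith [sq_nonneg p]) a1
  have E0 : 0 ≤ E := by linarith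
  refine ⟨s8, (le_abs_self p).trans (abs_le_of_sq_le_sq' ?_ (by linarith) |> abs_le.2)⟩
  linarith [mul_le_mul_of_nonneg_right s8 E0, sq_nonneg al]

theorem fs6 {η P φ A B ξ F b la mu ga al m : ℝ} (e1 : η ≤ 1 / 100) (P0 : 0 < P) (P1 : P ≤ 1 / 2)
    (f1 : P * φ ≤ η / 2) (x0 : 0 ≤ ξ) (hF : |F - 1| ≤ 2 * η + φ) (hm : |mu| ≤ 2 * η * ξ)
    (hg : |ga - ξ ^ 2| ≤ 2 * η * ξ ^ 2) (G0 : 2 * (P * ξ) ^ 2 ≤ P * ξ ^ 2)
    (s2 : A ^ 2 ≤ 1.1 * al ^ 2 + 0.04 * (P * ξ) ^ 2)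
    (em : m = -(F * A ^ 2) - 2 * b * A * B + 2 * A * mu + 2 * B * la + ga) (m0 : m < 0)
    (ea : al = b * A - la) : -(0.295 * al ^ 2) + 0.475 * (P * ξ ^ 2) < P * B * al := by
  have s3 : P * F * A ^ 2 ≤ 0.515 * A ^ 2 := mul_le_mul_of_nonneg_right (by
    linarith [mul_le_mul_of_nonneg_left (abs_le.1 hF).2 P0.le,
      mul_le_mul_of_nonneg_left e1 P0.le]) (sq_nonneg A)
  have s4 : -(0.02 * (A ^ 2 + (P * ξ) ^ 2)) ≤ 2 * (P * (A * mu)) := by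
    have h1 := (abs_le.1 (ab_mul (abs_of_pos P0).le (ab_mul (le_refl |A|) hm))).1
    have h2 := mul_le_mul_of_nonneg_right e1 (mul_nonneg (abs_nonneg A) (mul_nonneg P0.le x0))
    have h3 := am (u := |A|) (v := P * ξ)
    rw [sq_abs] at h3
    linarith
  have s5 : 0.98 * (P * ξ ^ 2) ≤ P * ga := by
    have h1 := mul_le_mul_of_nonneg_left (abs_le.1 hg).1 P0.le
    have h2 := mul_le_mul_of_nonneg_right e1 (mul_nonneg P0.le (sq_nonneg ξ))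
    linarith
  have h1 : 2 * (P * B * al) = -(P * m) - P * F * A ^ 2 + 2 * (P * (A * mu)) + P * ga := by
    rw [em, ea]; ring
  linarith [mul_pos P0 (neg_pos.2 m0), sq_nonneg al, sq_nonneg (P * ξ)]

theorem fb1 {η P th φ A B ξ F b la mu ga al eN E m : ℝ} (e0 : 0 < η) (e1 : η ≤ 1 / 100) (P0 : 0 < P)
    (P1 : P ≤ 1 / 2) (t0 : 0 ≤ th) (t1 : th ≤ 1) (f1 : P * φ ≤ η / 2) (x0 : 0 ≤ ξ)
    (hF : |F - 1| ≤ 2 * η + φ) (hb : |b - 1| ≤ η) (hl : |la| ≤ 2 * η * P * ξ)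
    (hm : |mu| ≤ 2 * η * ξ) (hg : |ga - ξ ^ 2| ≤ 2 * η * ξ ^ 2)
    (em : m = -(F * A ^ 2) - 2 * b * A * B + 2 * A * mu + 2 * B * la + ga) (m0 : m < 0)
    (ea : al = b * A - la) (a0 : 0 ≤ al) (en : eN = F * A + b * B - mu)
    (eE : E = P * eN + (2 - th - P) * al) :
    0 ≤ E ∧ al ≤ 2 * E ∧ |A| ≤ 3 * E ∧ P * |B| ≤ 7 * E ∧ P * ξ ≤ 2 * E := by
  have r := abs_le.1 (rho_le (A := A) e0 P0 P1 f1 x0 hF hb hl hm)
  have b0 : 0.99 ≤ b := by linarith [(abs_le.1 hb).1]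
  have b1 : b ≤ 1.01 := by linarith [(abs_le.1 hb).2]
  have X0 := abs_nonneg A
  have p0 : 0 ≤ P * ξ := by positivity
  have G0 : 2 * (P * ξ) ^ 2 ≤ P * ξ ^ 2 := by
    linarith [mul_le_mul_of_nonneg_right P1 (mul_nonneg P0.le (sq_nonneg ξ))]
  have q1 : η * (P * ξ) ≤ 1 / 100 * (P * ξ) := mul_le_mul_of_nonneg_right e1 p0
  have q2 : η * |A| ≤ 1 / 100 * |A| := mul_le_mul_of_nonneg_right e1 X0
  have s1 := fs1 b0 p0 (by linarith) ea a0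
  have s2 := fs2 X0 s1
  rw [sq_abs] at s2
  have s6 := fs6 e1 P0 P1 f1 x0 hF hm hg G0 s2 em m0 ea
  have h1 : b * (P * B) = E - P * ((F - b) * A + la - mu) - (2 - th) * al := by
    rw [eE, en]; linear_combination P * ea
  generalize P * ((F - b) * A + la - mu) = rho at r h1
  obtain ⟨s8, s9⟩ := fs8 a0 G0 (fs7 (rho := rho) (E := E) b0 b1 t1 a0 G0 s6 (by linarith [r.1])
    (by linear_combination (-al) * h1))
  refine ⟨by linarith, s8, by linarith, ?_, s9⟩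
  have h2 : |b * (P * B)| ≤ 6 * E := by
    have := mul_nonneg t0 a0
    have := mul_le_mul_of_nonneg_right t1 a0
    rw [h1, abs_le]; constructor <;> linarith [r.1, r.2]
  rw [abs_mul, abs_mul, abs_of_pos P0, abs_of_pos (show 0 < b by linarith)] at h2
  linarith [mul_le_mul_of_nonneg_right b0 (mul_nonneg P0.le (abs_nonneg B))]

/-- The errors of the derivative along L, times r. -/
theorem errL {η P th T a q W S x y ξ : ℝ} (e0 : 0 < η) (P1 : 2 * P ≤ th) (t1 : th ≤ 1)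
    (P0 : 0 ≤ P) (x0 : 0 ≤ x) (y0 : 0 ≤ y) (z0 : 0 ≤ ξ) (a1 : a ≤ η) (q1 : q ≤ 2 * η * P)
    (W0 : 0 ≤ a * W) (W1 : a * W ≤ 2 * η) (W2 : a * W ≤ 2 * η * th + T) (S0 : 0 ≤ a * S)
    (S1 : a * S ≤ η) (S2 : a * S ≤ T) (S3 : a * S ≤ 2 * T * P) {φ : ℝ} (f1 : φ ≤ T) :
    (a + q) * ξ ^ 2 + (q + a * W + φ) * x ^ 2 + a * S * x * y + q * y * ξ + (a * W + a * S + q) * x * ξ
      ≤ 10 * η * (th * x ^ 2 + P * y ^ 2 + ξ ^ 2) + T * x * (4 * x + 2 * (P * y)) := by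
  have q2 : q ≤ η * th := by nlinarith
  have q3 : q ≤ η := by nlinarith
  have h1 := mul_le_mul_of_nonneg_right (show a + q ≤ 2 * η by linarith) (sq_nonneg ξ)
  have h2 := mul_le_mul_of_nonneg_right (show q + a * W + φ ≤ 3 * η * th + 2 * T by linarith)
    (sq_nonneg x)
  have h3 := mul_le_mul_of_nonneg_right S3 (mul_nonneg x0 y0)
  have h4 : q * y * ξ ≤ η * (P * y ^ 2 + ξ ^ 2) := by
    have := mul_le_mul_of_nonneg_right q1 (mul_nonneg y0 z0)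
    have := mul_le_mul_of_nonneg_left (am (u := y) (v := ξ)) (mul_nonneg e0.le P0)
    have := mul_le_mul_of_nonneg_right (show P ≤ 1 by linarith) (mul_nonneg e0.le (sq_nonneg ξ))
    nlinarith
  have k : ∀ {s : ℝ}, 0 ≤ s → s ≤ 2 * η → s * x * ξ ≤ η * ξ ^ 2 + s * x ^ 2 / 2 := fun {s} s0 s1 => by
    have := mul_le_mul_of_nonneg_left (am (u := x) (v := ξ)) s0
    have := mul_le_mul_of_nonneg_right s1 (sq_nonneg ξ)
    linarith
  have h5 := k W0 W1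
  have h6 := k S0 (by linarith)
  have h7 : q * x * ξ ≤ η * (th * x ^ 2 + ξ ^ 2) := by
    have := mul_le_mul_of_nonneg_right q2 (mul_nonneg x0 z0)
    have := mul_le_mul_of_nonneg_left (am (u := x) (v := ξ)) (mul_nonneg e0.le (by linarith : 0 ≤ th))
    have := mul_le_mul_of_nonneg_right t1 (mul_nonneg e0.le (sq_nonneg ξ))
    have := mul_nonneg (mul_nonneg e0.le (by linarith : 0 ≤ th)) (sq_nonneg x)
    nlinarith [mul_nonneg e0.le (sq_nonneg ξ)]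
  have h8 := mul_le_mul_of_nonneg_right W2 (sq_nonneg x)
  have h9 := mul_le_mul_of_nonneg_right S2 (sq_nonneg x)
  have := mul_nonneg (mul_nonneg e0.le (by linarith : 0 ≤ th)) (sq_nonneg x)
  have := mul_nonneg (mul_nonneg e0.le P0) (sq_nonneg y)
  have := mul_nonneg e0.le (sq_nonneg ξ)
  have := mul_nonneg (S0.trans S2) (sq_nonneg x)
  nlinarith

/-- The errors of the derivative along N, times r. -/
theorem errN {η P th T x y ξ c1 c2 c3 c4 : ℝ} (e0 : 0 < η) (P1 : 2 * P ≤ th) (t1 : th ≤ 1)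
    (P0 : 0 ≤ P) (x0 : 0 ≤ x) (y0 : 0 ≤ y) (z0 : 0 ≤ ξ) (h1 : c1 ≤ T) (h2 : c2 ≤ 2 * T * P)
    (h2' : c2 ≤ η) (h3 : c3 ≤ 2 * η * P) (h4 : c4 ≤ 2 * η * P) :
    c1 * x ^ 2 + (c2 + c3) * x * y + c4 * y ^ 2 + c2 * x * ξ + c3 * y * ξ + c2 * ξ ^ 2 ≤
      4 * η * (th * x ^ 2 + P * y ^ 2 + ξ ^ 2) + T * x * (x + 2 * (P * y) + 2 * (P * ξ)) := by
  have k1 := mul_le_mul_of_nonneg_right h1 (sq_nonneg x)
  have k2 := mul_le_mul_of_nonneg_right h2 (mul_nonneg x0 y0)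
  have k3 := mul_le_mul_of_nonneg_right h3 (mul_nonneg x0 y0)
  have k4 := mul_le_mul_of_nonneg_right h4 (sq_nonneg y)
  have k5 := mul_le_mul_of_nonneg_right h2 (mul_nonneg x0 z0)
  have k6 := mul_le_mul_of_nonneg_right h3 (mul_nonneg y0 z0)
  have k7 := mul_le_mul_of_nonneg_right h2' (sq_nonneg ξ)
  have k8 := mul_le_mul_of_nonneg_left (am (u := x) (v := y)) (mul_nonneg e0.le P0)
  have k9 := mul_le_mul_of_nonneg_left (am (u := y) (v := ξ)) (mul_nonneg e0.le P0)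
  have l1 := mul_le_mul_of_nonneg_right (show P ≤ th by linarith) (mul_nonneg e0.le (sq_nonneg x))
  have l2 := mul_le_mul_of_nonneg_right (show P ≤ 1 by linarith) (mul_nonneg e0.le (sq_nonneg ξ))
  have := mul_nonneg (mul_nonneg e0.le (by linarith : 0 ≤ th)) (sq_nonneg x)
  have := mul_nonneg e0.le (sq_nonneg ξ)
  nlinarith

theorem mg1 {η P th T φ A B ξ F b la mu : ℝ} (e0 : 0 < η) (P1 : 2 * P ≤ th) (t1 : th ≤ 1)
    (P0 : 0 ≤ P) (z0 : 0 ≤ ξ) (f1 : φ ≤ T) (hF : |F - 1| ≤ 2 * η + φ) (hb : |b - 1| ≤ η)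
    (hl : |la| ≤ 2 * η * P * ξ) (hm : |mu| ≤ 2 * η * ξ) :
    (1 - 4 * η) * (P * B ^ 2) - 2 * η * (th * A ^ 2) - 2 * η * ξ ^ 2 - T * |A| * (P * |B|) ≤
      P * B * (F * A + b * B - mu - (b * A - la)) := by
  have t0 : 0 ≤ th := by linarith
  have h1 : |F - b| ≤ 3 * η + φ := by
    rw [show F - b = (F - 1) - (b - 1) by ring]; linarith [abs_sub (F - 1) (b - 1)]
  have h2 : |(F - b) * A + la - mu| ≤ (3 * η + φ) * |A| + 3 * η * ξ := by
    have := mul_le_mul_of_nonneg_right (show 2 * P ≤ 1 by linarith) (mul_nonneg e0.le z0)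
    linarith [abs_sub ((F - b) * A + la) mu, abs_add_le ((F - b) * A) la, ab_mul h1 (le_refl |A|)]
  have h3 := mul_le_mul_of_nonneg_left (abs_le.1 (ab_mul (le_refl |B|) h2)).1 P0
  have h4 := mul_le_mul_of_nonneg_right (abs_le.1 hb).1 (mul_nonneg P0 (sq_nonneg B))
  have h5 := mul_le_mul_of_nonneg_right f1
    (mul_nonneg (abs_nonneg A) (mul_nonneg P0 (abs_nonneg B)))
  have h6 := mul_le_mul_of_nonneg_left (am (u := |A|) (v := |B|)) (mul_nonneg e0.le P0)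
  have h7 := mul_le_mul_of_nonneg_left (am (u := |B|) (v := ξ)) (mul_nonneg e0.le P0)
  rw [sq_abs] at h7
  rw [sq_abs, sq_abs] at h6
  have l1 := mul_le_mul_of_nonneg_right (show P ≤ th by linarith) (mul_nonneg e0.le (sq_nonneg A))
  have l2 := mul_le_mul_of_nonneg_right (show P ≤ 1 by linarith) (mul_nonneg e0.le (sq_nonneg ξ))
  have := mul_nonneg (mul_nonneg e0.le t0) (sq_nonneg A)
  have := mul_nonneg e0.le (sq_nonneg ξ)
  linarith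

theorem mg2 {η φ A B ξ F b la mu ga m : ℝ} (e0 : 0 < η) (hF : |F - 1| ≤ 2 * η + φ)
    (hm : |mu| ≤ 2 * η * ξ) (hg : |ga - ξ ^ 2| ≤ 2 * η * ξ ^ 2)
    (em : m = -(F * A ^ 2) - 2 * b * A * B + 2 * A * mu + 2 * B * la + ga) (m0 : -2 ≤ m) :
    -1 + ((1 - 4 * η - φ) * A ^ 2 - (1 + 4 * η) * ξ ^ 2) / 2 ≤ -(B * (b * A - la)) := by
  have h8 := mul_le_mul_of_nonneg_left (am (u := |A|) (v := ξ)) e0.le
  rw [sq_abs] at h8
  have := mul_le_mul_of_nonneg_right (abs_le.1 hF).1 (sq_nonneg A)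
  have := (abs_le.1 (ab_mul (le_refl |A|) hm)).2
  have := (abs_le.1 hg).2
  linarith

/-- The main terms, times r. -/
theorem mainD {η P th T φ k A B ξ F b la mu ga m : ℝ} (e0 : 0 < η) (P1 : 2 * P ≤ th) (t1 : th ≤ 1)
    (P0 : 0 ≤ P) (k0 : 0 < k) (k1 : k ≤ 1 / 4) (z0 : 0 ≤ ξ) (f0 : 0 ≤ φ) (f1 : φ ≤ T)
    (hF : |F - 1| ≤ 2 * η + φ) (hb : |b - 1| ≤ η) (hl : |la| ≤ 2 * η * P * ξ) (hm : |mu| ≤ 2 * η * ξ)
    (hg : |ga - ξ ^ 2| ≤ 2 * η * ξ ^ 2)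
    (em : m = -(F * A ^ 2) - 2 * b * A * B + 2 * A * mu + 2 * B * la + ga) (m0 : -2 ≤ m) :
    -(1 / 4) + k / 2 * (th * A ^ 2) + P * B ^ 2 - ξ ^ 2 / 8 - 5 * η * (th * A ^ 2 + P * B ^ 2 + ξ ^ 2) -
      T * |A| * (|A| + P * |B|) ≤
      P * B * (F * A + b * B - mu - (b * A - la)) - k * th * B * (b * A - la) := by
  have t0 : 0 ≤ th := by linarith
  have g1 := mg1 (A := A) (B := B) e0 P1 t1 P0 z0 f1 hF hb hl hm
  have g3 := mul_le_mul_of_nonneg_left (mg2 e0 hF hm hg em m0) (mul_nonneg k0.le t0)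
  clear hF hb hl hm hg em m0
  have kt : k * th ≤ 1 / 4 := by linarith [mul_le_mul_of_nonneg_left t1 k0.le]
  have g4 := mul_le_mul_of_nonneg_right kt (mul_nonneg f0 (sq_nonneg A))
  have g5 := mul_le_mul_of_nonneg_right kt (mul_nonneg (by linarith : 0 ≤ 1 + 4 * η) (sq_nonneg ξ))
  have g6 := mul_le_mul_of_nonneg_right k1 (mul_nonneg (mul_nonneg e0.le t0) (sq_nonneg A))
  have g7 := mul_le_mul_of_nonneg_right f1 (sq_nonneg A)
  have g8 : T * |A| * |A| = T * A ^ 2 := by rw [mul_assoc, ← sq, sq_abs]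
  have := mul_nonneg (mul_nonneg e0.le t0) (sq_nonneg A)
  have := mul_nonneg (mul_nonneg e0.le P0) (sq_nonneg B)
  have := mul_nonneg e0.le (sq_nonneg ξ)
  have := mul_nonneg f0 (sq_nonneg A)
  linarith

/-- The comparison on the shell. -/
theorem shell {σ P th A B ξ F b la mu d f : ℝ} (s0 : 0 ≤ σ) (P0 : 0 ≤ P) (P1 : P ≤ 1 / 2)
    (P2 : 2 * P ≤ th) (t1 : th ≤ 1) (t2 : 1 - th ≤ 2 * σ) (z0 : 0 ≤ ξ) (hF : |F - 1| ≤ 4 * σ)
    (hb : |b - 1| ≤ σ) (hb' : |b - 1| ≤ 1 / 100) (hl : |la| ≤ σ * ξ) (hm : |mu| ≤ σ * ξ)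
    (hd : |d| ≤ 3 * σ * (|A| + |B| + ξ)) (f1 : f ≤ 1 / 4) :
    B * (P * (F * A + b * B - mu) + (2 - th - P) * (b * A - la) - (F * A + b * B - mu + d - f * B)) ≤
      1000 * σ ^ 2 * (|A| + |B| + ξ) ^ 2 := by
  have X0 := abs_nonneg A
  have Y0 := abs_nonneg B
  have p1 : |P - 1| ≤ 1 := abs_le.2 ⟨by linarith, by linarith⟩
  have p2 : |2 - th - P| ≤ 2 := abs_le.2 ⟨by linarith, by linarith⟩
  have h1 : |(P - 1) * (F - 1) + (2 - th - P) * (b - 1) + (1 - th)| ≤ 8 * σ := by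
    have := abs_le.1 (ab_mul p1 hF)
    have := abs_le.1 (ab_mul p2 hb)
    exact abs_le.2 ⟨by linarith, by linarith⟩
  have h2 : |((P - 1) * (F - 1) + (2 - th - P) * (b - 1) + (1 - th)) * A - (P - 1) * mu -
      (2 - th - P) * la - d| ≤ 11 * σ * (|A| + |B| + ξ) := by
    have := abs_le.1 (ab_mul h1 (le_refl |A|))
    have := abs_le.1 (ab_mul p1 hm)
    have := abs_le.1 (ab_mul p2 hl)
    have := abs_le.1 hd
    have := mul_nonneg s0 Y0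
    have := mul_nonneg s0 z0
    exact abs_le.2 ⟨by linarith, by linarith⟩
  have h3 := (abs_le.1 (ab_mul (le_refl |B|) h2)).2
  have h4 : (P - 1) * b + f ≤ -(1 / 8) := by nlinarith [(abs_le.1 hb').1]
  have h5 := mul_le_mul_of_nonneg_right h4 (sq_nonneg B)
  have h6 := sq_nonneg (|B| - 44 * σ * (|A| + |B| + ξ))
  have h7 := sq_abs B
  nlinarith [sq_nonneg (σ * (|A| + |B| + ξ))]

end Vale.Agent.P354YR
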