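import Vale.Agent.P354YR.Geo1

/-!
The pull back of the metric of the rays to the slab: the second fundamental form and the curvature.
-/

open scoped ContDiff
open Set Filter Topology

noncomputable section

namespace Vale.Agent.P354YR.Geo

open Vale.Agent.P354n (R4)
open Vale.Agent.P354R (Met Pull)
open Vale.Agent.P354RC (B2 Rm Gm C1 at_df rp_pb Rm_pb)
open Vale.Agent.P354XD (tb rp_tb)
open Vale.Agent.P354XE (Tw pb)
open Vale.Agent.P354XM (ml_Rm)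
open Vale.Agent.P354SA

variable {R r r' : ℝ} {Λ F : R4 → ℝ} {g : Tw} {q : R4} {B D : Set R4} {h : B2}

theorem sm_df (h : DifferentiableAt ℝ Λ q) : DifferentiableAt ℝ (sm R Λ) q := by
  unfold sm; fun_prop

theorem fd_sm (h : DifferentiableAt ℝ Λ q) (f : DifferentiableAt ℝ F (sm R Λ q)) (v : R4) :
    fderiv ℝ (fun x => F (sm R Λ x)) q v = fderiv ℝ F (sm R Λ q) (fderiv ℝ (sm R Λ) q v) := by
  rw [fderiv_fun_comp q f (sm_df h)]; rfl

theorem Pt.dv_nv (k : Pt R Λ g q h) (f : DifferentiableAt ℝ F (sm R Λ q)) :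
    dv nv (fun x => F (sm R Λ x)) q = dv nv Λ q * dv e0 F (sm R Λ q) := by
  rw [dv, fd_sm k.df f, k.T_nv, map_smul]; rfl

theorem Pt.dv_ey (k : Pt R Λ g q h) (f : DifferentiableAt ℝ F (sm R Λ q)) (a : Fin 2) :
    dv (ey a) (fun x => F (sm R Λ x)) q =
      La Λ a q * dv e0 F (sm R Λ q) + dv (ey a) F (sm R Λ q) := by
  rw [dv, fd_sm k.df f, k.T_ey, map_add, map_smul]; rfl

/-- The eikonal equation at q. -/
def Ek (R : ℝ) (Λ : R4 → ℝ) (g : Tw) (q : R4) : Prop := dv (1, 1, 0, 0) Λ q =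
  2 * (a0 g (sm R Λ q) + ∑ a, a1 g a (sm R Λ q) * La Λ a q + QQ R Λ g q)

theorem lie_eq (k : ∀ᶠ x in 𝓝 q, ∃ h, Pt R Λ g x h) (e : Ek R Λ g q) (a b : Fin 2)
    (dγ : DifferentiableAt ℝ (gm g a b) (sm R Λ q))
    (d1 : ∀ c, DifferentiableAt ℝ (a1 g c) (sm R Λ q))
    (dA : ∀ c, DifferentiableAt ℝ (AA R Λ g c) q) :
    lie (pb (sm R Λ) g) (lv (pb (sm R Λ) g)) a b q = 2 * lie g (lh g) a b (sm R Λ q) +
      -2 * (QQ R Λ g q * dv e0 (gm g a b) (sm R Λ q)) +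
      -4 * ∑ c, AA R Λ g c q * dv (ey c) (gm g a b) (sm R Λ q) +
      -2 * ∑ c, (gm g c b (sm R Λ q) * La Λ a q + gm g a c (sm R Λ q) * La Λ b q) *
        dv e0 (a1 g c) (sm R Λ q) +
      -4 * ∑ c, (gm g c b (sm R Λ q) * dv (ey a) (AA R Λ g c) q +
        gm g a c (sm R Λ q) * dv (ey b) (AA R Λ g c) q) := by
  obtain ⟨h, k0⟩ := k.self_of_nhds
  have e1 : gm (pb (sm R Λ) g) a b =ᶠ[𝓝 q] fun x => gm g a b (sm R Λ x) :=
    k.mono fun x ⟨_, k⟩ => k.gm_eq a b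
  have e2 : ∀ c d, dv (ey d) (fun x => yc c (lv (pb (sm R Λ) g) x)) q =
      -2 * (La Λ d q * dv e0 (a1 g c) (sm R Λ q) + dv (ey d) (a1 g c) (sm R Λ q)) -
        4 * dv (ey d) (AA R Λ g c) q := fun c d => by
    have : (fun x => yc c (lv (pb (sm R Λ) g) x)) =ᶠ[𝓝 q]
        fun x => -2 * a1 g c (sm R Λ x) - 4 * AA R Λ g c x :=
      k.mono fun x ⟨_, k⟩ => Eq.trans (by fin_cases c <;> rfl) (k.bb_eq c)
    have s : DifferentiableAt ℝ (fun x => a1 g c (sm R Λ x)) q := (d1 c).comp q (sm_df k0.df)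
    rw [← k0.dv_ey (d1 c), dv, this.fderiv_eq, ((s.hasFDerivAt.const_mul (-2)).fun_sub
      ((dA c).hasFDerivAt.const_mul 4)).fderiv]
    rfl
  have e3 : ∀ c d, dv (ey d) (fun x => yc c (lh g x)) (sm R Λ q) =
      -dv (ey d) (a1 g c) (sm R Λ q) := fun c d => by
    have : (fun x => yc c (lh g x)) = fun x => -a1 g c x := by fin_cases c <;> rfl
    rw [this, dv, fderiv_fun_neg]; rfl
  simp only [lie, e2, e3, k0.gm_eq]
  rw [e1.fderiv_eq, fd_sm k0.df dγ, k0.T_lv e]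
  simp only [map_add, map_smul, Fin.sum_univ_two, smul_eq_mul, dv]
  ring

theorem rm_ev {h h' : R4 → B2} (e : h =ᶠ[𝓝 q] h') : Rm h q = Rm h' q := by
  have : Gm h q = Gm h' q := by
    funext a b
    simp only [Gm, C1, e.self_of_nhds, e.fderiv_eq]
  funext a b c d
  simp only [Rm, P354RC.dC, this, e.self_of_nhds, e.fderiv.fderiv_eq]

/-- The frame of the slab in terms of the frame of the rays. -/
def cf (R : ℝ) (Λ : R4 → ℝ) (g : Tw) (r r' : ℝ) (i a : Fin 4) (q : R4) : ℝ :=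
  ![![2, -2 * QQ R Λ g q, -4 * (r' * AA R Λ g 0 q), -4 * (r' * AA R Λ g 1 q)],
    ![0, dv nv Λ q, 0, 0], ![0, r⁻¹ * La Λ 0 q, r' / r, 0], ![0, r⁻¹ * La Λ 1 q, 0, r' / r]] i a

theorem Pt.T_fv (k : Pt R Λ g q h) (e : Ek R Λ g q) (r0 : r' ≠ 0) (i : Fin 4) :
    fderiv ℝ (sm R Λ) q (fv (lv (pb (sm R Λ) g)) nv r q i) =
      ∑ a, cf R Λ g r r' i a q • fv (lh g) e0 r' (sm R Λ q) a := by
  have := k.T_lv e
  have := k.T_nv
  have := k.T_ey
  fin_cases i <;> simp only [fv, cf, Fin.sum_univ_four, Fin.sum_univ_two, map_smul, smul_smul,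
    Fin.zero_eta, Fin.mk_one, Fin.reduceFinMk, Matrix.cons_val, zero_mul, *] <;>
    match_scalars <;> field_simp

theorem rie_eq (P : Pull (sm R Λ) (pb (sm R Λ) g) B g D) (hq : q ∈ B) (k : Pt R Λ g q h)
    (e : Ek R Λ g q) (r0 : r' ≠ 0) (i j u w : Fin 4) :
    rie (pb (sm R Λ) g) (fv (lv (pb (sm R Λ) g)) nv r) i j u w q =
      ∑ a, cf R Λ g r r' i a q * ∑ b, cf R Λ g r r' j b q * ∑ c, cf R Λ g r r' u c q *
        ∑ d, cf R Λ g r r' w d q * rie g (fv (lh g) e0 r') a b c d (sm R Λ q) := by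
  have x := rp_tb P.isOpen P.met
  have y := rp_pb P x
  have ev : tb (pb (sm R Λ) g) =ᶠ[𝓝 q] P354RC.pb (tb g) (sm R Λ) := by
    filter_upwards [P.open'.mem_nhds hq] with z hz
    exact ContinuousLinearMap.ext fun a => ContinuousLinearMap.ext fun b =>
      ((rp_tb P.open' y.met).eq z hz a b).symm.trans (y.eq z hz a b)
  rw [rie, rm_ev ev, Rm_pb P x hq]
  simp only [k.T_fv e r0]
  exact (ml_Rm _ _).sum ..

end Vale.Agent.P354YR.Geo
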