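import Vale.Agent.P354YR.Geo2
import Vale.Agent.P354YR.Geo3
import Vale.Agent.P354SG.Defs

/-!
GEO: the family of all data, and the basic bounds.
-/

open scoped ContDiff
open Set Filter Topology

noncomputable section

namespace Vale.Agent.P354YR.Geo

open Vale.Agent.P354n (R4)
open Vale.Agent.P354R (Met Pull)
open Vale.Agent.P354XD (tb rp_tb)
open Vale.Agent.P354XE (Tw pb)
open Vale.Agent.P354YQ (SA JB JD)
open Vale.Agent.P354SA Vale.Agent.P354SG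

/-- The data and the hypotheses of GEO. -/
structure Dt (n : ℕ) (K : ℝ) where
  (C0 l l' θ ϑ r r' m m' π rc R : ℝ)
  g : Tw
  Λ : R4 → ℝ
  (B D : Set R4)
  p : R4
  P : Pull (sm R Λ) (pb (sm R Λ) g) B g D
  hp : p ∈ B
  hq : ∀ q ∈ B, g (sm R Λ q) e0 e0 = 0 ∧ (∀ a, g (sm R Λ q) e0 (ey a) = 0) ∧
    0 < Om g (sm R Λ q) ∧ 0 < dg g (sm R Λ q) ∧ dv (1, 1, 0, 0) Λ q = 2 * Hm g (sm R Λ q, gy Λ q)
  rp : Rp (n + 4) C0 K r' m' l' rc g (sm R Λ p)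
  K1 : 1 ≤ K
  r1 : 1 ≤ r
  r2 : r' ≤ K * r
  r3 : r ≤ K * r'
  m1 : m' ≤ K * m
  m2 : r⁻¹ ≤ m
  l1 : 1 ≤ l
  l2 : l ≤ l'
  t1 : 1 ≤ θ
  t2 : θ ≤ ϑ
  lt : l * θ ≤ K * r
  op : Op n K l θ m π g R Λ p

variable {n k : ℕ} {K : ℝ}

theorem lc_gy (Λ : R4 → ℝ) (a : Fin 2) (q : R4) : lc a (gy Λ q) = La Λ a q := by
  fin_cases a <;> rfl

namespace Dt
variable (j : Dt n K) {q : R4}

theorem r0 : 0 < j.r := zero_lt_one.trans_le j.r1
theorem K0 (j : Dt n K) : 0 < K := zero_lt_one.trans_le j.K1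
theorem r0' : 0 < j.r' := pos_of_mul_pos_right (j.r0.trans_le j.r3) j.K0.le
theorem m0 : 0 < j.m := (inv_pos.2 j.r0).trans_le j.m2
theorem t0 : 0 < j.θ := zero_lt_one.trans_le j.t1
theorem rm : 1 ≤ j.r * j.m := by have := j.m2; rwa [inv_le_iff_one_le_mul₀' j.r0] at this
theorem ev : ∀ᶠ q in 𝓝 j.p, q ∈ j.B := j.P.open'.mem_nhds j.hp
theorem ssa (hq : q ∈ j.B) : SA (sm j.R j.Λ) q := .of_on j.P.smooth j.P.open' hq
theorem lsa (hq : q ∈ j.B) : SA j.Λ q := (j.ssa hq).clm (ContinuousLinearMap.fst ℝ ℝ _)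

theorem pt (hq : q ∈ j.B) : Pt j.R j.Λ j.g q (tb j.g (sm j.R j.Λ q)) := by
  have x := rp_tb j.P.isOpen j.P.met
  have y := j.P.maps hq
  exact ⟨(j.lsa hq).diff, x.eq _ y, x.symm _ y, (x.eq _ y ..).symm.trans (j.hq q hq).1,
    fun a => (x.eq _ y ..).symm.trans ((j.hq q hq).2.1 a)⟩

theorem ek (hq : q ∈ j.B) : Ek j.R j.Λ j.g q := by
  rw [Ek, (j.hq q hq).2.2.2.2]
  simp only [Hm, lc_gy, QQ, AA, Fin.sum_univ_two]
  have := (j.pt hq).sy (ey 0) (ey 1)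
  ring

theorem evs {F : R4 → ℝ} (h : SA F (sm j.R j.Λ j.p)) :
    ∀ᶠ q in 𝓝 j.p, DifferentiableAt ℝ F (sm j.R j.Λ q) :=
  (j.ssa j.hp).cont.eventually (h.ev.mono fun _ => SA.diff)

end Dt

/-- The classes on the slab and on the rays. -/
abbrev Ks (k : ℕ) (F : Dt n K → R4 → ℝ) (μ : Dt n K → ℝ) : Prop :=
  Kc k (fun j => j.θ⁻¹) (fun j => j.θ⁻¹) (fun j => j.p) F μ
abbrev Kr (k : ℕ) (F : Dt n K → R4 → ℝ) (μ : Dt n K → ℝ) : Prop :=
  Kc k (fun j => j.l') (fun _ => 1) (fun j => sm j.R j.Λ j.p) F μ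
abbrev Ds (k : ℕ) (F : Dt n K → R4 → ℝ) (μ : Dt n K → ℝ) : Prop :=
  Kd k (fun j => j.θ⁻¹) (fun j => j.θ⁻¹) (fun j => j.p) nv (fun j => j.θ * j.m) F μ
abbrev Dr (k : ℕ) (F : Dt n K → R4 → ℝ) (μ : Dt n K → ℝ) : Prop :=
  Kd k (fun j => j.l') (fun _ => 1) (fun j => sm j.R j.Λ j.p) e0 (fun j => j.m) F μ

variable {F : Dt n K → R4 → ℝ} {μ ν : Dt n K → ℝ}

theorem ne_s (j : Dt n K) : j.θ⁻¹ ≠ 0 ∧ j.θ⁻¹ ≠ 0 := ⟨(inv_pos.2 j.t0).ne', (inv_pos.2 j.t0).ne'⟩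
theorem ne_r (j : Dt n K) : j.l' ≠ 0 ∧ (1 : ℝ) ≠ 0 :=
  ⟨(zero_lt_one.trans_le (j.l1.trans j.l2)).ne', one_ne_zero⟩

theorem kr (c : ℝ) (p : ∀ j, 0 ≤ μ j) (h : ∀ j, Cl (n + 4) j.l' 1 (F j) (sm j.R j.Λ j.p) (ν j))
    (e : ∀ j, ν j ≤ c * μ j) : Kr (n + 4) F μ := .of ne_r p fun j => JB.mono (h j) (e j)

theorem sq_r (j : Dt n K) : K * j.r' ^ 2 ≤ K ^ 3 * j.r ^ 2 := by
  have := pow_le_pow_left₀ j.r0'.le j.r2 2
  nlinarith [mul_le_mul_of_nonneg_left this j.K0.le]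

theorem sq_m (j : Dt n K) : K * j.r' ^ 2 * j.m' ≤ K ^ 4 * (j.r ^ 2 * j.m) := by
  have := mul_le_mul_of_nonneg_left j.m1 (mul_pos j.K0 (pow_pos j.r0' 2)).le
  nlinarith [mul_le_mul_of_nonneg_right (sq_r j) (mul_pos j.K0 j.m0).le]

theorem k_m (j : Dt n K) : K * j.m' ≤ K ^ 2 * j.m := by
  nlinarith [mul_le_mul_of_nonneg_left j.m1 j.K0.le]

theorem one (_ : Dt n K) : (0 : ℝ) ≤ 1 := zero_le_one
theorem m_nn (j : Dt n K) : 0 ≤ j.m := j.m0.le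
theorem tm_nn (j : Dt n K) : 0 ≤ j.θ * j.m := (mul_pos j.t0 j.m0).le

theorem r_a1 (a : Fin 2) : Kr (n + 4) (fun j : Dt n K => a1 j.g a) fun _ => 1 :=
  kr K one (fun j => j.rp.one.2.2.1 a) fun _ => (mul_one _).ge

theorem r_d1 (a : Fin 2) :
    Kr (n + 4) (fun j : Dt n K => dv e0 (a1 j.g a)) fun j => j.r⁻¹ * j.m :=
  kr (K ^ 3) (fun j => (mul_pos (inv_pos.2 j.r0) j.m0).le) (fun j => j.rp.d1 a) fun j => by
    rw [div_le_iff₀ j.r0']
    have := j.r0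
    have h := mul_le_mul_of_nonneg_left j.r3 (mul_pos (pow_pos j.K0 2)
      (mul_pos (inv_pos.2 j.r0) j.m0)).le
    refine (k_m j).trans (le_trans (le_of_eq ?_) (h.trans_eq (by ring)))
    field_simp

theorem r_gm (a b : Fin 2) : Kr (n + 4) (fun j : Dt n K => gm j.g a b) fun j => j.r ^ 2 :=
  kr (K ^ 3) (fun _ => sq_nonneg _) (fun j => j.rp.one.2.2.2 a b) sq_r

theorem r_dg (a b : Fin 2) :
    Kr (n + 4) (fun j : Dt n K => dv e0 (gm j.g a b)) fun j => j.r ^ 2 * j.m :=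
  kr (K ^ 4) (fun j => mul_nonneg (sq_nonneg _) j.m0.le) (fun j => j.rp.dg a b) sq_m

theorem r_chi (a b : Fin 2) :
    Kr (n + 4) (fun j : Dt n K => lie j.g (lh j.g) a b) fun j => j.r ^ 2 * j.m :=
  kr (K ^ 4) (fun j => mul_nonneg (sq_nonneg _) j.m0.le) (fun j => j.rp.chi a b) sq_m

theorem r_cur (a b c d : Fin 4) :
    Kr (n + 4) (fun j : Dt n K => rie j.g (fv (lh j.g) e0 j.r') a b c d) fun j => j.m :=
  kr (K ^ 2) m_nn (fun j => j.rp.cur a b c d) k_m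

theorem r_ey (a b c : Fin 2) :
    Kr (n + 3) (fun j : Dt n K => dv (ey c) (gm j.g a b)) fun j => j.r ^ 2 :=
  ((r_gm a b).dv (w := ey c) one fun j => by fin_cases c <;> simp [dL, ey]).eq fun _ => one_mul _

theorem d_Om : Dr (n + 3) (fun j : Dt n K => Om j.g) fun _ => 1 :=
  ⟨kr K one (fun j => j.rp.one.1) fun _ => (mul_one _).ge,
    ((kr (K ^ 2) m_nn (fun j => j.rp.dO) k_m).ord (by omega)).eq fun _ => (one_mul _).symm⟩

theorem d_gm (a b : Fin 2) : Dr (n + 3) (fun j : Dt n K => gm j.g a b) fun j => j.r ^ 2 :=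
  ⟨r_gm a b, (r_dg a b).ord (by omega)⟩

theorem dg_ge (j : Dt n K) : (K ^ 5)⁻¹ * j.r ^ 4 ≤ dg j.g (sm j.R j.Λ j.p) := by
  refine le_trans ?_ j.rp.pos.2.1
  have := j.K0
  have h := mul_le_mul_of_nonneg_left (pow_le_pow_left₀ j.r0.le j.r3 4)
    (inv_pos.2 (pow_pos j.K0 5)).le
  refine h.trans_eq ?_
  field_simp

theorem d_a2 (hK : 0 < K) (a b : Fin 2) :
    Dr (n + 3) (fun j : Dt n K => a2 j.g a b) fun j => (j.r ^ 2)⁻¹ := by
  have r4 := fun j : Dt n K => (inv_pos.2 (pow_pos j.r0 4))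
  have d : Dr (n + 3) (fun j : Dt n K => fun x => (j.r ^ 4)⁻¹ * dg j.g x) fun _ => 1 :=
    ((((((d_gm 0 0).mul (d_gm 1 1)).add (((d_gm 0 1).mul (d_gm 0 1)).cm m_nn (-1))).sm m_nn
      fun j => (r4 j).le).eq fun j => by have := j.r0; field_simp)).congr
        fun j => .of_forall fun x => by simp only [dg]; ring
  have i := d.inv (inv_pos.2 (pow_pos hK 5)) fun j => by
    rw [le_inv_mul_iff₀ (pow_pos j.r0 4), mul_comm]; exact dg_ge j
  have u : Dr (n + 3) (fun j : Dt n K => fun x => ![![gm j.g 1 1 x, -gm j.g 0 1 x],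
      ![-gm j.g 0 1 x, gm j.g 0 0 x]] a b) fun j => j.r ^ 2 := by
    have := ((d_gm (n := n) (K := K) 0 1).cm m_nn (-1)).congr
      (G := fun j x => -gm j.g 0 1 x) fun j => .of_forall fun x => by simp
    fin_cases a <;> fin_cases b
    exacts [d_gm 1 1, this, this, d_gm 0 0]
  refine (((((d_Om.mul u).mul i).sm m_nn fun j => (r4 j).le).cm m_nn (1 / 2)).eq fun j => by
    have := j.r0; field_simp).congr fun j => .of_forall fun x => ?_
  have := j.r0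
  simp only [a2, gi, mul_inv, inv_inv]
  field_simp

/-! ### The slab -/

theorem pull (h : Kr (n + 2 + k) F μ) : Ks (n + 2) (fun j x => F j (sm j.R j.Λ x)) μ :=
  Kc.comp (C := K) (h.ord (by omega)) (fun j => j.t1) (fun j => zero_lt_one.trans_le
    (j.l1.trans j.l2)) fun j => j.op.jet.mono (mul_le_mul_of_nonneg_left j.l2 j.K0.le)

theorem s_mu : Ds n (fun j : Dt n K => dv nv j.Λ) fun _ => 1 :=
  ⟨.of (C := K) ne_s one fun j => (mul_one K).symm ▸ j.op.mu.1,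
    .of (C := K) ne_s (fun j => by simpa using tm_nn j) fun j => JB.mono j.op.dmu (le_of_eq (by ring))⟩

theorem d_nv (s : ∀ j, SA (F j) (sm j.R j.Λ j.p)) (h : Kr (n + 2 + k) (fun j => dv e0 (F j)) μ) :
    Ks (n + 1) (fun j => dv nv fun x => F j (sm j.R j.Λ x)) μ :=
  (s_mu.f.mul1 ((pull h).ord (by omega))).congr fun j => by
    filter_upwards [j.ev, j.evs (s j)] with q a b using (j.pt a).dv_nv b

theorem pullD (h : Dr (n + 3) F μ) : Ds n (fun j x => F j (sm j.R j.Λ x)) μ :=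
  ⟨(pull (k := 2) h.f).ord (by omega), ((d_nv (k := 1) h.f.sa h.d).ord (by omega)).wt (c := 1)
    (fun j => mul_nonneg (h.f.nn j) (tm_nn j)) fun j => by
      rw [one_mul]
      exact mul_le_mul_of_nonneg_left (le_mul_of_one_le_left j.m0.le j.t1) (h.f.nn j)⟩

theorem s_dv (h : Ks (k + 1) F μ) (v : R4) : Ks k (fun j => dv v (F j)) fun j => j.θ * μ j :=
  h.dv (w := v) (fun j => j.t0.le) fun j => by
    have := j.t0.ne'
    ext <;> simp [dL, this]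

theorem s_La (a : Fin 2) : Ds n (fun j : Dt n K => La j.Λ a) fun j => j.r := by
  have h : Ks (n + 2) (fun (j : Dt n K) x => j.Λ x - j.Λ j.p) fun j => j.l :=
    .of (C := K) ne_s (fun j => zero_le_one.trans j.l1) fun j => by
      simpa only [dl_zero, Cl] using j.op.jet.sub_const (mul_pos j.K0 (one_pos.trans_le j.l1)).le
  refine ⟨((s_dv h (ey a)).wt (c := K) (fun j => j.r0.le) fun j => mul_comm j.l j.θ ▸ j.lt).congr
    fun j => .of_forall fun x => by simp only [La, dv, fderiv_sub_const], ?_⟩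
  refine ((s_dv s_mu.f (ey a)).wt (c := 1) (fun j => mul_nonneg j.r0.le (tm_nn j))
    fun j => by nlinarith [j.rm, j.t0]).congr fun j => ?_
  filter_upwards [j.ev] with q hq
  have s := (j.lsa hq).at
  exact (P354RC.fd_ap0 (P354RC.at_fd s) ..).trans ((P354RC.sym2 s ..).trans
    (P354RC.fd_ap0 (P354RC.at_fd s) ..).symm)

theorem s_AA (hK : 0 < K) (a : Fin 2) : Ds n (fun j : Dt n K => AA j.R j.Λ j.g a) fun j => j.r⁻¹ :=
  ((((pullD (d_a2 hK a 0)).mul (s_La 0)).add ((pullD (d_a2 hK a 1)).mul (s_La 1))).eq fun j => by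
    have := j.r0; field_simp).congr fun j => .of_forall fun x => by simp only [AA, Fin.sum_univ_two]

theorem s_QQ (hK : 0 < K) : Ks (n + 1) (fun j : Dt n K => QQ j.R j.Λ j.g) fun _ => 1 :=
  (Kc.sum fun a => (s_AA hK a).f.mul (s_La a).f).eq fun j => inv_mul_cancel₀ j.r0.ne'

end Vale.Agent.P354YR.Geo
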