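import Vale.Agent.P354YR.Red
import Vale.Agent.P354YA.Nat

/-!
The ingoing principal null field of Kerr is geodesic.
-/

open scoped ContDiff
open Set Filter Topology

noncomputable section

namespace Vale.Agent.P354YR

open Vale.Agent.P354n (R4)
open Vale.Agent.P354I (rnd Sg)
open Vale.Agent.P354R (Met chr Del)
open Vale.Agent.P354XE
open Vale.Agent.P354RC (fd_ap der_eq C1_ap Gm)
open Vale.Agent.P354XD (tb rp_tb)

variable {M a : ℝ} {p : R4}

/-- The acceleration of a null field from its deformation tensor. -/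
theorem acc_pi {g : Tw} {D : Set R4} {V : R4 → R4} (hD : IsOpen D) (m : Met g D) (hp : p ∈ D)
    (hV : ContDiffAt ℝ ∞ V p) (h0 : ∀ x ∈ D, g x (V x) (V x) = 0) (w : R4) :
    g p (fderiv ℝ V p (V p)) w + chr g p (V p) (V p) w =
      pi g V p (V p + w) - pi g V p (V p) - pi g V p w := by
  have r := rp_tb hD m
  have e : ∀ u, fderiv ℝ (fun x => g x u u) p (V p) = fderiv ℝ (tb g) p (V p) u u := fun u => by
    rw [← r.der hp, der_eq (EventuallyEq.refl _ _) ((m.smooth u u).contDiffAt (hD.mem_nhds hp))]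
  have z : fderiv ℝ (fun x => tb g x (V x) (V x)) p w = 0 := by
    have : (fun x => tb g x (V x) (V x)) =ᶠ[𝓝 p] fun _ => 0 := by
      filter_upwards [hD.mem_nhds hp] with x hx
      rw [← r.eq x hx, h0 x hx]
    rw [this.fderiv_eq]; simp
  rw [fd_ap ((r.at hp).clm_apply hV) hV, fd_ap (r.at hp) hV, add_apply,
    r.symm p hp (V p)] at z
  simp only [P354XE.pi, e, r.chr hp, C1_ap, r.eq p hp, map_add, add_apply]
  linarith [r.dsym hp (V p) w (V p)]

theorem dr_nI (hp : xs p ≠ 0) : dr p (nI p) = -1 := by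
  have r0 := (rd_pos hp).ne'
  have k := rd_sq p
  simp only [dr_c hp, sp, nI, Prod.smul_snd, Prod.smul_fst, smul_eq_mul]
  field_simp; linarith

theorem dq_nI (p : R4) : dq p (nI p) = 0 := by
  simp only [dq_c, nI, Prod.smul_snd, Prod.smul_fst, smul_eq_mul]; ring

theorem kf_nI (hp : xs p ≠ 0) : kf a p (nI p) = 0 := by
  rw [kf, dr_nI hp, dq_nI]; simp [nI]

theorem kf_add (hp : xs p ≠ 0) (v w : R4) : kf a p (v + w) = kf a p v + kf a p w := by
  have := ((gin_met (M := 0) (a := a) (D := {p}) fun _ h => h ▸ hp).lin p rfl (nI p)).map_add v w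
  simp only [gin_nI hp] at this
  linarith

theorem rnd_nI (hp : xs p ≠ 0) (w : R4) :
    rnd (xs p) (xs (nI p + w)) (xs (nI p + w)) = rnd (xs p) (xs w) (xs w) ∧
      rnd (xs p) (xs (nI p)) (xs (nI p)) = 0 := by
  have r0 := (rd_pos hp).ne'
  have k := rd_sq p
  simp only [rnd_dr hp, dr_c hp, sp, nI, Prod.smul_snd, Prod.smul_fst, smul_eq_mul, Prod.fst_add,
    Prod.snd_add]
  constructor
  · field_simp; grind
  · field_simp; grind

/-- **GEOD.** -/
theorem geod : P354YA.GEOD := fun M a p h v => by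
  have hp := xs_ne h
  have e := acc_pi (g := gin M a) open_ne (gin_met fun _ h => h) hp (s_nI hp)
    (fun x hx => by rw [gin_nI hx, kf_nI hx, neg_zero]) v
  rw [pi_nI hp, pi_nI hp, pi_nI hp, kf_add hp, kf_nI hp, (rnd_nI hp v).1, (rnd_nI hp v).2] at e
  exact e.trans (by ring)

end Vale.Agent.P354YR
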