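import Vale.Agent.P354YR.Met

/-!
The isometries kap and mir, the vacuum equations, and the time orientations.
-/

open scoped ContDiff
open Set Filter Topology

noncomputable section

namespace Vale.Agent.P354YR

open Vale.Agent.P354n (R4 mink)
open Vale.Agent.P354I (X Dat dT dP rnd Sg rm rp)
open Vale.Agent.P354R (Pull Del Sig Met Vac kbl kdom)
open Vale.Agent.P354XS (zc ds dZ)
open Vale.Agent.P354XE
open Vale.Agent.P354XK hiding Om kf
open Vale.Agent.P354RC (at_df k2)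

variable {M a : ℝ} {p v w : R4}

theorem fd_cp {F : Type} [NormedAddCommGroup F] [NormedSpace ℝ F] {u : R4 → F} {f : R4 → R4}
    (hu : ContDiffAt ℝ ∞ u (f p)) (hf : ContDiffAt ℝ ∞ f p) {u' : R4 → F}
    (e : ∀ᶠ x in 𝓝 p, u (f x) = u' x) (v : R4) :
    fderiv ℝ u (f p) (fderiv ℝ f p v) = fderiv ℝ u' p v := by
  rw [← P354RC.fd_comp hu hf, Filter.EventuallyEq.fderiv_eq e]

theorem nf_scale {S c : ℝ} (hc : c ≠ 0) {l n G l' n' G' : R4 → ℝ} (e1 : ∀ v, l v = l' v / c)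
    (e2 : ∀ v, n v = c * n' v) (e3 : ∀ v, G v = G' v) : nf S p l n G v w = nf S p l' n' G' v w := by
  simp only [nf, e1, e2, e3]; field_simp

section
variable (h : |a| < M)
include h

/-- The forms of the Kruskal chart along a map given by null coordinates and an angle. -/
theorem kp_forms {U V c : R4 → ℝ} (hU : ContDiffAt ℝ ∞ U p) (hV : ContDiffAt ℝ ∞ V p)
    (hc : ContDiffAt ℝ ∞ c p) (hp : xs p ≠ 0) {f : R4 → R4}
    (hf : f = fun x => kp M a (U x) (V x) (c x) (xs x)) :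
    (∀ v, dU M a (f p) (fderiv ℝ f p v) = fderiv ℝ U p v) ∧
    (∀ v, dV M a (f p) (fderiv ℝ f p v) = fderiv ℝ V p v) ∧
    (∀ v, dq (f p) (fderiv ℝ f p v) = dq p v + (1 - zc (xs p) ^ 2) * fderiv ℝ c p v) ∧
    zc (xs (f p)) = zc (xs p) ∧
    ∀ S ≠ 0, ∀ A B G v w, nf S (f p) A B G (fderiv ℝ f p v) (fderiv ℝ f p w) =
      nf S p (fun v => A (fderiv ℝ f p v)) (fun v => B (fderiv ℝ f p v))
        (fun v => G (fderiv ℝ f p v) + S * fderiv ℝ c p v) v w := by
  have sf : ContDiffAt ℝ ∞ f p := hf ▸ s_kp h hU hV hc xs_cd.contDiffAt hp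
  have f0 : xs (f p) ≠ 0 := hf ▸ kp_ne h hp
  have ev := open_ne.mem_nhds hp
  have e : f = pol (fun x => (U x + V x) / 2) (fun x => ky M a ((V x - U x) / 2) / rd x) c := hf
  have d1 := (at_df ((hU.add hV).div_const 2)).hasFDerivAt
  have d2 := (at_df (((ky_cd h).contDiffAt.comp p ((hV.sub hU).div_const 2)).div
    (s_rd contDiffAt_id hp) (rd_pos hp).ne')).hasFDerivAt
  have d3 := (at_df hc).hasFDerivAt
  have l0 := div_pos (ky_pos h ((V p - U p) / 2)) (rd_pos hp)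
  refine ⟨fun v => ?_, fun v => ?_, fun v => e ▸ pol_dq d1 d2 d3 l0 hp v, e ▸ pol_zc l0,
    fun S hS A B G v w => e ▸ pol_nf d1 d2 d3 l0 hp hS A B G v w⟩
  · rw [← fd_kU f0]
    exact fd_cp (s_kU contDiffAt_id f0) sf (mem_of_superset ev fun x hx => hf ▸ kp_U h hx) v
  · rw [← fd_kV f0]
    exact fd_cp (s_kV contDiffAt_id f0) sf (mem_of_superset ev fun x hx => hf ▸ kp_V h hx) v

theorem fd_pV (hp : p ∈ DI M a) (v : R4) : fderiv ℝ (pV M a) p v =
    pV M a p * (ka M a * v.1 + rm M a / (2 * rp M a) / (rd p - rm M a) * dr p v) := by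
  obtain ⟨L, d, e⟩ := hd_rd (DI_ne h hp)
  have R0 : rd p - rm M a ≠ 0 := (sub_pos.2 hp).ne'
  rw [show fderiv ℝ (pV M a) p = _ from (((d.sub_const (rm M a)).rpow_const (Or.inl R0)).mul
    (hasFDerivAt_fst.const_mul (ka M a)).exp).fderiv]
  simp [e, pV, mf, Real.rpow_sub_one R0]
  ring

theorem fd_pU (hp : p ∈ DI M a) (v : R4) : fderiv ℝ (pU M a) p v = ((rd p - rp M a) *
    (ka M a * v.1 + rm M a / (2 * rp M a) / (rd p - rm M a) * dr p v) - dr p v) / pV M a p := by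
  obtain ⟨L, d, e⟩ := hd_rd (DI_ne h hp)
  have V0 := (pV_pos hp).ne'
  rw [show fderiv ℝ (pU M a) p = _ from ((d.sub_const (rp M a)).neg.mul
    ((hasDerivAt_inv V0).comp_hasFDerivAt p (at_df (s_pV h hp)).hasFDerivAt)).fderiv]
  simp [e, fd_pV h hp]
  field_simp
  ring

theorem fd_pc (hp : p ∈ DI M a) (v : R4) : fderiv ℝ (pc M a) p v =
    a / rp M a / (rd p - rm M a) * dr p v - Oh M a * v.1 := by
  obtain ⟨L, d, e⟩ := hd_rd (DI_ne h hp)
  rw [show fderiv ℝ (pc M a) p = _ from ((((d.sub_const (rm M a)).log (sub_pos.2 hp).ne').const_mul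
    (a / rp M a)).sub (hasFDerivAt_fst.const_mul (Oh M a))).fderiv]
  simp [e]
  ring

/-- The principal null forms in the ingoing chart. -/
theorem kap_forms (hp : p ∈ DI M a) (v : R4) :
    kl M a (kap M a p) (fderiv ℝ (kap M a) p v) =
      (Del M a (rd p) * kf a p v - 2 * Sg a (rd p) (xs p) * dr p v) / pV M a p ∧
    kn M a (kap M a p) (fderiv ℝ (kap M a) p v) = pV M a p * (rd p - rm M a) * kf a p v ∧
    kG M a (kap M a p) (fderiv ℝ (kap M a) p v) + Sg a (rd p) (xs p) * fderiv ℝ (pc M a) p v =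
      -(a * kf a p v) := by
  obtain ⟨e1, e2, e3, e4, -⟩ := kp_forms h (s_pU h hp) (s_pV h hp) (s_pc h hp) (DI_ne h hp)
    (f := kap M a) rfl
  have V0 := (pV_pos hp).ne'
  have R0 : rd p - rm M a ≠ 0 := (sub_pos.2 hp).ne'
  have p0 := (rp_pos h).ne'
  have k0 := (ka_pos h).ne'
  have c1 := kN h
  have c2 := ON h
  have c3 := rp_rm h
  rw [div_eq_iff (mul_ne_zero two_ne_zero k0)] at c1
  simp only [kl, kn, kG, dQ_eq, cP, cE, cS, cw, e1, e2, e3, e4, kap_U h hp, kap_V h hp, kap_r h hp,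
    fd_pU h hp, fd_pV h hp, fd_pc h hp, Sg_eq, Del_eq h, pU, kf]
  generalize rd p = r at *
  generalize rp M a = P at *
  generalize rm M a = m at *
  generalize ka M a = k at *
  generalize Oh M a = O at *
  generalize pV M a p = V at *
  generalize zc (xs p) = z at *
  refine ⟨?_, ?_, ?_⟩ <;> field_simp <;> grind

theorem kap_S (hp : p ∈ DI M a) : cS M a (kap M a p) = Sg a (rd p) (xs p) := by
  rw [cS, kap_r h hp, Sg_eq, Sg_eq, (kp_forms h (s_pU h hp) (s_pV h hp) (s_pc h hp) (DI_ne h hp)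
    (f := kap M a) rfl).2.2.2.1]

theorem kap_gK (hp : p ∈ DI M a) (v w : R4) : gin M a p v w =
    gK M a (kap M a p) (fderiv ℝ (kap M a) p v) (fderiv ℝ (kap M a) p w) := by
  have S0 := (Sg_pos (a := a) (y := xs p) (rd_pos (DI_ne h hp))).ne'
  have V0 := (pV_pos hp).ne'
  have R0 : rd p - rm M a ≠ 0 := (sub_pos.2 hp).ne'
  rw [gK, kap_S h hp, (kp_forms h (s_pU h hp) (s_pV h hp) (s_pc h hp) (DI_ne h hp)
    (f := kap M a) rfl).2.2.2.2 _ S0, gin_nf (DI_ne h hp)]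
  refine (nf_scale (mul_ne_zero V0 R0) (fun v => ?_) (fun v => (kap_forms h hp v).2.1)
    fun v => (kap_forms h hp v).2.2).symm
  rw [(kap_forms h hp v).1, kap_r h hp]
  field_simp

theorem kap_pull : Pull (kap M a) (gin M a) (DI M a) (gK M a) (DK M a) :=
  pull_of open_DI open_DK (gin_met fun _ => DI_ne h) (gK_met h) (fun _ => s_kap h)
    (fun _ hp => (kap_mem h hp).1) fun _ => kap_gK h

/-! ### The reflection -/

theorem mir_forms (hp : xs p ≠ 0) (v w : R4) :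
    dU M a (mir M a p) (fderiv ℝ (mir M a) p v) = dV M a p v ∧
    dV M a (mir M a p) (fderiv ℝ (mir M a) p v) = dU M a p v ∧
    dq (mir M a p) (fderiv ℝ (mir M a) p v) = -dq p v ∧ zc (xs (mir M a p)) = zc (xs p) ∧
    rnd (xs (mir M a p)) (xs (fderiv ℝ (mir M a) p v)) (xs (fderiv ℝ (mir M a) p w)) =
      rnd (xs p) (xs v) (xs w) := by
  have f0 := mir_ne h hp
  have ev := open_ne.mem_nhds hp
  have r0 := rd_pos hp
  have b0 := dis_pos h
  obtain ⟨L, d, e⟩ := hd_rd hp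
  have x0 := hasFDerivAt_snd (𝕜 := ℝ) (p := p)
  have d1 := ((hasDerivAt_inv (show 4 * rd p ^ 2 ≠ 0 by positivity)).comp_hasFDerivAt p
    ((d.pow 2).const_mul 4)).const_mul (M ^ 2 - a ^ 2)
  have d2 : ∀ v, fderiv ℝ (mir M a) p v = (v.1, ((M ^ 2 - a ^ 2) / (4 * rd p ^ 2)) •
      (v.2.1 - 2 * dT (xs p) (xs v) * p.2.1, -(v.2.2.1 - 2 * dT (xs p) (xs v) * p.2.2.1),
        v.2.2.2 - 2 * dT (xs p) (xs v) * p.2.2.2)) := fun v => by
    rw [show fderiv ℝ (mir M a) p = _ from (hasFDerivAt_fst.prodMk ((d1.mul x0.fst).prodMk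
      ((d1.mul x0.snd.fst.neg).prodMk (d1.mul x0.snd.snd)))).fderiv]
    simp [e, dr]
    refine ⟨?_, ?_, ?_⟩ <;> field_simp <;> ring
  have k := rd_sq p
  refine ⟨?_, ?_, ?_, ?_, ?_⟩
  · rw [← fd_kU f0, ← fd_kV hp]
    exact fd_cp (f := mir M a) (s_kU contDiffAt_id f0) (s_mir hp)
      (mem_of_superset ev fun x hx => mir_U h hx) v
  · rw [← fd_kV f0, ← fd_kU hp]
    exact fd_cp (f := mir M a) (s_kV contDiffAt_id f0) (s_mir hp)
      (mem_of_superset ev fun x hx => mir_V h hx) v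
  · simp only [dq_c, mir_rd h hp, d2]
    simp only [mir_c, Prod.smul_mk, smul_eq_mul]
    field_simp
    ring
  · simp only [zc_c, mir_rd h hp]
    simp only [mir_c]
    field_simp
  · simp only [rnd_c, dT_c, mir_rd h hp, d2]
    simp only [mir_c, Prod.smul_mk, smul_eq_mul]
    generalize rd p = r at *
    field_simp
    grind

theorem mir_mem (hp : p ∈ DK M a) : mir M a p ∈ DK M a :=
  ⟨mir_ne h hp.1, by rw [mir_r h hp.1]; exact hp.2⟩

theorem mir_kl (hp : xs p ≠ 0) (v : R4) :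
    kl M a (mir M a p) (fderiv ℝ (mir M a) p v) = kn M a p v ∧
    kn M a (mir M a p) (fderiv ℝ (mir M a) p v) = kl M a p v ∧
    kG M a (mir M a p) (fderiv ℝ (mir M a) p v) = -kG M a p v ∧ cS M a (mir M a p) = cS M a p := by
  obtain ⟨e1, e2, e3, e4, -⟩ := mir_forms h hp v v
  simp only [kl, kn, kG, dQ_eq, cP, cE, cS, cw, e1, e2, e3, e4, mir_U h hp, mir_V h hp, mir_r h hp,
    Sg_eq, and_true]
  refine ⟨?_, ?_, ?_⟩ <;> ring

theorem mir_gK (hp : xs p ≠ 0) (v w : R4) : gK M a p v w =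
    gK M a (mir M a p) (fderiv ℝ (mir M a) p v) (fderiv ℝ (mir M a) p w) := by
  simp only [gK, nf, (mir_kl h hp _).1, (mir_kl h hp _).2.1, (mir_kl h hp _).2.2.1,
    (mir_kl h hp v).2.2.2, mir_r h hp, (mir_forms h hp v w).2.2.2.2, (mir_forms h hp v w).2.2.2.1,
    (mir_forms h hp _ w).2.2.1]
  ring

theorem mir_pull : Pull (mir M a) (gK M a) (DK M a) (gK M a) (DK M a) :=
  pull_of open_DK open_DK (gK_met h) (gK_met h) (fun _ hp => s_mir hp.1) (fun _ => mir_mem h)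
    fun _ hp => mir_gK h hp.1
end

end Vale.Agent.P354YR
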