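import Vale.Agent.P354YR.W1n
import Vale.Agent.P354NK.W2

/-!
The properties of the initial velocity.
-/

namespace Vale.Agent.P354YR

open Vale.Agent.P354YA Vale.Agent.P354NK

/-- **NW.** -/
theorem nw (F : NF) : NW := fun _ h =>
  ⟨w_opn h.1, w_sm h.1, w_kerr F h, fun _ _ _ _ _ P L _ hp hs hd e =>
    w_nat F.2.2.1 F.2.2.2.1 h.1 P L hp hs hd e, w_far h, w_nul F h, w_near F h⟩

end Vale.Agent.P354YR
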