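import Vale.Agent.P354SA.FD
import Vale.Agent.P354LF.Hj

/-!
RPF: pointwise identities for the metric in the chart of the rays.
-/

open scoped ContDiff
open Set Filter Topology

noncomputable section

namespace Vale.Agent.P354YR.Rp

open Vale.Agent.P354n (R4)
open Vale.Agent.P354RC (B2)
open Vale.Agent.P354XE (Tw pb)
open Vale.Agent.P354YQ (SA)
open Vale.Agent.P354SA Vale.Agent.P354LF

/-- The angles, the momenta, the derivatives of the angles, and the inverse matrix. -/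
def c2 (b : Fin 2) (y : Y2) : ℝ := ![y.1, y.2] b
def hη (Y : R4 → E5) (b : Fin 2) (x : R4) : ℝ := c2 b (Y x).2.1
def hp (Y : R4 → E5) (b : Fin 2) (x : R4) : ℝ := c2 b (Y x).2.2
def Jm (Y : R4 → E5) (a b : Fin 2) : R4 → ℝ := dv (ey a) (hη Y b)
def um (Y : R4 → E5) (b : Fin 2) : R4 → ℝ := dv e1 (hη Y b)
def De (Y : R4 → E5) (x : R4) : ℝ := Jm Y 0 0 x * Jm Y 1 1 x - Jm Y 0 1 x * Jm Y 1 0 x
def Ad (Y : R4 → E5) (b a : Fin 2) (x : R4) : ℝ :=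
  ![![Jm Y 1 1 x, -Jm Y 0 1 x], ![-Jm Y 1 0 x, Jm Y 0 0 x]] b a
def Im (Y : R4 → E5) (b a : Fin 2) (x : R4) : ℝ := Ad Y b a x / De Y x

/-- The determinant of Gp, the vector Gp⁻¹ zt, and κ times this vector. -/
def dG (g : Tw) (q : Q6) : ℝ := Gp g 0 0 q * Gp g 1 1 q - Gp g 0 1 q ^ 2
def Zn (g : Tw) (b : Fin 2) (q : Q6) : ℝ :=
  ![Gp g 1 1 q * zt g 0 q - Gp g 0 1 q * zt g 1 q, Gp g 0 0 q * zt g 1 q - Gp g 0 1 q * zt g 0 q] b
def Zq (g : Tw) (b : Fin 2) (q : Q6) : ℝ := Zn g b q / dG g q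
def nq (g : Tw) (Y : R4 → E5) (b : Fin 2) (x : R4) : ℝ := kv Y e1 x * Zq g b (pq Y x)

variable {g : Tw} {Y : R4 → E5} {x w : R4} {h : B2}

theorem c2_cd (b : Fin 2) : ContDiff ℝ ∞ (c2 b) := by
  fin_cases b
  exacts [contDiff_fst, contDiff_snd]

theorem dv_hη (s : SA Y x) (b : Fin 2) (w : R4) :
    dv w (hη Y b) x = c2 b (fderiv ℝ Y x w).2.1 := by
  fin_cases b
  exacts [congrArg (· w) s.diff.hasFDerivAt.snd.fst.fst.fderiv,
    congrArg (· w) s.diff.hasFDerivAt.snd.fst.snd.fderiv]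

theorem sa_hη (s : SA Y x) (b : Fin 2) : SA (hη Y b) x :=
  s.mono fun _ k => (c2_cd b).contDiffAt.comp _ k.snd.fst

theorem T_x (s : SA Y x) (h0 : w.1 = 0) : fderiv ℝ (Ph Y) x w =
    kv Y w x • e1 + ∑ b, dv w (hη Y b) x • tv (Y x).2.2 b := by
  simp only [kv, xp_ap, dv_hη s, ph_fd s, h0]
  ext <;> simp [e1, tv, ey, c2, dot]
  ring

/-- The hypotheses at x. -/
structure Pt (g : Tw) (Y : R4 → E5) (x : R4) (h : B2) : Prop where
  sa : SA Y x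
  eq : ∀ u v, g (Ph Y x) u v = h u v
  sy : ∀ u v, h u v = h v u
  k0 : ∀ a, kv Y (ey a) x = 0
  W : fderiv ℝ (Ph Y) x e0 = Wv g (pq Y x)
  gW : ∀ v, h (Wv g (pq Y x)) v = cc g (pq Y x) * (xp (Y x).2.2 v - Hm g (pq Y x) * v.1)
  W1 : (Wv g (pq Y x)).1 = 1 ∧ xp (Y x).2.2 (Wv g (pq Y x)) = Hm g (pq Y x)
  De : De Y x ≠ 0
  dG : dG g (pq Y x) ≠ 0
  κ : kv Y e1 x ≠ 0
  c : cc g (pq Y x) ≠ 0

namespace Pt
variable (k : Pt g Y x h)
include k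

theorem T_ey (a : Fin 2) : fderiv ℝ (Ph Y) x (ey a) = ∑ b, Jm Y a b x • tv (Y x).2.2 b := by
  rw [T_x k.sa (by fin_cases a <;> rfl), k.k0, zero_smul, zero_add]; rfl

theorem T_e1 : fderiv ℝ (Ph Y) x e1 = kv Y e1 x • e1 + ∑ b, um Y b x • tv (Y x).2.2 b :=
  T_x k.sa rfl

theorem W_tv (b : Fin 2) : h (Wv g (pq Y x)) (tv (Y x).2.2 b) = 0 := by
  rw [k.gW, xp_ap]; fin_cases b <;> simp [tv, ey, e1, dot]

theorem W_e1 : h (Wv g (pq Y x)) e1 = cc g (pq Y x) := by rw [k.gW, xp_ap]; simp [e1, dot]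

theorem G_eq (a b : Fin 2) : h (tv (Y x).2.2 a) (tv (Y x).2.2 b) = Gp g a b (pq Y x) :=
  (k.eq ..).symm

theorem z_eq (a : Fin 2) : h e1 (tv (Y x).2.2 a) = zt g a (pq Y x) := (k.eq ..).symm

theorem G_sy : Gp g 1 0 (pq Y x) = Gp g 0 1 (pq Y x) := by rw [← k.G_eq, k.sy, k.G_eq]

theorem Om_eq : Om (pb (Ph Y) g) x = cc g (pq Y x) * kv Y e1 x := by
  simp only [Om, pb, k.eq, k.W, k.T_e1, map_add, map_sum, map_smul, k.W_tv, k.W_e1, smul_eq_mul]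
  simp [mul_comm]

theorem gm_eq (a b : Fin 2) : gm (pb (Ph Y) g) a b x =
    ∑ c, ∑ d, Jm Y a c x * Jm Y b d x * Gp g c d (pq Y x) := by
  simp only [gm, pb, k.eq, k.T_ey, Fin.sum_univ_two, map_add, map_smul, add_apply, smul_apply,
    k.G_eq, smul_eq_mul]
  ring

theorem dg_eq : dg (pb (Ph Y) g) x = Rp.De Y x ^ 2 * Rp.dG g (pq Y x) := by
  simp only [dg, k.gm_eq, Fin.sum_univ_two, k.G_sy, Rp.De, Rp.dG]
  ring

theorem e1y (b : Fin 2) : pb (Ph Y) g x e1 (ey b) = ∑ d, Jm Y b d x *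
    (kv Y e1 x * zt g d (pq Y x) + ∑ c, um Y c x * Gp g c d (pq Y x)) := by
  simp only [pb, k.eq, k.T_ey, k.T_e1, Fin.sum_univ_two, map_add, map_smul, add_apply, smul_apply,
    k.G_eq, k.z_eq, smul_eq_mul]

theorem a1_eq (a : Fin 2) :
    a1 (pb (Ph Y) g) a x = ∑ b, (um Y b x + nq g Y b x) * Im Y b a x := by
  have := k.De
  have := k.dG
  simp only [a1, gi, k.dg_eq, k.e1y, k.gm_eq, Fin.sum_univ_two, k.G_sy, nq, Zq, Zn, Im, Ad]
  fin_cases a <;> simp <;> field_simp <;> simp only [Rp.De, Rp.dG] <;> ring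

theorem a1_J (c : Fin 2) :
    ∑ a, a1 (pb (Ph Y) g) a x * Jm Y a c x = um Y c x + nq g Y c x := by
  have := k.De
  simp only [k.a1_eq, Fin.sum_univ_two, Im, Ad]
  fin_cases c <;> simp <;> field_simp <;> simp only [Rp.De] <;> ring

theorem a0_eq : a0 (pb (Ph Y) g) x = kv Y e1 x * (∑ b, Zq g b (pq Y x) * zt g b (pq Y x) -
    g (pq Y x).1 e1 e1) * (cc g (pq Y x))⁻¹ / 2 := by
  have := k.dG
  have := k.κ
  have := k.c
  have e : ∑ a, a1 (pb (Ph Y) g) a x * pb (Ph Y) g x e1 (ey a) = ∑ d, (um Y d x + nq g Y d x) *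
      (kv Y e1 x * zt g d (pq Y x) + ∑ c, um Y c x * Gp g c d (pq Y x)) := by
    simp only [← k.a1_J, k.e1y, Fin.sum_univ_two]; ring
  rw [a0, e, k.Om_eq, show g (pq Y x).1 e1 e1 = h e1 e1 from k.eq ..]
  simp only [pb, k.eq, k.T_e1, Fin.sum_univ_two, map_add, map_smul, add_apply, smul_apply,
    k.G_eq, k.z_eq, k.sy (tv _ _) e1, smul_eq_mul, k.G_sy, nq, Zq, Zn, Matrix.cons_val_zero,
    Matrix.cons_val_one]
  field_simp
  simp only [Rp.dG]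
  ring

theorem T_lh : fderiv ℝ (Ph Y) x (lh (pb (Ph Y) g) x) = a0 (pb (Ph Y) g) x • Wv g (pq Y x) +
    kv Y e1 x • e1 + ∑ b, (-nq g Y b x) • tv (Y x).2.2 b := by
  have l : lh (pb (Ph Y) g) x = a0 (pb (Ph Y) g) x • e0 + e1 +
      ∑ a, (-a1 (pb (Ph Y) g) a x) • ey a := by ext <;> simp [lh, e0, e1, ey]
  have := k.a1_J 0
  have := k.a1_J 1
  simp only [l, map_add, map_smul, k.W, k.T_e1, k.T_ey, Fin.sum_univ_two] at *
  match_scalars <;> linarith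

theorem lr_eq : lr g Y x = kv Y e1 x - ∑ b, nq g Y b x * hp Y b x := by
  simp [lr, k.T_lh, e1, tv, ey, hp, c2]
  ring

theorem Wr_eq : (Wv g (pq Y x)).2.1 =
    Hm g (pq Y x) + ∑ b, hp Y b x * c2 b (Wv g (pq Y x)).2.2 := by
  simp [← k.W1.2, xp_ap, dot, hp, c2]

theorem inj : Function.Injective (fderiv ℝ (Ph Y) x) := by
  refine (injective_iff_map_eq_zero _).2 fun w e => ?_
  have l : w = w.1 • e0 + w.2.1 • e1 + ∑ a, c2 a w.2.2 • ey a := by ext <;> simp [c2, e0, e1, ey]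
  have h0 : w.1 = 0 := by simpa [ph_fd k.sa] using congrArg Prod.fst e
  rw [l, h0] at e
  simp only [map_add, map_smul, k.T_e1, k.T_ey, Fin.sum_univ_two, zero_smul, zero_add] at e
  have h1 : w.2.1 = 0 := by
    simpa [k.W_tv, k.W_e1, k.κ, k.c] using congrArg (h (Wv g (pq Y x))) e
  have e2 := congrArg (fun v : R4 => v.2.2) e
  simp [h1, tv, ey, e1, c2] at e2
  refine Prod.ext h0 (Prod.ext h1 (Prod.ext (mul_left_cancel₀ k.De ?_) (mul_left_cancel₀ k.De ?_)))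
  · simp only [Rp.De, Prod.snd_zero, Prod.fst_zero]
    linear_combination Jm Y 1 1 x * e2.1 - Jm Y 1 0 x * e2.2
  · simp only [Rp.De, Prod.snd_zero]
    linear_combination Jm Y 0 0 x * e2.2 - Jm Y 0 1 x * e2.1

end Pt

end Vale.Agent.P354YR.Rp
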