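import Vale.Agent.P354YR.Rp1
import Vale.Agent.P354YR.Geo2
import Vale.Agent.P354YR.Geo3

/-!
RPF: identities for the derivatives.
-/

open scoped ContDiff
open Set Filter Topology

noncomputable section

namespace Vale.Agent.P354YR.Rp

open Vale.Agent.P354n (R4)
open Vale.Agent.P354R (Met Pull)
open Vale.Agent.P354RC (B2 at_fd at_df fd_ap0 sym2 rp_pb Rm_pb Rm)
open Vale.Agent.P354XD (tb rp_tb)
open Vale.Agent.P354XE (Tw pb)
open Vale.Agent.P354XM (ml_Rm)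
open Vale.Agent.P354YQ (SA)
open Vale.Agent.P354SA Vale.Agent.P354LF
open Geo (dv_mul dv_add dv_congr rm_ev)

variable {g : Tw} {Y : R4 → E5} {x w : R4} {h : B2} {F : R4 → ℝ} {f : Q6 → ℝ} {D : Set R4}

theorem sa_dv (s : SA F x) (v : R4) : SA (dv v F) x := s.fderiv.clm (ContinuousLinearMap.apply ℝ ℝ v)

theorem dv_sy (s : SA F x) (u w : R4) : dv u (dv w F) x = dv w (dv u F) x :=
  (fd_ap0 (at_fd s.at) ..).trans ((sym2 s.at ..).trans (fd_ap0 (at_fd s.at) ..).symm)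

theorem sa_mul {G : R4 → ℝ} (s : SA F x) (t : SA G x) : SA (fun y => F y * G y) x :=
  (s.and t).mono fun _ k => k.1.mul k.2

theorem chain (s : SA Y x) (d : DifferentiableAt ℝ f (pq Y x)) (w : R4) :
    dv w (fun y => f (pq Y y)) x =
      fderiv ℝ f (pq Y x) (fderiv ℝ (Ph Y) x w, (fderiv ℝ Y x w).2.2) := by
  rw [dv, fderiv_fun_comp x d (sa_pq s).diff, show fderiv ℝ (pq Y) x = _ from
    ((sa_ph s).diff.hasFDerivAt.prodMk s.diff.hasFDerivAt.snd.snd).fderiv]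
  rfl

theorem kv_sy (s : SA Y x) (u w : R4) : dv u (kv Y w) x - dv w (kv Y u) x =
    dot (fderiv ℝ Y x w).2.2 (fderiv ℝ (Ph Y) x u).2.2 -
      dot (fderiv ℝ Y x u).2.2 (fderiv ℝ (Ph Y) x w).2.2 := by
  have a := at_fd (sa_ph s).at
  have := fun u w => xp_fd s.diff.hasFDerivAt.snd.snd
    (at_df (a.clm_apply (contDiffAt_const (c := w)))).hasFDerivAt u
  simp only [fd_ap0 a] at this
  rw [dv, dv]
  unfold kv
  rw [this, this, sym2 (sa_ph s).at u w]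
  exact sub_sub_sub_cancel_left ..

/-- Derivatives in r, in p and in s; the transversal derivative D1. -/
def ep : Fin 2 → Y2 := ![(1, 0), (0, 1)]
def dr (f : Q6 → ℝ) (q : Q6) : ℝ := fderiv ℝ f q (e1, 0)
def dp (c : Fin 2) (f : Q6 → ℝ) (q : Q6) : ℝ := fderiv ℝ f q (0, ep c)
def n1 (g : Tw) (Y : R4 → E5) (a : Fin 2) (x : R4) : ℝ := ∑ b, nq g Y b x * Im Y b a x
def V1 (g : Tw) (Y : R4 → E5) (x : R4) : R4 := e1 + ∑ a, (-a1 (pb (Ph Y) g) a x) • ey a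
def D1 (g : Tw) (Y : R4 → E5) (f : Q6 → ℝ) (x : R4) : ℝ := kv Y e1 x * dr f (pq Y x) +
  ∑ c, (∑ a, Im Y c a x * dv (ey a) (kv Y e1) x) * dp c f (pq Y x) -
  ∑ a, n1 g Y a x * dv (ey a) (fun y => f (pq Y y)) x

/-- The hypotheses near x. -/
def Gd (g : Tw) (Y : R4 → E5) (x : R4) : Prop := ∀ᶠ y in 𝓝 x, ∃ h, Pt g Y y h

namespace Gd
variable (k : Gd g Y x)
include k

theorem D_eq (d : DifferentiableAt ℝ f (pq Y x)) :
    dv (V1 g Y x) (fun y => f (pq Y y)) x = D1 g Y f x := by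
  obtain ⟨h, p⟩ := k.self_of_nhds
  have z : ∀ a w, dv w (kv Y (ey a)) x = 0 := fun a w => by
    rw [dv, EventuallyEq.fderiv_eq (f := fun _ => 0) (k.mono fun _ ⟨_, p⟩ => p.k0 a)]; simp
  have s1 := fun a => kv_sy p.sa (ey a) e1
  have s2 := kv_sy p.sa (ey 0) (ey 1)
  have n := p.De
  set Vn : R4 := e1 + ∑ a, (-∑ b, um Y b x * Im Y b a x) • ey a with hV
  have v : V1 g Y x = Vn + ∑ a, (-n1 g Y a x) • ey a := by
    simp only [V1, hV, p.a1_eq, n1, Fin.sum_univ_two]; match_scalars <;> ring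
  have t : fderiv ℝ (Ph Y) x Vn = kv Y e1 x • e1 := by
    simp only [hV, map_add, map_smul, p.T_e1, p.T_ey, Fin.sum_univ_two, Im, Ad]
    match_scalars <;> simp <;> field_simp <;> simp only [De] <;> ring
  have π : (fderiv ℝ Y x Vn).2.2 = ∑ c, (∑ a, Im Y c a x * dv (ey a) (kv Y e1) x) • ep c := by
    simp only [z, sub_zero, p.T_e1, p.T_ey] at s1 s2
    simp only [hV, map_add, map_smul, s1, Fin.sum_univ_two, Im, Ad]
    simp [dot, tv, ey, e1] at s2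
    ext <;> simp [dot, tv, ey, e1, ep] <;> field_simp <;> simp only [De]
    · linear_combination um Y 1 x * s2
    · linear_combination -um Y 0 x * s2
  have c := chain p.sa d Vn
  rw [t, π, show ((kv Y e1 x • e1, ∑ c, (∑ a, Im Y c a x * dv (ey a) (kv Y e1) x) • ep c) : Q6) =
    kv Y e1 x • (e1, 0) + ∑ c, (∑ a, Im Y c a x * dv (ey a) (kv Y e1) x) • (0, ep c) by
      simp [Fin.sum_univ_two]] at c
  rw [D1, v, dv, map_add, ← dv, c]
  simp only [map_add, map_smul, dr, dp, dv, smul_eq_mul, Fin.sum_univ_two]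
  ring

variable (sa : ∀ a, SA (a1 (pb (Ph Y) g) a) x) (sn : ∀ c, SA (nq g Y c) x)
include sa sn

theorem d_a1 (w : R4) (c : Fin 2) : ∑ e, dv w (a1 (pb (Ph Y) g) e) x * Jm Y e c x =
    dv (V1 g Y x) (dv w (hη Y c)) x + dv w (nq g Y c) x := by
  obtain ⟨h, p⟩ := k.self_of_nhds
  have s := sa_hη p.sa c
  have e : (fun y => a1 (pb (Ph Y) g) 0 y * Jm Y 0 c y + a1 (pb (Ph Y) g) 1 y * Jm Y 1 c y) =ᶠ[𝓝 x]
      fun y => um Y c y + nq g Y c y := k.mono fun _ ⟨_, p⟩ => by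
    simpa only [Fin.sum_univ_two] using p.a1_J c
  have h1 := (dv_congr (v := w) e).self_of_nhds
  simp only [Jm, um] at h1
  rw [(dv_add (sa_mul (sa 0) (sa_dv s _)) (sa_mul (sa 1) (sa_dv s _))).self_of_nhds,
    (dv_add (sa_dv s _) (sn c)).self_of_nhds] at h1
  simp only [(dv_mul (sa _) (sa_dv s _)).self_of_nhds, dv_sy s w] at h1
  rw [V1, dv]
  simp only [map_add, map_smul, Fin.sum_univ_two, smul_eq_mul, Jm]
  simp only [dv] at h1 ⊢
  linarith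

theorem d1_eq (a : Fin 2) {W : Fin 2 → Q6 → ℝ} (d : ∀ c, DifferentiableAt ℝ (W c) (pq Y x))
    (e : ∀ c, dv e0 (hη Y c) =ᶠ[𝓝 x] fun y => W c (pq Y y)) : dv e0 (a1 (pb (Ph Y) g) a) x =
      ∑ c, (D1 g Y (W c) x + dv e0 (nq g Y c) x) * Im Y c a x := by
  obtain ⟨h, p⟩ := k.self_of_nhds
  have n := p.De
  simp only [← k.D_eq (d _), ← (dv_congr (e _)).self_of_nhds, ← k.d_a1 sa sn, Fin.sum_univ_two,
    Im, Ad]
  fin_cases a <;> simp <;> field_simp <;> simp only [De] <;> ring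

theorem lie_eq (sG : ∀ c d, SA (Gp g c d) (pq Y x)) (a b : Fin 2) :
    lie (pb (Ph Y) g) (lh (pb (Ph Y) g)) a b x =
      a0 (pb (Ph Y) g) x * dv e0 (gm (pb (Ph Y) g) a b) x +
      ∑ c, ∑ d, Jm Y a c x * Jm Y b d x * D1 g Y (Gp g c d) x -
      ∑ c, ∑ d, (dv (ey a) (nq g Y c) x * Jm Y b d x + Jm Y a c x * dv (ey b) (nq g Y d) x) *
        Gp g c d (pq Y x) := by
  obtain ⟨h, p⟩ := k.self_of_nhds
  have sJ : ∀ a c, SA (Jm Y a c) x := fun a c => sa_dv (sa_hη p.sa c) (ey a)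
  have sq := fun c d => (sG c d).comp (sa_pq p.sa)
  have l : lh (pb (Ph Y) g) x = a0 (pb (Ph Y) g) x • e0 + V1 g Y x := by
    ext <;> simp [lh, e0, e1, ey, V1]
  have e3 : ∀ c d, dv (ey d) (fun x => yc c (lh (pb (Ph Y) g) x)) x =
      -dv (ey d) (a1 (pb (Ph Y) g) c) x := fun c d => by
    have : (fun x => yc c (lh (pb (Ph Y) g) x)) = fun x => -a1 (pb (Ph Y) g) c x := by
      fin_cases c <;> rfl
    rw [this, dv, fderiv_fun_neg]; rfl
  have m := fun c d => sa_mul (sa_mul (sJ a c) (sJ b d)) (sq c d)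
  have e : gm (pb (Ph Y) g) a b =ᶠ[𝓝 x] fun y => (_ + _) + (_ + _) := k.mono fun y ⟨_, p⟩ => by
    simpa only [Fin.sum_univ_two] using p.gm_eq a b
  have h1 := (dv_congr (v := V1 g Y x) e).self_of_nhds
  rw [(dv_add ((m 0 0).add (m 0 1)) ((m 1 0).add (m 1 1))).self_of_nhds] at h1
  simp only [(dv_add (m _ _) (m _ _)).self_of_nhds, (dv_mul (sa_mul (sJ _ _) (sJ _ _))
    (sq _ _)).self_of_nhds, (dv_mul (sJ _ _) (sJ _ _)).self_of_nhds, k.D_eq (sG _ _).diff,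
    fun a c => show dv (V1 g Y x) (Jm Y a c) x = _ from
      (sub_eq_iff_eq_add.2 (k.d_a1 sa sn (ey a) c)).symm] at h1
  rw [lie, l, map_add, map_smul, ← dv, ← dv, h1]
  simp only [e3, p.gm_eq, Fin.sum_univ_two, smul_eq_mul, p.G_sy]
  ring

end Gd

/-- The frame of the rays in terms of the frame fq. -/
def cf (g : Tw) (Y : R4 → E5) (r : ℝ) (i a : Fin 4) (x : R4) : ℝ :=
  ![![kv Y e1 x, a0 (pb (Ph Y) g) x, -1 * ((Y x).1 * nq g Y 0 x), -1 * ((Y x).1 * nq g Y 1 x)],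
    ![0, 1, 0, 0], ![0, 0, r⁻¹ * (Y x).1 * Jm Y 0 0 x, r⁻¹ * (Y x).1 * Jm Y 0 1 x],
    ![0, 0, r⁻¹ * (Y x).1 * Jm Y 1 0 x, r⁻¹ * (Y x).1 * Jm Y 1 1 x]] i a

theorem Pt.T_fv (k : Pt g Y x h) (r0 : (Y x).1 ≠ 0) (r : ℝ) (i : Fin 4) :
    fderiv ℝ (Ph Y) x (fv (lh (pb (Ph Y) g)) e0 r x i) = ∑ a, cf g Y r i a x • fq g (pq Y x) a := by
  have := k.T_lh
  have := k.W
  have := k.T_ey
  have e : (pq Y x).1.2.1 = (Y x).1 ∧ (pq Y x).2 = (Y x).2.2 := ⟨rfl, rfl⟩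
  fin_cases i <;> simp only [fv, cf, fq, Fin.sum_univ_four, Fin.sum_univ_two, map_smul, smul_smul,
    Fin.zero_eta, Fin.mk_one, Fin.reduceFinMk, Matrix.cons_val, zero_mul, *] <;>
    match_scalars <;> field_simp

theorem rie_eq {O : Set R4} (P : Pull (Ph Y) (pb (Ph Y) g) O g D) (hx : x ∈ O) (k : Pt g Y x h)
    (r0 : (Y x).1 ≠ 0) (r : ℝ) (i j u w : Fin 4) :
    rie (pb (Ph Y) g) (fv (lh (pb (Ph Y) g)) e0 r) i j u w x =
      ∑ a, cf g Y r i a x * ∑ b, cf g Y r j b x * ∑ c, cf g Y r u c x * ∑ d, cf g Y r w d x *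
        Rm (tb g) (pq Y x).1 (fq g (pq Y x) a) (fq g (pq Y x) b) (fq g (pq Y x) c)
          (fq g (pq Y x) d) := by
  have a := rp_tb P.isOpen P.met
  have y := rp_pb P a
  have ev : tb (pb (Ph Y) g) =ᶠ[𝓝 x] P354RC.pb (tb g) (Ph Y) := by
    filter_upwards [P.open'.mem_nhds hx] with z hz
    exact ContinuousLinearMap.ext fun a => ContinuousLinearMap.ext fun b =>
      ((rp_tb P.open' y.met).eq z hz a b).symm.trans (y.eq z hz a b)
  rw [rie, rm_ev ev, Rm_pb P a hx]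
  simp only [k.T_fv r0]
  exact (ml_Rm _ _).sum ..

end Vale.Agent.P354YR.Rp
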