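import Vale.Agent.P354YR.Rp2

/-!
RPF: the family of all data, and the basic bounds.
-/

open scoped ContDiff Nat
open Set Filter Topology

noncomputable section

namespace Vale.Agent.P354YR.Rp

open Vale.Agent.P354n (R4)
open Vale.Agent.P354R (Met Pull)
open Vale.Agent.P354XD (tb rp_tb)
open Vale.Agent.P354XE (Tw pb)
open Vale.Agent.P354YQ (SA JB JD)
open Vale.Agent.P354SA Vale.Agent.P354LF
open Geo (Kc dL dl_zero dv_mul dv_add dv_congr)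
open ContinuousLinearMap (fst snd)

/-- The linear part of dq. -/
def dQ (l r : ℝ) : Q6 →L[ℝ] Q6 :=
  (((l • fst ℝ ℝ _).prod (((r • fst ℝ ℝ _).prod (snd ℝ ℝ _)).comp (snd ℝ ℝ _))).comp
    (fst ℝ R4 Y2)).prod (r • snd ℝ R4 Y2)

theorem dq_eq (l : ℝ) (q ξ : Q6) : dq l q ξ = q + dQ l q.1.2.1 ξ := rfl

theorem cs_sa {k : ℕ} {l c : ℝ} {f : Q6 → ℝ} {q : Q6} (h : Cs k l f q c) (hl : l ≠ 0)
    (hr : q.1.2.1 ≠ 0) : SA f q := by
  have s : SA (fun x => dQ l⁻¹ q.1.2.1⁻¹ (x - q)) q :=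
    SA.of ((dQ _ _).contDiff.comp (contDiff_id.sub contDiff_const))
  refine (SA.comp (u := fun ξ => f (dq l q ξ)) (by simpa using h.sm) s).congr
    (.of_forall fun x => congrArg f ?_)
  ext <;> simp [dq, dQ, hl, hr, smul_smul]

/-- The data and the hypotheses of RPF. -/
structure Dt (n : ℕ) (K B : ℝ) where
  (m l r' m' : ℝ)
  g : Tw
  D : Set R4
  Y : R4 → E5
  z : R4
  K1 : 1 ≤ K
  B1 : 1 ≤ B
  lc : Lc K m l g D Y z
  jn : Jn (n + 1) K l Y z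
  fp : Fp (n + 2) B m l g (pq Y z)
  r2 : (Y z).1 ≤ K * r'
  r3 : r' ≤ K * (Y z).1
  m1 : m ≤ K * m'

variable {n k : ℕ} {K B : ℝ}

namespace Dt
variable (j : Dt n K B)

abbrev r : ℝ := (j.Y j.z).1
abbrev h : Tw := pb (Ph j.Y) j.g
theorem r1 : 1 ≤ j.r := j.lc.par.1
theorem r0 : 0 < j.r := zero_lt_one.trans_le j.r1
theorem K0 (j : Dt n K B) : 0 < K := zero_lt_one.trans_le j.K1
theorem r0' : 0 < j.r' := pos_of_mul_pos_right (j.r0.trans_le j.r2) j.K0.le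
theorem m0 : 0 < j.m := (inv_pos.2 j.r0).trans_le j.lc.par.2.1
theorem m0' : 0 < j.m' := pos_of_mul_pos_right (j.m0.trans_le j.m1) j.K0.le
theorem l0 : 0 < j.l := zero_lt_one.trans_le j.lc.par.2.2.1
theorem mK : j.m ≤ K * 1 :=
  ((le_mul_of_one_le_left j.m0.le j.lc.par.2.2.1).trans j.lc.par.2.2.2.1).trans_eq (mul_one _).symm
theorem sa : SA j.Y j.z := j.lc.sol.self_of_nhds.1.sm

theorem de_ge : (K ^ 4)⁻¹ ≤ De j.Y j.z * De j.Y j.z := by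
  have e : ∀ y : Y2, dη j.Y j.z y = (y.1 * Jm j.Y 0 0 j.z + y.2 * Jm j.Y 1 0 j.z,
      y.1 * Jm j.Y 0 1 j.z + y.2 * Jm j.Y 1 1 j.z) := fun y => by
    rw [dη, show ((0, 0, y) : R4) = y.1 • ey 0 + y.2 • ey 1 by simp [ey], map_add, map_smul, map_smul]
    ext <;> simp [ph_fd j.sa, Jm, dv_hη j.sa, c2]
  have h1 := j.lc.inv (Jm j.Y 1 1 j.z, -Jm j.Y 0 1 j.z)
  have h2 := j.lc.inv (-Jm j.Y 1 0 j.z, Jm j.Y 0 0 j.z)
  have h3 := e _ ▸ j.lc.inv (1, 0)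
  rw [show dη _ _ _ = (De j.Y j.z, 0) by rw [e, De]; ext <;> simp only <;> ring] at h1
  rw [show dη _ _ _ = (0, De j.Y j.z) by rw [e, De]; ext <;> simp only <;> ring] at h2
  simp [Prod.norm_def] at h1 h2 h3
  have h4 := h3.trans (mul_le_mul_of_nonneg_left (max_le h2.2 h1.2) j.K0.le)
  rw [inv_le_iff_one_le_mul₀ (pow_pos j.K0 4), ← abs_mul_abs_self]
  nlinarith

end Dt

/-- The classes at z and at the phase point. -/
abbrev Kz (k : ℕ) (F : Dt n K B → R4 → ℝ) (μ : Dt n K B → ℝ) : Prop :=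
  Kc k (fun j => j.l) (fun _ => 1) (fun j => j.z) F μ

structure Kp (k : ℕ) (f : Dt n K B → Q6 → ℝ) (μ : Dt n K B → ℝ) : Prop where
  nn : ∀ j, 0 ≤ μ j
  bd : ∃ C, ∀ j, Cs k j.l (f j) (pq j.Y j.z) (C * μ j)

variable {F G : Dt n K B → R4 → ℝ} {f : Dt n K B → Q6 → ℝ} {μ ν : Dt n K B → ℝ}

theorem ne_z (j : Dt n K B) : j.l ≠ 0 ∧ (1 : ℝ) ≠ 0 := ⟨j.l0.ne', one_ne_zero⟩
theorem one (_ : Dt n K B) : (0 : ℝ) ≤ 1 := zero_le_one
theorem ri (j : Dt n K B) : 0 ≤ j.r⁻¹ := (inv_pos.2 j.r0).le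

namespace Kp

theorem sa (h : Kp k f μ) (j : Dt n K B) : SA (f j) (pq j.Y j.z) :=
  let ⟨_, b⟩ := h.bd
  cs_sa (b j) j.l0.ne' j.r0.ne'

theorem ord (h : Kp (k + 1) f μ) : Kp k f μ :=
  let ⟨C, b⟩ := h.bd
  ⟨h.nn, C, fun j => JB.ord (b j) k.le_succ⟩

theorem d (h : Kp (k + 1) f μ) {v w : Q6} {c : Dt n K B → ℝ} (p : ∀ j, 0 ≤ c j)
    (e : ∀ j, v = c j • dQ j.l j.r w) :
    Kp k (fun j q => fderiv ℝ (f j) q v) fun j => c j * μ j := by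
  obtain ⟨C, b⟩ := h.bd
  refine ⟨fun j => mul_nonneg (p j) (h.nn j), ‖ContinuousLinearMap.apply ℝ ℝ w‖ * C, fun j => ?_⟩
  refine JB.congr (((b j).jd.fderiv.clm (c j • ContinuousLinearMap.apply ℝ ℝ w)).mono
    (le_of_eq (by rw [norm_smul, Real.norm_of_nonneg (p j)]; ring))) ?_
  have t : ∀ ξ, HasFDerivAt (dq j.l (pq j.Y j.z)) (dQ j.l j.r) ξ := fun ξ =>
    (dQ _ _).hasFDerivAt.const_add _
  filter_upwards [(t 0).continuousAt.eventually (by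
    rw [dq_eq, map_zero, add_zero]; exact (h.sa j).ev)] with ξ s
  rw [show fderiv ℝ (fun ξ => f j (dq j.l (pq j.Y j.z) ξ)) ξ = _ from
    (s.diff.hasFDerivAt.comp ξ (t ξ)).fderiv, e j, map_smul]
  rfl

theorem dr (h : Kp (k + 1) f μ) : Kp k (fun j => dr (f j)) fun j => j.r⁻¹ * μ j :=
  h.d (w := (e1, 0)) ri fun j => by ext <;> simp [dQ, e1, j.r0.ne']

theorem dp (h : Kp (k + 1) f μ) (c : Fin 2) : Kp k (fun j => dp c (f j)) fun j => j.r⁻¹ * μ j :=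
  h.d (w := (0, ep c)) ri fun j => by ext <;> simp [dQ, j.r0.ne']

theorem dy (h : Kp (k + 1) f μ) (c : Fin 2) : Kp k (fun j q => fderiv ℝ (f j) q (ey c, 0)) μ := by
  simpa only [one_mul] using h.d (v := (ey c, 0)) (w := (ey c, 0)) one fun j => by
    fin_cases c <;> simp [dQ, ey]

theorem z (h : Kp k f μ) (e : k ≤ n + 1) : Kz k (fun j x => f j (pq j.Y x)) μ := by
  obtain ⟨C, b⟩ := h.bd
  let A : R4 × E5 × ℝ →L[ℝ] Q6 := (((fst ℝ ℝ _).comp (fst ℝ R4 _)).prod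
    (((fst ℝ ℝ _).prod ((fst ℝ Y2 Y2).comp (snd ℝ ℝ _))).comp ((fst ℝ E5 ℝ).comp (snd ℝ R4 _)))).prod
      (((snd ℝ Y2 Y2).comp (snd ℝ ℝ _)).comp ((fst ℝ E5 ℝ).comp (snd ℝ R4 _)))
  refine .of (C := k ! * C * max 1 (‖A‖ * K) ^ k) ne_z h.nn fun j => ?_
  have d := (((JD.id.mono j.K1).prod ((JD.sub j.jn (JD.const (nz j.Y j.z j.z))).mono
    (add_zero K).le)).clm A).ord e
  refine ((JB.comp (u := fun ξ => f j (dq j.l (pq j.Y j.z) ξ)) (by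
    simpa only [dl_zero, sub_self, Prod.mk_zero_zero, map_zero, Cs] using b j)
    (d.mono (le_max_right 1 _)) (le_max_left _ _)).congr (.of_forall fun ξ =>
      congrArg (f j) ?_)).mono (le_of_eq (by ring))
  have := j.r0.ne'
  ext <;> simp [A, dq, pq, ph, nz, dl] <;> field_simp <;> ring

end Kp

theorem z_dv (h : Kz (k + 1) F μ) {v : R4} (e : v.1 = 0) : Kz k (fun j => dv v (F j)) μ :=
  (h.dv (w := v) one fun j => by ext <;> simp [dL, e]).eq fun _ => one_mul _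

theorem z_dy (h : Kz (k + 1) F μ) (a : Fin 2) : Kz k (fun j => dv (ey a) (F j)) μ :=
  z_dv h (by fin_cases a <;> rfl)

theorem z_ds (h : Kz (k + 1) F μ) : Kz k (fun j => dv e0 (F j)) μ :=
  (h.dv (w := e0) (fun j => (inv_pos.2 j.l0).le) fun j => by ext <;> simp [dL, e0, j.l0.ne']).wt
    (c := 1) h.nn fun j => mul_le_mul_of_nonneg_right (inv_le_one_of_one_le₀ j.lc.par.2.2.1) (h.nn j)

theorem st (L : E5 × ℝ →L[ℝ] ℝ) :
    Kz (n + 1) (fun (j : Dt n K B) x => L (nz j.Y j.z x) - L (nz j.Y j.z j.z)) fun _ => 1 :=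
  .of (C := ‖L‖ * K) ne_z one fun j => by
    simpa only [dl_zero, Cl, mul_one] using (JD.clm L j.jn).sub_const
      (mul_nonneg (norm_nonneg _) j.K0.le)

theorem st' (L : E5 × ℝ →L[ℝ] ℝ) (h : ∀ j : Dt n K B, |L (nz j.Y j.z j.z)| ≤ K * 1) :
    Kz (n + 1) (fun (j : Dt n K B) x => L (nz j.Y j.z x)) fun _ => 1 :=
  ((st L).add (.cst ne_z one h)).congr fun _ => .of_forall fun _ => (sub_add_cancel ..).symm

theorem z_κ : Kz (n + 1) (fun j : Dt n K B => kv j.Y e1) fun _ => 1 :=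
  st' (snd ℝ E5 ℝ) fun j => by
    rw [mul_one]; exact (abs_of_pos ((inv_pos.2 j.K0).trans_le j.lc.kap.1)).trans_le j.lc.kap.2

theorem z_ρ : Kz (n + 1) (fun (j : Dt n K B) x => (j.Y x).1) fun j => j.r :=
  (((st' ((fst ℝ ℝ _).comp (fst ℝ E5 ℝ)) fun j => by simp [nz, j.r0.ne', j.K1]).sm
    fun j => j.r0.le).eq fun _ => mul_one _).congr fun j => .of_forall fun x => by
      simp [nz, mul_div_cancel₀ _ j.r0.ne']

/-- The components. -/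
def cL (b : Fin 2) : Y2 →L[ℝ] ℝ := ![fst ℝ ℝ ℝ, snd ℝ ℝ ℝ] b
theorem cL_ap (b : Fin 2) (y : Y2) : cL b y = c2 b y := by fin_cases b <;> rfl

theorem z_p (b : Fin 2) : Kz (n + 1) (fun j : Dt n K B => hp j.Y b) fun j => j.r :=
  (((st' ((cL b).comp (((snd ℝ Y2 Y2).comp (snd ℝ ℝ _)).comp (fst ℝ E5 ℝ))) fun j => by
    have : |cL b (j.Y j.z).2.2| ≤ j.r := le_trans (by
      fin_cases b
      exacts [norm_fst_le (j.Y j.z).2.2, norm_snd_le (j.Y j.z).2.2]) j.lc.par.2.2.2.2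
    simpa [nz, abs_of_pos j.r0] using
      ((inv_mul_le_one₀ j.r0).2 this).trans j.K1).sm fun j => j.r0.le).eq
        fun _ => mul_one _).congr fun j => .of_forall fun x => by simp [nz, hp, cL_ap, j.r0.ne']

theorem z_η (b : Fin 2) {v : R4} (e : v.1 = 0) :
    Kz n (fun j : Dt n K B => dv v (hη j.Y b)) fun _ => 1 :=
  (z_dv (st ((cL b).comp (((fst ℝ Y2 Y2).comp (snd ℝ ℝ _)).comp (fst ℝ E5 ℝ)))) e).congr fun j =>
    .of_forall fun x => by simp only [dv, fderiv_sub_const]; simp [nz, cL_ap]; rfl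

theorem z_J (a b : Fin 2) : Kz n (fun j : Dt n K B => Jm j.Y a b) fun _ => 1 :=
  z_η b (by fin_cases a <;> rfl)

theorem z_De : Kz n (fun j : Dt n K B => De j.Y) fun _ => 1 :=
  ((z_J 0 0).mul1 (z_J 1 1)).sub ((z_J 0 1).mul1 (z_J 1 0))

theorem p_G (a b : Fin 2) : Kp (n + 2) (fun j : Dt n K B => Gp j.g a b) fun j => j.r ^ 2 :=
  ⟨fun _ => sq_nonneg _, B, fun j => (j.fp.G a b).1⟩

theorem z_G (a b : Fin 2) :
    Kz (n + 1) (fun (j : Dt n K B) x => Gp j.g a b (pq j.Y x)) fun j => j.r ^ 2 :=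
  (p_G a b).ord.z le_rfl

theorem z_dG : Kz (n + 1) (fun (j : Dt n K B) x => (j.r ^ 4)⁻¹ * dG j.g (pq j.Y x)) fun _ => 1 :=
  (((((z_G 0 0).mul (z_G 1 1)).sub ((z_G 0 1).mul (z_G 0 1))).sm
    fun j => (inv_pos.2 (pow_pos j.r0 4)).le).eq fun j => by have := j.r0; field_simp).congr
      fun _ => .of_forall fun _ => by simp only [dG, sq]

theorem dG_ge (j : Dt n K B) : B⁻¹ ≤ (j.r ^ 4)⁻¹ * dG j.g (pq j.Y j.z) := by
  rw [le_inv_mul_iff₀ (pow_pos j.r0 4), mul_comm]; exact j.fp.pos.1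

theorem Dt.gd (j : Dt n K B) : Gd j.g j.Y j.z := by
  obtain ⟨o, m⟩ := j.lc.met
  have x := rp_tb o m
  filter_upwards [j.lc.sol, (z_De.sa j).cont.eventually_ne (y := 0) fun e => by
      have := j.de_ge; rw [e, mul_zero] at this; exact absurd (inv_pos.2 (pow_pos j.K0 4)) this.not_gt,
    (z_dG.sa j).cont.eventually_ne ((inv_pos.2 (one_pos.trans_le j.B1)).trans_le (dG_ge j)).ne',
    (z_κ.sa j).cont.eventually_ne ((inv_pos.2 j.K0).trans_le j.lc.kap.1).ne'] with y ⟨s, u, k⟩ a b c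
  exact ⟨tb j.g (Ph j.Y y), s.sm, x.eq _ u.1, x.symm _ u.1, k, ((ray _ _ j.Y o m).1 y s u).1,
    fun v => (x.eq _ u.1 ..).symm.trans (wv_eq o m u v), wv_ap o m u, a, right_ne_zero_of_mul b, c,
    ((hju _ _ o m).2.2.2.2.2.2 _ u).1.ne'⟩

theorem Dt.pull (j : Dt n K B) : ∃ O, j.z ∈ O ∧ Pull (Ph j.Y) j.h O j.g j.D := by
  obtain ⟨U, o, z, s, h⟩ := (sa_ph j.sa).on (j.gd.and j.lc.sol)
  exact ⟨U, z, o, j.lc.met.1, j.lc.met.2, s, fun y hy => (h y hy).2.2.1.1,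
    fun y hy => let ⟨_, p⟩ := (h y hy).1; p.inj, fun _ _ _ _ => rfl⟩

end Vale.Agent.P354YR.Rp
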