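import Vale.Agent.P354YR.Rp3

/-!
RPF: the metric in the chart of the rays.
-/

open scoped ContDiff
open Set Filter Topology

noncomputable section

namespace Vale.Agent.P354YR.Rp

open Vale.Agent.P354n (R4)
open Vale.Agent.P354RC (Rm)
open Vale.Agent.P354XD (tb)
open Vale.Agent.P354YQ (SA JB JD)
open Vale.Agent.P354SA Vale.Agent.P354LF
open Geo (Kc dv_mul dv_add dv_congr)

variable {n k : ℕ} {K B : ℝ} {F G : Dt n K B → R4 → ℝ} {f : Dt n K B → Q6 → ℝ}
  {μ ν : Dt n K B → ℝ}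

theorem ev {P : Dt n K B → R4 → Prop} (h : ∀ j x h, Pt j.g j.Y x h → P j x) (j : Dt n K B) :
    ∀ᶠ x in 𝓝 j.z, P j x := j.gd.mono fun x ⟨b, p⟩ => h j x b p

theorem low (h : Kz (n + 1) F μ) : Kz n F μ := h.ord n.le_succ
theorem le1 (h : Kz k F μ) (p : ∀ j, 0 ≤ ν j) (e : ∀ j, μ j ≤ ν j) : Kz k F ν :=
  h.wt (c := 1) p fun j => (e j).trans_eq (one_mul _).symm
theorem ri1 (j : Dt n K B) : j.r⁻¹ ≤ 1 := inv_le_one_of_one_le₀ j.r1
theorem rm (j : Dt n K B) : j.r⁻¹ ≤ j.m := j.lc.par.2.1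
theorem ri2 (j : Dt n K B) : (j.r ^ 2)⁻¹ = j.r⁻¹ * j.r⁻¹ := by rw [sq, mul_inv]
theorem mn (j : Dt n K B) : 0 ≤ j.m := j.m0.le

theorem p_H : Kp (n + 2) (fun j : Dt n K B => Hm j.g) fun j => j.r * j.m :=
  ⟨fun j => (mul_pos j.r0 j.m0).le, B, fun j => mul_assoc B _ _ ▸ j.fp.hm⟩

theorem p_W (c : Fin 2) : Kp (n + 1) (fun (j : Dt n K B) q => -dp c (Hm j.g) q) fun j => j.m :=
  let ⟨C, b⟩ := (p_H.dp c).bd
  ⟨mn, C, fun j => JB.mono (JB.congr ((JB.const (0 : ℝ)).sub (b j)) (.of_forall fun _ =>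
    (zero_sub _).symm)) (le_of_eq (by have := j.r0; rw [norm_zero]; field_simp; ring))⟩

theorem W_ev (c : Fin 2) (j : Dt n K B) :
    ∀ᶠ x in 𝓝 j.z, c2 c (Wv j.g (pq j.Y x)).2.2 = -dp c (Hm j.g) (pq j.Y x) :=
  j.lc.sol.mono fun x k => by
    rw [dp, (hm_p j.lc.met.1 j.lc.met.2 k.2.1 _).1]; fin_cases c <;> simp [dot, ep, c2]

theorem η_ev (c : Fin 2) (j : Dt n K B) :
    dv e0 (hη j.Y c) =ᶠ[𝓝 j.z] fun x => -dp c (Hm j.g) (pq j.Y x) := by
  filter_upwards [W_ev c j, j.gd] with x a ⟨_, p⟩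
  rw [← a, ← p.W, ph_fd p.sa, dv_hη p.sa]

theorem z_W (c : Fin 2) :
    Kz (n + 1) (fun (j : Dt n K B) x => c2 c (Wv j.g (pq j.Y x)).2.2) fun j => j.m :=
  ((p_W c).z le_rfl).congr (W_ev c)

theorem z_wr : Kz (n + 1) (fun (j : Dt n K B) x => (Wv j.g (pq j.Y x)).2.1) fun j => j.r * j.m :=
  ((p_H.ord.z le_rfl).add (Kc.sum fun b => (z_p b).mul (z_W b))).congr (ev fun _ _ _ p => p.Wr_eq)

theorem z_c1 : Kz (n + 1) (fun (j : Dt n K B) x => cc j.g (pq j.Y x) - 1) fun j => j.m :=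
  Kp.z (f := fun j x => cc j.g x - 1) (Kp.ord ⟨mn, B, fun j => j.fp.c.1⟩) le_rfl

theorem z_c : Kz (n + 1) (fun (j : Dt n K B) x => cc j.g (pq j.Y x)) fun _ => 1 :=
  ((z_c1.wt one Dt.mK).add (.cst (v := fun _ => 1) (C := 1) ne_z one (by simp))).congr
    fun _ => .of_forall fun _ => (sub_add_cancel ..).symm

theorem z_Om : Kz (n + 1) (fun j : Dt n K B => Om j.h) fun _ => 1 :=
  (z_c.mul1 z_κ).congr (ev fun _ _ _ p => p.Om_eq)

theorem z_dO : Kz n (fun j : Dt n K B => dv e0 (Om j.h)) fun j => j.m := by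
  have h : Kz n (fun j : Dt n K B => dv e0 (kv j.Y e1)) fun j => j.m :=
    ((((p_H.dr.ord.z n.le_succ).mul (low z_κ)).eq fun j => by have := j.r0; field_simp)).congr
      fun j => j.lc.sol.mono fun x k =>
        (((ray _ _ j.Y j.lc.met.1 j.lc.met.2).1 x k.1 k.2.1).2.2 e1 rfl).1
  refine ((((z_ds z_c1).mul (low z_κ)).eq fun _ => mul_one _).add ((low z_c).mul1 h)).congr
    fun j => (dv_congr (ev (fun _ _ _ p => p.Om_eq) j)).trans
      ((dv_mul (z_c.sa j) (z_κ.sa j)).trans (.of_forall fun x => ?_))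
  simp only [dv, fderiv_sub_const]

theorem z_gm (a b : Fin 2) : Kz n (fun j : Dt n K B => gm j.h a b) fun j => j.r ^ 2 :=
  (Kc.sum fun c => Kc.sum fun d => ((z_J a c).mul1 (z_J b d)).mul1 (low (z_G c d))).congr
    (ev fun _ _ _ p => p.gm_eq a b)

theorem z_dG' (a b : Fin 2) : Kz n (fun j : Dt n K B => dv e0 fun x => Gp j.g a b (pq j.Y x))
    fun j => j.r ^ 2 * j.m := by
  have h0 : Kz n (fun (j : Dt n K B) x => fderiv ℝ (Gp j.g a b) (pq j.Y x) (e0, 0))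
      fun j => j.r ^ 2 * j.m :=
    Kp.z (f := fun j x => fderiv ℝ (Gp j.g a b) x (e0, 0)) (Kp.ord (Kp.ord ⟨fun j => mul_nonneg
      (sq_nonneg _) (mn j), B, fun j => mul_assoc B _ _ ▸ (j.fp.G a b).2⟩)) n.le_succ
  have h1 := ((low z_wr).mul ((p_G (n := n) (K := K) (B := B) a b).dr.ord.z n.le_succ)).eq
    (ν := fun j => j.r ^ 2 * j.m) fun j => by have := j.r0; field_simp
  have h2 := fun c => ((low (z_W c)).mul (((p_G (n := n) (K := K) (B := B) a b).dy c).ord.z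
    n.le_succ)).eq fun j => mul_comm ..
  have h3 := fun c => ((((p_H.dy c).ord.z n.le_succ).add (((low (z_p c)).mul (p_H.dr.ord.z
    n.le_succ)).eq fun j => by have := j.r0; field_simp)).mul
      (((p_G (n := n) (K := K) (B := B) a b).dp c).ord.z n.le_succ)).eq
        (ν := fun j => j.r ^ 2 * j.m) fun j => by have := j.r0; field_simp
  refine (((h0.add h1).add (Kc.sum h2)).add (Kc.sum h3)).congr fun j => ?_
  filter_upwards [j.gd, j.lc.sol, (sa_pq j.sa).cont.eventually ((p_G a b).sa j).ev]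
    with x ⟨_, p⟩ k s
  rw [chain p.sa s.diff, p.W, k.1.ode.self_of_nhds, show ((Wv j.g (pq j.Y x),
    (P354SA.cf j.g (x, j.Y x)).2.2) : Q6) = (e0, 0) + (Wv j.g (pq j.Y x)).2.1 • (e1, 0) +
      ∑ c, c2 c (Wv j.g (pq j.Y x)).2.2 • (ey c, 0) + ∑ c, (Hd j.g (ey c) (pq j.Y x) +
        hp j.Y c x * Hd j.g e1 (pq j.Y x)) • (0, ep c) by
    ext <;> simp [e0, e1, ey, ep, c2, P354SA.cf, hp, pq]
    exact p.W1.1]
  simp only [map_add, map_sum, map_smul, smul_eq_mul]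
  rfl

theorem z_dg (a b : Fin 2) :
    Kz n (fun j : Dt n K B => dv e0 (gm j.h a b)) fun j => j.r ^ 2 * j.m := by
  have J : ∀ a c, Kz n (fun j : Dt n K B => dv e0 (Jm j.Y a c)) fun j => j.m := fun a c =>
    (z_dy ((p_W c).z le_rfl) a).congr fun j => EventuallyEq.trans
      ((sa_hη j.sa c).ev.mono fun _ s => dv_sy s ..) (dv_congr (η_ev c j))
  have m := fun c d => ((z_J (n := n) (K := K) (B := B) a c).mul1 (z_J b d)).mul1 (low (z_G c d))
  have h : ∀ c d, Kz n (fun j : Dt n K B => dv e0 fun x => Jm j.Y a c x * Jm j.Y b d x *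
      Gp j.g c d (pq j.Y x)) fun j => j.r ^ 2 * j.m := fun c d =>
    (((((((J a c).mul (z_J b d)).eq fun _ => mul_one _).add ((z_J a c).mul1 (J b d))).mul
      (low (z_G c d))).eq fun _ => mul_comm ..).add (((z_J a c).mul1 (z_J b d)).mul1
        (z_dG' c d))).congr fun j => by
      filter_upwards [dv_mul (v := e0) (((z_J a c).mul1 (z_J b d)).sa j) ((z_G c d).sa j),
        dv_mul (v := e0) ((z_J a c).sa j) ((z_J b d).sa j)] with x u v
      rw [u, v]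
  refine (((h 0 0).add (h 0 1)).add ((h 1 0).add (h 1 1))).congr fun j => (dv_congr
    (F := fun y => (_ + _) + (_ + _)) (j.gd.mono fun _ ⟨_, p⟩ => by
      simpa only [Fin.sum_univ_two] using p.gm_eq a b)).trans ?_
  filter_upwards [dv_add (v := e0) (((m 0 0).add (m 0 1)).sa j) (((m 1 0).add (m 1 1)).sa j),
    dv_add (v := e0) ((m 0 0).sa j) ((m 0 1).sa j), dv_add (v := e0) ((m 1 0).sa j) ((m 1 1).sa j)]
    with x u v w
  rw [u, v, w]

variable (hK : 0 < K) (hB : 0 < B)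
include hK

theorem z_Di : Kz n (fun (j : Dt n K B) x => (De j.Y x)⁻¹) fun _ => 1 :=
  (((z_De.mul1 z_De).inv (inv_pos.2 (pow_pos hK 4)) Dt.de_ge).mul1 z_De).congr
    (ev fun _ _ _ p => by have := p.De; field_simp)

theorem z_I (b a : Fin 2) : Kz n (fun j : Dt n K B => Im j.Y b a) fun _ => 1 := by
  have ng := fun a b => ((z_J (n := n) (K := K) (B := B) a b).cm (-1)).congr
    (G := fun j x => -Jm j.Y a b x) fun j => .of_forall fun x => by simp
  have : Kz n (fun j : Dt n K B => Ad j.Y b a) fun _ => 1 := by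
    fin_cases a <;> fin_cases b
    exacts [z_J 1 1, ng 1 0, ng 0 1, z_J 0 0]
  exact this.mul1 (z_Di hK)

include hB
omit hK in
theorem z_Gi : Kz (n + 1) (fun (j : Dt n K B) x => (dG j.g (pq j.Y x))⁻¹) fun j => (j.r ^ 4)⁻¹ :=
  (((z_dG.inv (inv_pos.2 hB) dG_ge).sm fun j => (inv_pos.2 (pow_pos j.r0 4)).le).eq
    fun _ => mul_one _).congr fun j => .of_forall fun x => by have := j.r0; field_simp

omit hK hB in
theorem z_zt (a : Fin 2) : Kz (n + 1) (fun (j : Dt n K B) x => zt j.g a (pq j.Y x)) fun _ => 1 :=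
  Kp.z (f := fun j => zt j.g a) (Kp.ord ⟨one, B, fun j => (mul_one B).symm ▸ j.fp.z a⟩) le_rfl

omit hK in
theorem z_Z (b : Fin 2) :
    Kz (n + 1) (fun (j : Dt n K B) x => Zq j.g b (pq j.Y x)) fun j => j.r⁻¹ * j.r⁻¹ := by
  have : Kz (n + 1) (fun (j : Dt n K B) x => Zn j.g b (pq j.Y x)) fun j => j.r ^ 2 * 1 := by
    fin_cases b
    exacts [((z_G 1 1).mul (z_zt 0)).sub ((z_G 0 1).mul (z_zt 1)),
      ((z_G 0 0).mul (z_zt 1)).sub ((z_G 0 1).mul (z_zt 0))]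
  exact (this.mul (z_Gi hB)).eq fun j => by have := j.r0; field_simp

omit hK in
theorem z_n (b : Fin 2) : Kz (n + 1) (fun j : Dt n K B => nq j.g j.Y b) fun j => j.r⁻¹ * j.r⁻¹ :=
  z_κ.mul1 (z_Z hB b)

omit hK in
theorem z_a0 : Kz (n + 1) (fun j : Dt n K B => a0 j.h) fun j => j.r⁻¹ := by
  have A : Kz (n + 1) (fun (j : Dt n K B) x => j.g (pq j.Y x).1 e1 e1) fun j => j.r⁻¹ :=
    Kp.z (f := fun j q => j.g q.1 e1 e1) (Kp.ord ⟨ri, B, fun j => j.fp.A⟩) le_rfl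
  have h := le1 (Kc.sum fun b => (z_Z (n := n) (K := K) hB b).mul (z_zt b)) ri fun j => by
    nlinarith [ri j, ri1 j]
  exact ((((z_κ.mul1 (h.sub A)).mul (z_c.inv one_half_pos fun j => j.fp.c.2.1)).eq
    fun _ => mul_one _).cm (1 / 2)).congr (ev fun _ _ _ p => p.a0_eq.trans (by ring))

theorem z_a1 (a : Fin 2) : Kz n (fun j : Dt n K B => a1 j.h a) fun _ => 1 :=
  (Kc.sum fun b => ((z_η b rfl).add (le1 (low (z_n hB b)) one fun j => by
    nlinarith [ri j, ri1 j])).mul1 (z_I hK b a)).congr (ev fun _ _ _ p => p.a1_eq a)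

theorem z_D1 (h : Kp (n + 1) f μ) :
    Kz n (fun j : Dt n K B => D1 j.g j.Y (f j)) fun j => j.r⁻¹ * μ j :=
  (((low z_κ).mul1 (h.dr.z n.le_succ)).add (Kc.sum fun c => (Kc.sum fun a => (z_I hK c a).mul1
    (z_dy z_κ a)).mul1 ((h.dp c).z n.le_succ))).sub (Kc.sum fun a => le1 ((Kc.sum fun b =>
      (low (z_n hB b)).mul (z_I hK b a)).mul (z_dy (h.z le_rfl) a)) h.dr.nn fun j =>
        mul_le_mul_of_nonneg_right (by nlinarith [ri j, ri1 j]) (h.nn j))

theorem sa_ev (j : Dt n K B) : ∀ᶠ x in 𝓝 j.z, Gd j.g j.Y x ∧ (∀ a, SA (a1 j.h a) x) ∧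
    ∀ c, SA (nq j.g j.Y c) x :=
  j.gd.eventually_nhds.and ((eventually_all.2 fun a => ((z_a1 hK hB a).sa j).ev).and
    (eventually_all.2 fun c => ((z_n hB c).sa j).ev))

theorem z_d1 (a : Fin 2) : Kz n (fun j : Dt n K B => dv e0 (a1 j.h a)) fun j => j.r⁻¹ * j.m := by
  refine ((Kc.sum fun c => ((z_D1 hK hB (p_W c)).add (le1 (z_ds (z_n hB c)) (z_D1 hK hB (p_W c)).nn
    fun j => mul_le_mul_of_nonneg_left (rm j) (ri j))).mul (z_I hK c a)).eq
      fun _ => mul_one _).congr fun j => ?_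
  filter_upwards [sa_ev hK hB j, eventually_all.2 fun c => (η_ev c j).eventually_nhds,
    eventually_all.2 fun c => (sa_pq j.sa).cont.eventually ((p_W c).sa j).ev] with x k e s
  exact k.1.d1_eq k.2.1 k.2.2 a (fun c => (s c).diff) e

theorem z_chi (a b : Fin 2) :
    Kz n (fun j : Dt n K B => lie j.h (lh j.h) a b) fun j => j.r ^ 2 * j.m := by
  have p := (z_dg (n := n) (K := K) (B := B) a b).nn
  refine (((le1 ((low (z_a0 hB)).mul (z_dg a b)) p fun j => mul_le_of_le_one_left (p j)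
    (ri1 j)).add (Kc.sum fun c => Kc.sum fun d => le1 (((z_J a c).mul1 (z_J b d)).mul1
      (z_D1 hK hB (p_G c d).ord)) p fun j => ?_)).sub (Kc.sum fun c => Kc.sum fun d => le1
        (((((z_dy (z_n hB c) a).mul (z_J b d)).eq fun _ => mul_one _).add ((z_J a c).mul1
          (z_dy (z_n hB d) b))).mul (low (z_G c d))) p fun j => ?_)).congr fun j => ?_
  · rw [mul_comm]; exact mul_le_mul_of_nonneg_left (rm j) (sq_nonneg _)
  · rw [mul_comm]
    exact mul_le_mul_of_nonneg_left ((mul_le_of_le_one_left (ri j) (ri1 j)).trans (rm j))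
      (sq_nonneg _)
  filter_upwards [sa_ev hK hB j, eventually_all.2 fun c => eventually_all.2 fun d =>
    (sa_pq j.sa).cont.eventually ((p_G c d).sa j).ev] with x k s
  exact k.1.lie_eq k.2.1 k.2.2 s a b

omit hK in
theorem z_cf (i a : Fin 4) : Kz n (fun j : Dt n K B => cf j.g j.Y j.r' i a) fun _ => 1 := by
  have c : ∀ c : ℝ, Kz n (fun (_ : Dt n K B) _ => c) fun _ => 1 := fun c =>
    .cst (C := |c|) ne_z one fun _ => (mul_one _).ge
  have A := fun c => (le1 (low (z_ρ.mul (z_n (n := n) (K := K) hB c))) one fun j => by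
    rw [← mul_assoc, mul_inv_cancel₀ j.r0.ne', one_mul]; exact ri1 j).cm (-1)
  have L := fun a c => (((low (z_ρ (n := n) (K := K) (B := B))).sm fun j =>
    (inv_pos.2 j.r0').le).wt (c := K) one fun j => by
      rw [inv_mul_le_iff₀ j.r0', mul_one, mul_comm]; exact j.r2).mul1 (z_J a c)
  fin_cases i <;> fin_cases a
  exacts [low z_κ, le1 (low (z_a0 hB)) one ri1, A 0, A 1, c 0, c 1, c 0, c 0, c 0, c 0, L 0 0,
    L 0 1, c 0, c 0, L 1 0, L 1 1]

omit hK in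
theorem z_cur (i o u w : Fin 4) :
    Kz n (fun j : Dt n K B => rie j.h (fv (lh j.h) e0 j.r') i o u w) fun j => j.m := by
  refine (Kc.sum fun a => (z_cf hB i a).mul1 (Kc.sum fun b => (z_cf hB o b).mul1 (Kc.sum fun c =>
    (z_cf hB u c).mul1 (Kc.sum fun d => (z_cf hB w d).mul1 (Kp.z (f := fun j q => Rm (tb j.g) q.1
      (fq j.g q a) (fq j.g q b) (fq j.g q c) (fq j.g q d)) (Kp.ord (Kp.ord ⟨mn, B, fun j =>
        j.fp.cur a b c d⟩)) n.le_succ))))).congr fun j => ?_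
  obtain ⟨O, z, P⟩ := j.pull
  filter_upwards [P.open'.mem_nhds z, j.gd, (z_ρ.sa j).cont.eventually_ne j.r0.ne'] with x a ⟨_, p⟩ r
  exact rie_eq P a p r ..

theorem z_a2 (a b : Fin 2) : Kz n (fun j : Dt n K B => a2 j.h a b) fun j => (j.r ^ 2)⁻¹ := by
  have u : Kz n (fun j : Dt n K B => fun x => ![![gm j.h 1 1 x, -gm j.h 0 1 x],
      ![-gm j.h 0 1 x, gm j.h 0 0 x]] a b) fun j => j.r ^ 2 := by
    have := ((z_gm (n := n) (K := K) (B := B) 0 1).cm (-1)).congr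
      (G := fun j x => -gm j.h 0 1 x) fun j => .of_forall fun x => by simp
    fin_cases a <;> fin_cases b
    exacts [z_gm 1 1, this, this, z_gm 0 0]
  exact (((((low z_Om).mul1 u).mul ((z_Di hK).mul1 ((z_Di hK).mul1 (low (z_Gi hB))))).cm (1 / 2)).eq
    fun j => by have := j.r0; field_simp).congr (ev fun _ _ _ p => by
      simp only [a2, gi, p.dg_eq]; ring)

omit hK in
theorem z_lr : Kz n (fun (j : Dt n K B) x => lr j.g j.Y x - kv j.Y e1 x) fun j => j.r⁻¹ :=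
  (((Kc.sum fun b => (low (z_n hB b)).mul (low (z_p b))).eq fun j => by
    have := j.r0; field_simp).cm (-1)).congr (ev fun _ _ _ p => by simp only [p.lr_eq]; ring)

end Vale.Agent.P354YR.Rp
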