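import Vale.Agent.P354YR.Nkg
import Vale.Agent.P354YA.Nis

/-!
The initial velocity is smooth on an open set.
-/

open scoped ContDiff
open Set Filter Topology Matrix

noncomputable section

namespace Vale.Agent.P354YR

open Vale.Agent.P354n (R4)
open Vale.Agent.P354I (rm rp)
open Vale.Agent.P354XE (gin rd xs Lo)
open Vale.Agent.P354XA (hor)
open Vale.Agent.P354RC (bs)
open Vale.Agent.P354XD (tb rp_tb)
open Vale.Agent.P354XV (Jet)
open Vale.Agent.P354YN (SA A3 U3 g0 ip lJ nJ zJ lj_at nj_at zj_at u3_open)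
open Vale.Agent.P354YT (Pm st_cd qm_cd Del_pos)
open Vale.Agent.P354YA
open Real (smoothTransition)

variable {c : Pm} {z : R4 × Jet 3}

theorem g0_at : P354YN.MS (fun y : R4 × Jet 3 => g0 y.2) z := SA.g0 contDiffAt_snd

theorem shp_at (d : (g0 z.2).det ≠ 0) {φ : R4 → R4 → ℝ} (h : ∀ v, SA (fun p => φ p v) z.1) :
    SA (fun y : R4 × Jet 3 => shp y.2 (φ y.1)) z :=
  SA.vc ((g0_at.inv d).mv (contDiffAt_pi.2 fun i => (h (bs i)).comp z contDiffAt_fst))

theorem dd_at (o : 0 < rd z.1) : SA (fun y : R4 × Jet 3 => dd c y.1) z :=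
  ((rd_at o).sub contDiffAt_const).comp z contDiffAt_fst

/-- The arguments of the natural fields. -/
def a3 (c : Pm) (y : R4 × Jet 3) : A3 := (c.M, y.2, n0 c y.1 y.2)

section
variable (h : c.Ok) (r : rp c.M c.a < rd z.1) (d : (g0 z.2).det ≠ 0)
include h r

theorem r_pos : 0 < rd z.1 := by linarith [(hor h.sub).2.1, (hor h.sub).2.2.1]

include d

theorem n0_at : SA (fun y : R4 × Jet 3 => n0 c y.1 y.2) z :=
  (shp_at d fun v => contDiffAt_const.sub (((qm_cd h.sub r).comp z.1 (rd_at (r_pos h r))).mul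
    (s_dr contDiffAt_id (xs_ne (r_pos h r)) v))).neg

theorem a3_at : SA (a3 c) z := contDiffAt_const.prodMk (contDiffAt_snd.prodMk (n0_at h r d))

theorem nn_at : SA (fun y : R4 × Jet 3 => ip y.2 (n0 c y.1 y.2) (n0 c y.1 y.2)) z :=
  SA.ip contDiffAt_snd (n0_at h r d) (n0_at h r d)

theorem n1_at (n : ip z.2 (n0 c z.1 z.2) (n0 c z.1 z.2) < 0) :
    SA (fun y : R4 × Jet 3 => n1 c y.1 y.2) z :=
  (((nn_at h r d).neg.sqrt (neg_pos.2 n).ne').inv (Real.sqrt_pos.2 (neg_pos.2 n)).ne').smul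
    (n0_at h r d)

theorem u0_at (k : 7 / 4 < dd c z.1 ∨ a3 c z ∈ U3) : SA (fun y : R4 × Jet 3 => u0 c y.1 y.2) z := by
  have o := r_pos h r
  have s : SA (fun y : R4 × Jet 3 => smoothTransition (7 / 2 - 2 * dd c y.1)) z :=
    st_cd.contDiffAt.comp z (contDiffAt_const.sub (contDiffAt_const.mul (dd_at o)))
  have t := rp_tb open_ne (gin_met (M := c.M) (a := c.a) fun _ h => h)
  refine ContDiffAt.add ?_ ((contDiffAt_const.sub s).smul
    (shp_at (φ := fun p => gin c.M c.a p (Lo c.M c.a p)) d fun v => ?_))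
  · rcases k with k | k
    · refine (contDiffAt_const (c := (0 : R4))).congr_of_eventuallyEq ?_
      filter_upwards [continuousAt_const.eventually_lt (dd_at o).continuousAt k] with y hy
      rw [smoothTransition.zero_of_nonpos (by linarith), zero_smul]
    · exact s.smul ((lj_at k).comp z (a3_at h r d))
  · exact (((t.at (xs_ne o)).clm_apply (s_Lo (xs_ne o) (Del_pos h.sub r).ne')).clm_apply
      contDiffAt_const).congr_of_eventuallyEq
      (mem_of_superset (open_ne.mem_nhds (xs_ne o)) fun q hq => t.eq q hq _ _)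

theorem u1_at (n : ip z.2 (n0 c z.1 z.2) (n0 c z.1 z.2) < 0) (k : 7 / 4 < dd c z.1 ∨ a3 c z ∈ U3) :
    SA (fun y : R4 × Jet 3 => u1 c y.1 y.2) z :=
  (u0_at h r d k).add ((SA.ip contDiffAt_snd (u0_at h r d k) (n1_at h r d n)).smul (n1_at h r d n))
end

theorem w_opn (h : c.Ok) : IsOpen (UW c) := isOpen_iff_mem_nhds.2 fun z hz => by
  obtain ⟨r, d, n, k, k'⟩ := hz
  have o := r_pos h r
  have e := (dd_at (c := c) o).continuousAt
  have u := u1_at h r d.ne n (k.imp id fun k => k.1)
  have e1 : ∀ᶠ y : R4 × Jet 3 in 𝓝 z, rp c.M c.a < rd y.1 :=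
    continuousAt_const.eventually_lt (rd_cont.comp continuous_fst).continuousAt r
  have e2 : ∀ᶠ y : R4 × Jet 3 in 𝓝 z, (g0 y.2).det < 0 :=
    g0_at.det.continuousAt.eventually_lt continuousAt_const d
  have e3 := (nn_at h r d.ne).continuousAt.eventually_lt continuousAt_const n
  have e4 : ∀ᶠ y : R4 × Jet 3 in 𝓝 z, 7 / 4 < dd c y.1 ∨
      a3 c y ∈ U3 ∧ ip y.2 (lJ (a3 c y) + nJ (a3 c y)) (zJ (a3 c y)) < 0 := by
    rcases k with k | k
    · exact (continuousAt_const.eventually_lt e k).mono fun _ => Or.inl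
    have a := a3_at h r d.ne
    have s : SA (fun y : R4 × Jet 3 => ip y.2 (lJ (a3 c y) + nJ (a3 c y)) (zJ (a3 c y))) z :=
      SA.ip contDiffAt_snd (((lj_at k.1).comp z a).add ((nj_at k.1).comp z a))
        ((zj_at k.1).comp (g := zJ) z a)
    exact ((a.continuousAt.eventually (u3_open.mem_nhds k.1)).and
      (s.continuousAt.eventually_lt continuousAt_const k.2)).mono fun _ => Or.inr
  have e5 : ∀ᶠ y : R4 × Jet 3 in 𝓝 z, dd c y.1 < 3 / 4 ∨
      0 < ip y.2 (u1 c y.1 y.2) (u1 c y.1 y.2) := by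
    rcases k' with k' | k'
    · exact (e.eventually_lt continuousAt_const k').mono fun _ => Or.inl
    · exact (continuousAt_const.eventually_lt (SA.ip contDiffAt_snd u u).continuousAt k').mono
        fun _ => Or.inr
  filter_upwards [e1, e2, e3, e4, e5] with y h1 h2 h3 h4 h5 using ⟨h1, h2, h3, h4, h5⟩

theorem w_sm (h : c.Ok) : ContDiffOn ℝ ∞ (W0 c) (UW c) := fun z hz => by
  obtain ⟨r, d, n, k, k'⟩ := hz
  have o := r_pos h r
  have e := dd_at (c := c) o
  have u := u1_at h r d.ne n (k.imp id fun k => k.1)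
  have t := tp_cd.contDiffAt.comp z e
  have f {φ : R4 → ℝ} (e : SA φ z.1) : SA (fun y : R4 × Jet 3 => φ y.1) z := e.comp z contDiffAt_fst
  refine (ContDiffAt.add ?_ ?_).contDiffWithinAt
  · rcases k with k | k
    · refine (contDiffAt_const (c := (0 : R4))).congr_of_eventuallyEq ?_
      filter_upwards [continuousAt_const.eventually_lt e.continuousAt k] with y hy
      rw [tp_zero (by linarith), zero_smul]
    · have a := a3_at h r d.ne
      exact t.smul ((((f (ca_at o)).smul ((zj_at k.1).comp z a)).add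
        ((f (cl_at o)).smul ((lj_at k.1).comp z a))).add ((f (cn_at o)).smul ((nj_at k.1).comp z a)))
  · rcases k' with k' | k'
    · refine (contDiffAt_const (c := (0 : R4))).congr_of_eventuallyEq ?_
      filter_upwards [e.continuousAt.eventually_lt continuousAt_const k'] with y hy
      rw [tp_one hy.le, sub_self, zero_smul]
    · exact (contDiffAt_const.sub t).smul
        (u.add (((SA.ip contDiffAt_snd u u).sqrt k'.ne').smul (n1_at h r d.ne n)))

end Vale.Agent.P354YR
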