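import Vale.Agent.P354YR.W1
import Vale.Agent.P354YN.Nat2

/-!
The initial velocity is natural under isometries which fix the slice.
-/

open scoped ContDiff
open Set Filter Topology
open Matrix hiding add_apply smul_apply neg_apply

noncomputable section

namespace Vale.Agent.P354YR

open Vale.Agent.P354n (R4)
open Vale.Agent.P354I (rm rp)
open Vale.Agent.P354R (Met Pull)
open Vale.Agent.P354XE (Tw gin rd xs dr eT Lo)
open Vale.Agent.P354XA (hor)
open Vale.Agent.P354RC (B2 bs sum_bs surj_of_inj at_df p_at)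
open Vale.Agent.P354XD (rp_tb)
open Vale.Agent.P354XV (Jet jet Lv)
open Vale.Agent.P354YN (A3 U3 g0 ip vc lJ nJ zJ lN zN Ad co_eq co_vc FLD NATU ip_jet g0_symm g0_det)
open Vale.Agent.P354YN.Na (mat det_mat rg)
open Vale.Agent.P354YT (Pm tb qm tb_d)
open Vale.Agent.P354YA
open Real (smoothTransition)

variable {c : Pm} {p : R4} {φ : R4 → ℝ} {T : R4 →L[ℝ] R4}

theorem lin_co (l : IsLinearMap ℝ φ) (v : R4) : (fun i => φ (bs i)) ⬝ᵥ P354YN.co v = φ v := by
  conv_rhs => rw [← sum_bs v]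
  rw [show φ = l.mk' φ from rfl, map_sum]
  simp only [dotProduct, co_eq, map_smul, smul_eq_mul, mul_comm]

theorem ip_shp {J : Jet 3} (s : (g0 J)ᵀ = g0 J) (d : (g0 J).det ≠ 0) (l : IsLinearMap ℝ φ) (v : R4) :
    ip J (shp J φ) v = φ v := by
  rw [ip, shp, co_vc, dotProduct_mulVec, ← mulVec_transpose, s, mulVec_mulVec,
    mul_nonsing_inv _ d.isUnit, one_mulVec, lin_co l]

theorem det_r1 {w : R4} (l : IsLinearMap ℝ φ) (e : ∀ u, T u = u + φ u • w) :
    LinearMap.det (T : R4 →ₗ[ℝ] R4) = 1 + φ w := by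
  rw [← det_mat, ← lin_co l, ← det_one_add_replicateCol_mul_replicateRow (ι := Unit)]
  refine congrArg _ (Matrix.ext fun a b => ?_)
  simp only [mat, of_apply, e, co_eq, map_add, map_smul, P354RC.cv_bs, Matrix.add_apply, one_apply,
    mul_apply, replicateCol_apply, replicateRow_apply, Finset.univ_unique, Finset.sum_singleton,
    smul_eq_mul, mul_comm, eq_comm]

theorem lin_dS (c : Pm) (p : R4) : IsLinearMap ℝ (dS c p) :=
  ⟨fun v w => by simp only [dS, dr, (lin_dT p).map_add, Prod.fst_add]; ring,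
    fun s v => by simp only [dS, dr, (lin_dT p).map_smul, Prod.smul_fst, smul_eq_mul]; ring⟩

/-- A map which fixes the slice fixes the vectors tangent to it. -/
theorem fix_sl (h : c.Ok) {f : R4 → R4} (hf : DifferentiableAt ℝ f p) (hp : p ∈ Sl c)
    (e : ∀ᶠ q in 𝓝 p, q ∈ Sl c → f q = q) {v : R4} (hv : dS c p v = 0) : fderiv ℝ f p v = v := by
  have o : 0 < rd p := by linarith [(hor h.sub).2.1, (hor h.sub).2.2.1, hp.1]
  obtain ⟨L, d, eL⟩ := hd_rd (xs_ne o)
  have k : HasFDerivAt (fun q : R4 => ((tb c.M c.a (rd q), q.2) : R4)) _ p :=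
    ((tb_d h.sub hp.1).comp_hasFDerivAt p d).prodMk hasFDerivAt_snd
  have e0 : ((tb c.M c.a (rd p), p.2) : R4) = p := Prod.ext hp.2.symm rfl
  have e1 : (fun q : R4 => f (tb c.M c.a (rd q), q.2)) =ᶠ[𝓝 p]
      fun q => ((tb c.M c.a (rd q), q.2) : R4) := by
    filter_upwards [k.continuousAt.eventually (e0.symm ▸ e),
      continuousAt_const.eventually_lt rd_cont.continuousAt hp.1] with q h1 h2 using h1 ⟨h2, rfl⟩
  have k2 := ((e0.symm ▸ hf.hasFDerivAt : HasFDerivAt f (fderiv ℝ f p) _).comp p k).unique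
    (k.congr_of_eventuallyEq e1)
  have e2 : ((qm c.M c.a (rd p) • L).prod (ContinuousLinearMap.snd ℝ ℝ _)) v = v :=
    Prod.ext (by simp only [dS] at hv; simp [eL]; linarith) rfl
  have := congrArg (· v) k2
  simpa only [ContinuousLinearMap.comp_apply, e2] using this

/-- The jets J', J are related by T, which fixes the kernel of dS. -/
structure Rl (c : Pm) (p : R4) (J' J : Jet 3) (T : R4 →L[ℝ] R4) (h : B2) (w : R4) : Prop where
  eq : ∀ u v, ip J u v = h u v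
  pb : ∀ u v, ip J' u v = h (T u) (T v)
  sy : ∀ u v, h u v = h v u
  ext : ∀ u v, (∀ x, h u (T x) = h v (T x)) → u = v
  sh : ∀ {φ}, IsLinearMap ℝ φ → ∀ v, ip J (shp J φ) v = φ v
  sh' : ∀ {φ}, IsLinearMap ℝ φ → ∀ v, ip J' (shp J' φ) v = φ v
  fx : ∀ u, T u = u + dS c p u • w
  pos : 0 < 1 + dS c p w

namespace Rl
variable {J' J : Jet 3} {h : B2} {w : R4} (r : Rl c p J' J T h w)
include r

theorem shp_T (l : IsLinearMap ℝ φ) :
    T (shp J' φ) = shp J φ + (φ w / (1 + dS c p w)) • n0 c p J := r.ext _ _ fun x => by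
  have := r.pos.ne'
  rw [← r.pb, r.sh' l, n0, map_add, map_smul, map_neg, add_apply, smul_apply, neg_apply, ← r.eq,
    ← r.eq, r.sh l, r.sh (lin_dS c p), r.fx, l.map_add, l.map_smul, (lin_dS c p).map_add,
    (lin_dS c p).map_smul]
  simp only [smul_eq_mul]
  field_simp
  ring

theorem n0_T : T (n0 c p J') = (1 + dS c p w)⁻¹ • n0 c p J := by
  have := r.pos.ne'
  rw [n0, map_neg, r.shp_T (lin_dS c p), n0]
  match_scalars
  field_simp
  ring

theorem nn : ip J' (n0 c p J') (n0 c p J') =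
    (1 + dS c p w)⁻¹ ^ 2 * ip J (n0 c p J) (n0 c p J) := by
  rw [r.pb, r.eq, r.n0_T]
  simp only [map_smul, smul_apply, smul_eq_mul]
  ring

theorem n1_T : T (n1 c p J') = n1 c p J := by
  have := r.pos
  rw [n1, n1, map_smul, r.n0_T, r.nn, smul_smul, ← mul_neg, Real.sqrt_mul (sq_nonneg _),
    Real.sqrt_sq (by positivity), mul_inv, inv_inv, mul_right_comm, mul_inv_cancel₀ this.ne', one_mul]

theorem u1_T (n : ip J (n0 c p J) (n0 c p J) < 0) {s : ℝ} (e : T (u0 c p J') = u0 c p J + s • n0 c p J) :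
    T (u1 c p J') = u1 c p J := by
  have q := Real.sqrt_pos.2 (neg_pos.2 n)
  have k := Real.mul_self_sqrt (neg_pos.2 n).le
  rw [u1, u1, map_add, map_smul, r.pb, r.n1_T, e, r.eq, map_add, add_apply, add_smul, add_assoc,
    add_comm (s • _), add_assoc, add_right_inj, add_eq_left, n1, map_smul, map_smul, smul_apply,
    smul_smul, ← add_smul, ← r.eq]
  generalize ip J (n0 c p J) (n0 c p J) = y at *
  generalize √(-y) = x at *
  rw [show y = -(x * x) by linarith]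
  refine smul_eq_zero_of_left ?_ _
  simp only [smul_eq_mul]
  field_simp
  ring
end Rl

theorem ad_smul (F : FLD) {g : Tw} {D : Set R4} (L : Lv g D) (hp : p ∈ D) {m s : ℝ} {w : R4}
    (hs : 0 < s) (a : Ad m g w p) : Ad m g (s • w) p ∧ lN m g (s • w) p = lN m g w p ∧
      P354YN.nN m g (s • w) p = P354YN.nN m g w p ∧ zN m g (s • w) p = zN m g w p := by
  have f := F m g D w p L hp a
  obtain ⟨h1, -, h2, h3, h4, -⟩ := f.ind (s • w) (by
    rw [(L.met.lin p hp _).map_smul]; exact mul_neg_of_pos_of_neg hs f.fut)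
  exact ⟨h1, h2, h3, h4⟩

theorem w_nat (F : FLD) (N : NATU) (h : c.Ok) {f : R4 → R4} {g' g : Tw} {D' D : Set R4}
    (P : Pull f g' D' g D) (L : Lv g D) (hp : p ∈ D') (hs : p ∈ Sl c)
    (hd : 0 < LinearMap.det (fderiv ℝ f p : R4 →ₗ[ℝ] R4)) (e : ∀ᶠ q in 𝓝 p, q ∈ Sl c → f q = q) :
    ((p, jet 3 g' p) ∈ UW c ↔ (p, jet 3 g p) ∈ UW c) ∧ ((p, jet 3 g' p) ∈ UW c →
      fderiv ℝ f p (W0 c (p, jet 3 g' p)) = W0 c (p, jet 3 g p)) := by
  have fp : f p = p := e.self_of_nhds hs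
  have hq : p ∈ D := fp ▸ P.maps hp
  have t := rp_tb L.isOpen L.met
  have m' : Met g' D' := (P354RC.rp_pb P t).met
  have fx : ∀ u, fderiv ℝ f p u = u + dS c p u • (fderiv ℝ f p eT - eT) := fun u => by
    have e1 : dS c p eT = 1 := by simp [dS, dr, dT_c, eT]
    have := fix_sl h (at_df (p_at P hp)) hs e (v := u - dS c p u • eT)
      (by rw [(lin_dS c p).map_sub, (lin_dS c p).map_smul, e1, smul_eq_mul, mul_one, sub_self])
    rw [map_sub, map_smul, sub_eq_iff_eq_add] at this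
    rw [this, smul_sub]; abel
  have r : Rl c p (jet 3 g' p) (jet 3 g p) (fderiv ℝ f p) (P354XD.tb g p) _ :=
    ⟨fun u v => (ip_jet L.isOpen L.met hq 3 u v).trans (t.eq p hq u v),
      fun u v => by rw [ip_jet P.open' m' hp, P.eq p hp, fp, t.eq p hq], t.symm p hq,
      fun u v k => t.ext hq fun x => by
        obtain ⟨x, rfl⟩ := surj_of_inj (P.inj p hp) x; exact k x,
      fun l => ip_shp (g0_symm L.isOpen L.met hq 3) (g0_det L.isOpen L.met hq 3) l,
      fun l => ip_shp (g0_symm P.open' m' hp 3) (g0_det P.open' m' hp 3) l, fx,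
      det_r1 (lin_dS c p) fx ▸ hd⟩
  have l0 := inv_pos.2 r.pos
  obtain ⟨-, -, -, a, b⟩ := N c.M f g' D' g D p (n0 c p (jet 3 g' p)) P L hp hd
  have dt := (rg P hp (by rwa [det_mat]) 3).neg
  rw [fp] at dt
  rw [fp, r.n0_T] at a b
  generalize (1 + dS c p (fderiv ℝ f p eT - eT))⁻¹ = s at l0 a b
  have a' : a3 c (p, jet 3 g' p) ∈ U3 ↔ a3 c (p, jet 3 g p) ∈ U3 := a.trans
    ⟨fun k => by
        have := (ad_smul F L hq (inv_pos.2 l0) k).1
        rwa [inv_smul_smul₀ l0.ne'] at this,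
      fun k => (ad_smul F L hq l0 k).1⟩
  have b' : a3 c (p, jet 3 g' p) ∈ U3 →
      fderiv ℝ f p (lJ (a3 c (p, jet 3 g' p))) = lJ (a3 c (p, jet 3 g p)) ∧
      fderiv ℝ f p (nJ (a3 c (p, jet 3 g' p))) = nJ (a3 c (p, jet 3 g p)) ∧
      fderiv ℝ f p (zJ (a3 c (p, jet 3 g' p))) = zJ (a3 c (p, jet 3 g p)) := fun k => by
    obtain ⟨-, -, b1, b2, b3, -⟩ := b k
    obtain ⟨-, c1, c2, c3⟩ := ad_smul F L hq l0 (a'.1 k)
    exact ⟨b1.trans c1, b2.trans c2, b3.trans c3⟩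
  clear a b
  have i3 : ip (jet 3 g' p) (n0 c p (jet 3 g' p)) (n0 c p (jet 3 g' p)) < 0 ↔
      ip (jet 3 g p) (n0 c p (jet 3 g p)) (n0 c p (jet 3 g p)) < 0 := by
    have := pow_pos (inv_pos.2 r.pos) 2
    rw [r.nn]
    exact ⟨fun k => neg_of_mul_neg_right k this.le, mul_neg_of_pos_of_neg this⟩
  have i4 : a3 c (p, jet 3 g' p) ∈ U3 → ip (jet 3 g' p) (lJ (a3 c (p, jet 3 g' p)) +
      nJ (a3 c (p, jet 3 g' p))) (zJ (a3 c (p, jet 3 g' p))) = ip (jet 3 g p)
      (lJ (a3 c (p, jet 3 g p)) + nJ (a3 c (p, jet 3 g p))) (zJ (a3 c (p, jet 3 g p))) := fun k => by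
    rw [r.pb, r.eq, map_add (fderiv ℝ f p), (b' k).1, (b' k).2.1, (b' k).2.2]
  have i5 : ip (jet 3 g p) (n0 c p (jet 3 g p)) (n0 c p (jet 3 g p)) < 0 →
      7 / 4 < dd c p ∨ a3 c (p, jet 3 g' p) ∈ U3 →
      fderiv ℝ f p (u1 c p (jet 3 g' p)) = u1 c p (jet 3 g p) := fun n k => by
    have l := (gin_met (M := c.M) (a := c.a) (D := {p}) fun _ k => k ▸
      xs_ne (r_pos (z := (p, jet 3 g p)) h hs.1)).lin p rfl (Lo c.M c.a p)
    refine r.u1_T n (s := (1 - smoothTransition (7 / 2 - 2 * dd c p)) * (gin c.M c.a p (Lo c.M c.a p)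
      (fderiv ℝ f p eT - eT) / (1 + dS c p (fderiv ℝ f p eT - eT)))) ?_
    rw [u0, u0, map_add, map_smul, map_smul, r.shp_T l, smul_add, smul_smul, ← add_assoc]
    rcases k with k | k
    · rw [smoothTransition.zero_of_nonpos (x := 7 / 2 - 2 * dd c p) (by linarith), zero_smul,
        zero_smul]
    · have := (b' k).1
      simp only [a3] at this
      rw [this]
  refine ⟨⟨fun ⟨k1, k2, k3, k4, k5⟩ => ⟨k1, dt.1 k2, i3.1 k3,
    k4.imp id fun k => ⟨a'.1 k.1, (i4 k.1).ge.trans_lt k.2⟩, k5.imp id fun k => ?_⟩,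
    fun ⟨k1, k2, k3, k4, k5⟩ => ⟨k1, dt.2 k2, i3.2 k3,
      k4.imp id fun k => ⟨a'.2 k.1, (i4 (a'.2 k.1)).trans_lt k.2⟩, k5.imp id fun k => ?_⟩⟩,
    fun ⟨_, _, k3, k4, _⟩ => ?_⟩
  · rwa [r.pb, i5 (i3.1 k3) (k4.imp id fun k => k.1), ← r.eq] at k
  · rwa [r.pb, i5 k3 (k4.imp id fun k => a'.2 k.1), ← r.eq]
  have u := i5 (i3.1 k3) (k4.imp id fun k => k.1)
  rw [W0, W0, map_add, map_smul, map_smul, u2, u2, map_add, map_smul, r.pb, u, r.n1_T, ← r.eq,
    add_left_inj]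
  rcases k4 with k | k
  · rw [tp_zero (le_trans (by norm_num) k.le), zero_smul, zero_smul]
  · obtain ⟨b1, b2, b3⟩ := b' k.1
    simp only [a3] at b1 b2 b3
    rw [Yv, Yv, map_add, map_add, map_smul, map_smul, map_smul, b1, b2, b3]

end Vale.Agent.P354YR
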